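import Crest.Agent.X261.Fib.SecB

/-!
# X261 / FIB, Ind (helper89): induction on the dimension of the target

From the dichotomy (`Dich`), the exclusion of the first alternative (`NBig`) and the separation of
the components of a fibre (`SepH`): the general fibres of an equivariant map are connected.
-/

set_option autoImplicit false
set_option linter.unusedSectionVars false

noncomputable section

open Set Metric Filter Topology

namespace Crest.Agent.X261.Fib.Mn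

open Crest.Agent.R275.Geo Crest.Agent.R275.Core144 Crest.Agent.R273.UCov_914
open Crest.Agent.R281.ThnM_280 Crest.Agent.R281.Thn_280 Crest.Agent.X261.Fib.Sec

/-! ### topology -/

theorem preconn_preimage {M Y : Type*} [TopologicalSpace M] [TopologicalSpace Y] {f : M → Y}
    {B : Set Y} (hB : IsPreconnected B) (ho : ∀ x, f x ∈ B → ∀ O ∈ 𝓝 x, f '' O ∈ 𝓝 (f x))
    (hf : ∀ t ∈ B, IsPreconnected (f ⁻¹' {t})) (hs : Function.Surjective f) :
    IsPreconnected (f ⁻¹' B) := by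
  rintro u v hu hv hsub ⟨x, hx, hxu⟩ ⟨y, hy, hyv⟩
  obtain ⟨t, ht, h1, h2⟩ := hB (interior (f '' u)) (interior (f '' v)) isOpen_interior
    isOpen_interior (fun t ht => by
      obtain ⟨z, rfl⟩ := hs t
      exact (hsub ht).imp (fun h => mem_interior_iff_mem_nhds.2 (ho z ht u (hu.mem_nhds h)))
        fun h => mem_interior_iff_mem_nhds.2 (ho z ht v (hv.mem_nhds h)))
    ⟨_, hx, mem_interior_iff_mem_nhds.2 (ho x hx u (hu.mem_nhds hxu))⟩
    ⟨_, hy, mem_interior_iff_mem_nhds.2 (ho y hy v (hv.mem_nhds hyv))⟩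
  obtain ⟨z₁, h3, h4⟩ := interior_subset h1
  obtain ⟨z₂, h5, h6⟩ := interior_subset h2
  have h7 : f ⁻¹' {t} ⊆ f ⁻¹' B := preimage_mono (singleton_subset_iff.2 ht)
  obtain ⟨z, hz, h8⟩ := hf t ht u v hu hv (h7.trans hsub) ⟨z₁, h4, h3⟩ ⟨z₂, h6, h5⟩
  exact ⟨z, h7 hz, h8⟩

theorem image_mem_nhds {q : ℕ} {M : Type} [TopologicalSpace M] {G : Type} [Group G]
    [MulAction G M] (S : Sys q M G) {x : M} (hx : x ∈ S.U) {O : Set M} (hO : O ∈ 𝓝 x) :
    S.a '' O ∈ 𝓝 (S.a x) := by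
  obtain ⟨h0, σ, h1, h2, h3⟩ := S.sec x hx
  have h4 := (h1.continuousAt (ball_mem_nhds _ h0)).preimage_mem_nhds (by rwa [h2])
  filter_upwards [h4, ball_mem_nhds _ h0] with t h5 h6 using ⟨σ t, h5, (h3 t h6).2⟩

/-- a closed thin set does not disconnect an open set -/
theorem preconn_diff {n : ℕ} {M : Type} [TopologicalSpace M] {B : Atl n M} {T Z : Set M}
    (hT : IsOpen T) (hc : IsPreconnected T) (hZ : SThM B Z) (ho : IsOpen (T \ Z)) :
    IsPreconnected (T \ Z) := by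
  classical
  rintro u v hu hv hsub ⟨x, hx, hxu⟩ ⟨y, hy, hyv⟩
  by_contra hcon
  have hdis : ∀ w ∈ T \ Z, w ∈ v → w ∉ u := fun w h1 h2 h3 => hcon ⟨w, h1, h3, h2⟩
  obtain ⟨g, hg, hgf⟩ := SThM.extend (f := fun w => if w ∈ u then 1 else 0) hT hZ ho
    (fun i z hz => by
      have h1 := ((B.e i).continuousAt_symm hz.1).tendsto
      rcases hsub hz.2 with h | h
      · refine ((differentiableAt_const (1 : ℂ)).congr_of_eventuallyEq ?_).differentiableWithinAt
        filter_upwards [h1.eventually (hu.mem_nhds h)] with w hw using if_pos hw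
      · refine ((differentiableAt_const (0 : ℂ)).congr_of_eventuallyEq ?_).differentiableWithinAt
        filter_upwards [h1.eventually (hv.mem_nhds h), h1.eventually (ho.mem_nhds hz.2)]
          with w hw hw' using if_neg (hdis _ hw' hw))
    fun z _ => ⟨univ, univ_mem, 1, fun w _ => by split_ifs <;> simp⟩
  have hgc : ∀ w ∈ T, ContinuousAt g w := fun w hw => by
    obtain ⟨i, hi⟩ := B.cover w
    have h1 := ((hg i).continuousOn.comp ((B.e i).continuousOn.mono inter_subset_left)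
      (s := (B.e i).source ∩ T) fun y hy =>
        ⟨(B.e i).map_source hy.1, by simpa [(B.e i).left_inv hy.1] using hy.2⟩).congr
      (g := g) fun y hy => by simp [(B.e i).left_inv hy.1]
    exact h1.continuousAt (((B.e i).open_source.inter hT).mem_nhds ⟨hi, hw⟩)
  have hfin : ({0, 1} : Set ℂ).Finite := toFinite _
  have hm : MapsTo g T ({0, 1} : Set ℂ) := fun w hw => by
    refine hfin.isClosed.closure_subset (mem_closure_image (hgc w hw)
      (hZ.dense_compl.open_subset_closure_inter hT hw) |> closure_mono ?_)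
    rintro _ ⟨z, hz, rfl⟩
    rw [hgf z hz]
    split_ifs <;> simp
  have h := hc.constant_of_mapsTo hfin.isDiscrete
    (fun w hw => (hgc w hw).continuousWithinAt) hm hx.1 hy.1
  rw [hgf x hx, hgf y hy, if_pos hxu, if_neg (hdis y hy hyv)] at h
  exact one_ne_zero h

/-! ### quotients -/

theorem exists_quot {q : ℕ} {V : Submodule ℂ (E q)} (hV : V ≠ ⊥) :
    ∃ q' < q, ∃ (P : E q →L[ℂ] E q') (R : E q' →L[ℂ] E q),
      (∀ w, P (R w) = w) ∧ ∀ v, P v = 0 ↔ v ∈ V := by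
  have h1 := V.finrank_quotient_add_finrank
  have h2 : 0 < Module.finrank ℂ V := Nat.pos_of_ne_zero fun h => hV (Submodule.finrank_eq_zero.1 h)
  let e := (Module.finBasis ℂ (E q ⧸ V)).equivFun
  let P : E q →ₗ[ℂ] E (Module.finrank ℂ (E q ⧸ V)) := e.toLinearMap ∘ₗ V.mkQ
  obtain ⟨R, hR⟩ := P.exists_rightInverse_of_surjective
    (LinearMap.range_eq_top.2 (e.surjective.comp V.mkQ_surjective))
  refine ⟨_, by simp at h1; omega, LinearMap.toContinuousLinearMap P,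
    LinearMap.toContinuousLinearMap R, fun w => LinearMap.congr_fun hR w, fun v => ?_⟩
  simp [P]

theorem exists_desc {q q' : ℕ} {P : E q →L[ℂ] E q'} {R : E q' →L[ℂ] E q} (hR : ∀ w, P (R w) = w)
    (L : E q ≃L[ℂ] E q) (hL : ∀ v, P v = 0 → P (L v) = 0) :
    ∃ L' : E q' ≃L[ℂ] E q', ∀ v, L' (P v) = P (L v) := by
  let T : E q' →ₗ[ℂ] E q' := (P : E q →ₗ[ℂ] E q') ∘ₗ (L : E q →ₗ[ℂ] E q) ∘ₗ (R : E q' →ₗ[ℂ] E q)
  have h1 : ∀ v, T (P v) = P (L v) := fun v => by
    have := hL (v - R (P v)) (by rw [map_sub, hR, sub_self])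
    rw [map_sub, map_sub, sub_eq_zero] at this
    exact this.symm
  have h2 : Function.Surjective T := fun w =>
    ⟨P (L.symm (R w)), by rw [h1, L.apply_symm_apply, hR]⟩
  exact ⟨(LinearEquiv.ofBijective T
    ⟨LinearMap.injective_iff_surjective.2 h2, h2⟩).toContinuousLinearEquiv, h1⟩

/-! ### the data -/

variable {n : ℕ} {X : Type} [TopologicalSpace X] {A : Atl n X} {G : Type} [Group G]

/-- an equivariant holomorphic map with discrete periods and a regular point -/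
structure Dat (D : MonD A G) (H : Subgroup G) {q : ℕ} (a : D.cov G → Cn q)
    (L : G → E q ≃L[ℂ] E q) (lam : G → E q) : Prop where
  hol : ∀ p, DifferentiableOn ℂ (fun z => a (((D.atl G).e p).symm z)) ((D.atl G).e p).target
  eqv : ∀ (g : G) e, (a (g • e)).ofLp = L g (a e).ofLp + lam g
  LH : ∀ g ∈ H, ∀ v, L g v = v
  disc : ∃ c : ℝ, 0 < c ∧ ∀ g ∈ H, lam g ≠ 0 → c ≤ ‖lam g‖
  reg : ∃ x, x ∉ Crit (D.atl G) univ a

/-- the system of the data -/
structure Of (D : MonD A G) (H : Subgroup G) {q : ℕ} (a : D.cov G → Cn q)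
    (L : G → E q ≃L[ℂ] E q) (lam : G → E q) (S : Sys q (D.cov G) G) : Prop where
  a_eq : S.a = fun x => (a x).ofLp
  L_eq : S.L = L
  lam_eq : S.lam = lam
  H_eq : S.H = H
  U_eq : S.U = (Crit (D.atl G) univ a)ᶜ
  D_eq : S.D0 = S.a '' Crit (D.atl G) univ a
  onto : Function.Surjective S.a
  rho_inv : ∀ g ∈ H, ∀ x, S.rho (g • x) = S.rho x
  low : ∀ p, ∀ K : Set (Cn n), IsCompact K → K ⊆ ((D.atl G).e p).target →
    ∃ c : ℝ, 0 < c ∧ ∀ z ∈ K, ∀ u : Fin q → Cn n, (∀ l, ‖u l‖ ≤ 1) →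
      c * ‖(mnr (fderiv ℂ (fun z => S.a (((D.atl G).e p).symm z)) z) u).det‖ ^ 2 ≤
        min (S.rho (((D.atl G).e p).symm z)) 1

variable {D : MonD A G} {H : Subgroup G}

theorem Dat.exists_of [CompactSpace X] [T2Space X] [Finite A.ι] [PreconnectedSpace (D.cov G)]
    [H.FiniteIndex] {q : ℕ} {a : D.cov G → Cn q} {L : G → E q ≃L[ℂ] E q} {lam : G → E q}
    (h : Dat D H a L lam) : ∃ S, Of D H a L lam S := by
  obtain ⟨S, h1, h2, h3, h4, h5, h6, h7, h8, h9⟩ := exists_sys D h.hol h.eqv H h.LH h.disc h.reg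
  exact ⟨S, h1, h2, h3, h4, h5, h6, h7, h8, h9⟩

/-- the quotient data -/
theorem Dat.quot {q q' : ℕ} {a : D.cov G → Cn q} {L : G → E q ≃L[ℂ] E q} {lam : G → E q}
    (h : Dat D H a L lam) {P : E q →L[ℂ] E q'} {R : E q' →L[ℂ] E q} (hR : ∀ w, P (R w) = w)
    {L' : G → E q' ≃L[ℂ] E q'} (hL : ∀ g v, L' g (P v) = P (L g v))
    (hr : ∃ c : ℝ, 0 < c ∧ ∀ g ∈ H, ∀ v, P v = 0 → ‖lam g - v‖ < c → P (lam g) = 0) :
    Dat D H (fun x => (WithLp.toLp 2 (P (a x).ofLp) : Cn q')) L' fun g => P (lam g) := by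
  let T : Cn q →L[ℂ] Cn q' := ((EuclideanSpace.equiv (Fin q') ℂ).symm : E q' →L[ℂ] Cn q') ∘L P ∘L
    (EuclideanSpace.equiv (Fin q) ℂ : Cn q →L[ℂ] E q)
  have hT : Function.Surjective T := fun w =>
    ⟨WithLp.toLp 2 (R w.ofLp), congrArg (WithLp.toLp 2) (hR w.ofLp)⟩
  refine ⟨fun p => T.differentiable.comp_differentiableOn (h.hol p), fun g e => ?_,
    fun g hg v => by rw [← hR v, hL, h.LH g hg], ?_, ?_⟩
  · simp only [h.eqv, map_add, hL]
  · obtain ⟨c, hc, hr⟩ := hr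
    refine ⟨c / (‖R‖ + 1), by positivity, fun g hg hne => ?_⟩
    by_contra hlt
    refine hne (hr g hg (lam g - R (P (lam g))) (by rw [map_sub, hR, sub_self]) ?_)
    rw [sub_sub_cancel]
    rw [not_le, lt_div_iff₀ (by positivity)] at hlt
    have := R.le_opNorm (P (lam g))
    nlinarith [norm_nonneg (P (lam g))]
  · obtain ⟨x, hx⟩ := h.reg
    refine ⟨x, fun ⟨_, p, hp, hn⟩ => hn ?_⟩
    have h1 := (T.hasFDerivAt.comp _ ((h.hol p).differentiableAt
      (((D.atl G).e p).open_target.mem_nhds (((D.atl G).e p).map_source hp))).hasFDerivAt).fderiv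
    exact h1.symm ▸ hT.comp (surj_of_not_crit (mem_univ x) hx hp)

variable (D H) in
/-- the first alternative does not occur -/
def NBig : Prop := ∀ q : ℕ, 1 ≤ q → ∀ (a : D.cov G → Cn q) (L : G → E q ≃L[ℂ] E q)
  (lam : G → E q) (S : Sys q (D.cov G) G), Dat D H a L lam → Of D H a L lam S → ¬ S.Big

variable (D H) in
/-- separation of the components of a general fibre -/
def SepH : Prop := ∀ q : ℕ, 1 ≤ q → ∀ (a : D.cov G → Cn q) (L : G → E q ≃L[ℂ] E q)
  (lam : G → E q) (S : Sys q (D.cov G) G), Dat D H a L lam → Of D H a L lam S →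
    ∀ t ∉ S.D0, ∀ x₁ x₂, S.a x₁ = t → S.a x₂ = t →
      x₂ ∉ connectedComponentIn (S.a ⁻¹' {t}) x₁ → ∃ h, S.HF h ∧ h x₁ ≠ h x₂

variable (D) in
/-- the dichotomy -/
def Dich : Prop := ∀ (q : ℕ) (S : Sys q (D.cov G) G), S.Big ∨ ∃ V, S.Dir V

/-- the general fibres are connected -/
def Conn {q : ℕ} (a : D.cov G → Cn q) (L : G → E q ≃L[ℂ] E q) (lam : G → E q) : Prop :=
  ∃ D1 : Set (E q), IsClosed D1 ∧ STh D1 ∧ (∀ g, ∀ t ∈ D1, L g t + lam g ∈ D1) ∧
    (∀ x, (a x).ofLp ∉ D1 → x ∉ Crit (D.atl G) univ a) ∧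
    ∀ t ∉ D1, IsPreconnected ((fun x => (a x).ofLp) ⁻¹' {t})

/-- **induction** -/
theorem conn_of [CompactSpace X] [T2Space X] [Finite A.ι] [PreconnectedSpace (D.cov G)]
    [H.FiniteIndex] (hd : Dich D) (hb : NBig D H) (hs : SepH D H) (q : ℕ) :
    ∀ (a : D.cov G → Cn q) (L : G → E q ≃L[ℂ] E q) (lam : G → E q), Dat D H a L lam →
      Conn a L lam := by
  induction q using Nat.strong_induction_on with
  | _ q ih =>
  intro a L lam h
  rcases Nat.eq_zero_or_pos q with rfl | hq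
  · refine ⟨∅, isClosed_empty, sth_empty, fun _ _ h => h, fun x _ ⟨_, p, _, hn⟩ =>
      hn fun w => ⟨0, Subsingleton.elim _ _⟩, fun t _ => ?_⟩
    rw [eq_univ_of_forall (s := _ ⁻¹' {t}) fun x => Subsingleton.elim _ _]
    exact isPreconnected_univ
  obtain ⟨S, hS⟩ := h.exists_of
  obtain ⟨V, hV⟩ := (hd q S).resolve_left (hb q hq a L lam S h hS)
  obtain ⟨q', hq', P, R, hR, hP⟩ := exists_quot hV.ne
  choose L' hL' using fun g => exists_desc hR (L g) fun v hv =>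
    (hP _).2 (hS.L_eq ▸ hV.inv g v ((hP v).1 hv))
  have h' := h.quot hR hL' (by
    obtain ⟨c, hc, h1⟩ := hV.rat
    rw [hS.H_eq, hS.lam_eq] at h1
    exact ⟨c, hc, fun g hg v hv h2 => (hP _).2 (h1 g hg v ((hP v).1 hv) h2)⟩)
  obtain ⟨S', hS'⟩ := h'.exists_of
  obtain ⟨D1, h1, h2, h3, h4, h5⟩ := ih q' hq' _ _ _ h'
  have ha' : ∀ x, S'.a x = P (S.a x) := fun x => by rw [hS'.a_eq, hS.a_eq]
  refine ⟨S.D0 ∪ P ⁻¹' D1, S.closed.union (h1.preimage P.continuous), S.sth.union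
    ((h2.preimage isOpen_univ (fun z _ => P.analyticAt z) fun z _ => by
      rw [P.fderiv]; exact fun w => ⟨R w, hR w⟩).mono fun z hz => ⟨trivial, hz⟩), ?_, ?_, ?_⟩
  · rintro g t (ht | ht)
    · rw [hS.D_eq] at ht ⊢
      obtain ⟨x, hx, rfl⟩ := ht
      refine Or.inl ⟨g • x, ?_, by rw [S.eqv, hS.L_eq, hS.lam_eq]⟩
      by_contra hc
      exact not_crit_deck D h.eqv g⁻¹ hc (by rwa [inv_smul_smul])
    · refine Or.inr ?_
      rw [mem_preimage, map_add, ← hL']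
      exact h3 g _ ht
  · intro x hx
    have := S.reg x (by rw [hS.a_eq]; exact fun h => hx (Or.inl h))
    rwa [hS.U_eq] at this
  intro t ht
  rw [← hS.a_eq]
  have ht0 : t ∉ S.D0 := fun h => ht (Or.inl h)
  have ht1 : P t ∉ D1 := fun h => ht (Or.inr h)
  obtain ⟨r, hr, hinj⟩ := hV.inj t ht0
  obtain ⟨ε, hε, hball⟩ := Metric.isOpen_iff.1 h1.isOpen_compl _ ht1
  set δ := min ε (r / (‖R‖ + 1)) with hδ
  have hδ0 : 0 < δ := lt_min hε (by positivity)
  have hD1 : ∀ s ∈ ball (P t) δ, s ∉ D1 := fun s hs => hball (ball_subset_ball (min_le_left _ _) hs)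
  have hT : IsPreconnected (S'.a ⁻¹' ball (P t) δ) :=
    preconn_preimage (convex_ball _ _).isPreconnected (fun x hx O hO => image_mem_nhds S' (by
      rw [hS'.U_eq]
      exact h4 x (hD1 _ (by rwa [hS'.a_eq] at hx))) hO)
      (fun s hs => by rw [hS'.a_eq]; exact h5 s (hD1 s hs)) hS'.onto
  have hTo : IsOpen (S'.a ⁻¹' ball (P t) δ) := isOpen_ball.preimage S'.cont_a
  obtain ⟨x0, hx0⟩ := h.reg
  have hW := preconn_diff hTo hT (sthM_crit isOpen_univ isPreconnected_univ (hol_univ h.hol)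
    ⟨x0, trivial, hx0⟩) (hTo.inter (t := (Crit (D.atl G) univ a)ᶜ) (hS.U_eq ▸ S.op))
  have hmem : ∀ x, S.a x = t → x ∈ S'.a ⁻¹' ball (P t) δ \ Crit (D.atl G) univ a := fun x hx =>
    ⟨by rw [mem_preimage, ha', hx]; exact mem_ball_self hδ0, by
      have := S.reg x (hx.symm ▸ ht0)
      rwa [hS.U_eq] at this⟩
  refine isPreconnected_of_forall_pair fun x₁ hx₁ x₂ hx₂ =>
    ⟨_, connectedComponentIn_subset _ x₁, mem_connectedComponentIn hx₁, ?_,
      isPreconnected_connectedComponentIn⟩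
  by_contra hn
  obtain ⟨f, hf, hne⟩ := hs q hq a L lam S h hS t ht0 x₁ x₂ hx₁ hx₂ hn
  refine hne (hinj _ (fun x hx => hS.U_eq ▸ hx.2) hW (fun x hx => ?_) x₁ (hmem x₁ hx₁) x₂
    (hmem x₂ hx₂) hx₁ hx₂ f hf)
  refine ⟨S.a x - t - R (P (S.a x - t)), (hP _).1 (by rw [map_sub, hR, sub_self]), ?_⟩
  have h6 : ‖P (S.a x - t)‖ < r / (‖R‖ + 1) := by
    rw [map_sub, ← ha', ← mem_ball_iff_norm]
    exact ball_subset_ball (min_le_right _ _) hx.1
  rw [sub_sub_cancel]
  rw [lt_div_iff₀ (by positivity)] at h6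
  have := R.le_opNorm (P (S.a x - t))
  nlinarith [norm_nonneg (P (S.a x - t))]

end Crest.Agent.X261.Fib.Mn
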