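import Crest.Agent.X261.Fib.Ind
import Crest.Agent.X261.Bog.Use
import Crest.Agent.X261.Uen.Wdg

/-!
# X261 / FIB, Big (helper89): the first alternative does not occur without Bogomolov sheaves

Norms over `G ⧸ H` of polynomials in the invariant functions are sections of a power of the line
field of `d a_1 ∧ … ∧ d a_q`.
-/

set_option autoImplicit false
set_option linter.unusedSectionVars false

noncomputable section

open Set Metric Filter Topology
open scoped Matrix

namespace Crest.Agent.X261.Fib.Mn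

open Crest.Agent.R275.Geo Crest.Agent.R275.Core144 Crest.Agent.R273.UCov_914
open Crest.Agent.R281.ThnM_280 Crest.Agent.R281.Thn_280 Crest.Agent.X261.Fib.Sec
open Crest.Agent.R281.Kd_22 Crest.Agent.X261.Bog
open Crest.Agent.R273.Fock_243 (FI Gam)
open Crest.Agent.R273.SteinC_794 (df)
open Crest.Agent.X261.Uen (fm cv dF)

/-! ### auxiliary lemmas -/

theorem exists_gen {Y W ι : Type*} [TopologicalSpace Y] [TopologicalSpace W] [T2Space W]
    (u : ι → Y → W) (w : Y → W) (s : Finset ι) {O : Set Y} (hO : IsOpen O) (hne : O.Nonempty)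
    (hu : ∀ v, ∀ y ∈ O, ContinuousAt (u v) y) (hw : ∀ y ∈ O, ContinuousAt w y) :
    ∃ O' ⊆ O, IsOpen O' ∧ O'.Nonempty ∧
      ∀ v ∈ s, (∀ y ∈ O', u v y ≠ w y) ∨ ∀ y ∈ O', u v y = w y := by
  classical
  induction s using Finset.induction_on with
  | empty => exact ⟨O, subset_rfl, hO, hne, by simp⟩
  | insert v s _ ih =>
    obtain ⟨O', h1, h2, h3, h4⟩ := ih
    by_cases h : ∀ y ∈ O', u v y = w y
    · exact ⟨O', h1, h2, h3, Finset.forall_mem_insert _ _ _ |>.2 ⟨Or.inr h, h4⟩⟩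
    push Not at h
    refine ⟨{y | y ∈ O' ∧ u v y ≠ w y}, fun y hy => h1 hy.1, isOpen_iff_mem_nhds.2 fun y hy =>
      inter_mem (h2.mem_nhds hy.1) (((hu v y (h1 hy.1)).prodMk (hw y (h1 hy.1))).eventually_mem
        (isClosed_diagonal.isOpen_compl.mem_nhds hy.2)), h,
      Finset.forall_mem_insert _ _ _ |>.2 ⟨Or.inl fun y hy => hy.2, fun v' hv' =>
        (h4 v' hv').imp (fun h y hy => h y hy.1) fun h y hy => h y hy.1⟩⟩

/-- the coordinate covectors -/
abbrev pj (q : ℕ) (k : Fin q) : E q →L[ℂ] ℂ := ContinuousLinearMap.proj k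

theorem li_of_surj {V : Type*} [NormedAddCommGroup V] [NormedSpace ℂ V] {q : ℕ}
    {T : V →L[ℂ] E q} (h : Function.Surjective T) :
    LinearIndependent ℂ fun k => (pj q k).comp T := by
  refine Fintype.linearIndependent_iff.2 fun c hc j => ?_
  obtain ⟨v, hv⟩ := h (Pi.single j 1)
  simpa [hv, Pi.single_apply] using congrArg (fun S : V →L[ℂ] ℂ => S v) hc

theorem wdg_comp {n q : ℕ} (L : E q →L[ℂ] E q) (T : Cn n →L[ℂ] E q) :
    (Top.wdg fun k => cv n ((pj q k).comp (L.comp T))) =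
      LinearMap.det (L : E q →ₗ[ℂ] E q) • Top.wdg fun k => cv n ((pj q k).comp T) := by
  rw [← LinearMap.det_toMatrix', ← Plk.wdg_lin]
  congr 1
  funext k b
  have := congrFun (LinearMap.toMatrix'_mulVec (L : E q →ₗ[ℂ] E q)
    (T (EuclideanSpace.single b 1))) k
  simpa [Uen.cv_apply, Matrix.mulVec, dotProduct] using this.symm

section df

variable {n : ℕ} {X : Type} [TopologicalSpace X] {A : Atl n X} {i : A.ι} {x : X}

theorem df_congr' (hx : x ∈ (A.e i).source) {f g : X → ℂ} (h : f =ᶠ[𝓝 x] g) :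
    df A i f x = df A i g x := Filter.EventuallyEq.fderiv_eq ((ev_iff hx).1 h)

theorem df_prod_one {ι : Type*} (s : Finset ι) {g : ι → X → ℂ} (hx : x ∈ (A.e i).source)
    (hg : ∀ v, Hm A (g v) x) (h1 : ∀ v, g v x = 1) :
    df A i (fun y => ∏ v ∈ s, g v y) x = ∑ v ∈ s, df A i (g v) x := by
  classical
  induction s using Finset.induction_on with
  | empty => simpa using df_const 1
  | insert v s hv ih =>
    simp only [Finset.prod_insert hv, Finset.sum_insert hv]
    rw [df_mul' (hg v) (hm_prod s fun k _ => hg k) hx, ih]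
    simp [h1, add_comm]

end df

section ex

variable {n p : ℕ} {X : Type} [TopologicalSpace X] {A : Atl n X} {F : LF A p} {W : F.κ → Set X}

theorem ext_le {m m' : ℕ} {g : F.κ → X → ℂ} (h : F.Ext W m g) (hm : m ≤ m') : F.Ext W m' g := by
  intro a x hx S
  obtain ⟨H, h1, h2⟩ := h a x hx S
  refine ⟨fun y => H y * F.τ a y S ^ (m' - m), h1.mul ((F.hm a x hx S).pow _), ?_⟩
  filter_upwards [h2] with y hy hW
  rw [hy hW, mul_assoc, ← pow_add, Nat.add_sub_cancel' hm]

variable (F W) in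
/-- poles of finite order -/
def Ex (g : F.κ → X → ℂ) : Prop := ∃ m, F.Ext W m g

theorem ex_const (c : ℂ) : Ex F W fun _ _ => c :=
  ⟨0, by simpa using LF.Ext.smul c (LF.ext_one (F := F) (W := W))⟩

theorem Ex.mul {g g' : F.κ → X → ℂ} (h : Ex F W g) (h' : Ex F W g') :
    Ex F W fun a y => g a y * g' a y := h.elim fun _ h => h'.elim fun _ h' => ⟨_, h.mul h'⟩

theorem Ex.add {g g' : F.κ → X → ℂ} (h : Ex F W g) (h' : Ex F W g') :
    Ex F W fun a y => g a y + g' a y := h.elim fun m h => h'.elim fun m' h' =>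
  ⟨m + m', (ext_le h (Nat.le_add_right _ _)).add (ext_le h' (Nat.le_add_left _ _))⟩

theorem ex_prod {ι : Type*} (s : Finset ι) {g : ι → F.κ → X → ℂ} (h : ∀ v, Ex F W (g v)) :
    Ex F W fun a y => ∏ v ∈ s, g v a y := by
  classical
  induction s using Finset.induction_on with
  | empty => simpa using ex_const 1
  | insert v s hv ih => simpa only [Finset.prod_insert hv] using (h v).mul ih

end ex

/-! ### the line field -/

variable {n : ℕ} {X : Type} [TopologicalSpace X] {A : Atl n X} {G : Type} [Group G]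
  {D : MonD A G} {H : Subgroup G} {q : ℕ} {a : D.cov G → Cn q} {L : G → E q ≃L[ℂ] E q}
  {lam : G → E q}

variable (D a) in
/-- the form `d a_1 ∧ … ∧ d a_q` on the sheet `v` -/
def bt (i : A.ι) (v : G) (x : X) : FI n → ℂ :=
  fm (D.atl G) (fun e => (a e).ofLp) (pj q) (i, v) (D.pt i v x)

variable (D a) in
/-- regular points -/
def Wd (i : A.ι) : Set X := {x | x ∈ (A.e i).source ∧ D.pt i 1 x ∉ Crit (D.atl G) univ a}

theorem Dat.holV (h : Dat D H a L lam) : Uen.HolV (D.atl G) fun e => (a e).ofLp := fun p =>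
  (EuclideanSpace.equiv (Fin q) ℂ).differentiable.comp_differentiableOn (h.hol p)

theorem Dat.bt_deck (h : Dat D H a L lam) {i : A.ι} {x : X} (hx : x ∈ (A.e i).source) (v g : G) :
    bt D a i v x = LinearMap.det (L g : E q →ₗ[ℂ] E q) • bt D a i (v * g) x := by
  rw [bt, bt, Uen.fm_of_mem _ (D.pt_mem_source (p := (i, v)) hx),
    Uen.fm_of_mem _ (D.pt_mem_source (p := (i, v * g)) hx)]
  have h1 : dF (D.atl G) (i, v) (fun e => (a e).ofLp) (D.pt i v x) =
      (L g : E q →L[ℂ] E q).comp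
        (dF (D.atl G) (i, v * g) (fun e => (a e).ofLp) (D.pt i (v * g) x)) := by
    unfold dF
    rw [read_deck D h.eqv g, fderiv_add_const]
    exact (L g).comp_fderiv
  rw [h1]
  exact wdg_comp _ _

theorem Dat.tp_bt (h : Dat D H a L lam) {i j : A.ι} {x : X} (hi : x ∈ (A.e i).source)
    (hj : x ∈ (A.e j).source) : ∃ g : G, tp A i j x (bt D a j 1 x) =
      LinearMap.det (L g : E q →ₗ[ℂ] E q) • bt D a i 1 x := by
  refine ⟨(D.c j i x)⁻¹, ?_⟩
  have h1 := h.bt_deck hi (D.c j i x) (D.c j i x)⁻¹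
  have h2 : D.pt j (1 : G) x = D.pt i (D.c j i x) x := by rw [D.pt_eq 1 hj hi, smul_eq_mul, mul_one]
  rw [mul_inv_cancel] at h1
  rw [← h1, bt, bt, (h.holV.fm_mem (pj q)).2.2.2 (i, D.c j i x) (j, 1) _
    ⟨D.pt_mem_source (p := (i, _)) hi, h2 ▸ D.pt_mem_source (p := (j, 1)) hj⟩, h2]
  rfl

theorem Dat.mem_Wd (h : Dat D H a L lam) {i : A.ι} {x : X} (hx : x ∈ Wd D a i) (v : G) :
    D.pt i v x ∉ Crit (D.atl G) univ a := by
  simpa [D.deck_pt] using not_crit_deck D h.eqv v⁻¹ hx.2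

theorem Dat.of_not_crit (h : Dat D H a L lam) {i : A.ι} {x : X} (hx : x ∈ (A.e i).source) {v : G}
    (hv : D.pt i v x ∉ Crit (D.atl G) univ a) : x ∈ Wd D a i :=
  ⟨hx, by simpa [D.deck_pt] using not_crit_deck D h.eqv v hv⟩

theorem Dat.surj (_ : Dat D H a L lam) {i : A.ι} {x : X} (hx : x ∈ Wd D a i) : Function.Surjective
    (dF (D.atl G) (i, 1) (fun e => (a e).ofLp) (D.pt i 1 x)) :=
  (surj_ofLp _ _).2 (surj_of_not_crit (mem_univ _) hx.2 (D.pt_mem_source (p := (i, 1)) hx.1))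

theorem Dat.bt_ne (h : Dat D H a L lam) {i : A.ι} {x : X} (hx : x ∈ Wd D a i) :
    bt D a i 1 x ≠ 0 := Uen.fm_ne (D.pt_mem_source (p := (i, 1)) hx.1) (li_of_surj (h.surj hx))

theorem Dat.an_bt (h : Dat D H a L lam) (i : A.ι) (v : G) (S : FI n) :
    DifferentiableOn ℂ (fun z => bt D a i v ((A.e i).symm z) S) (A.e i).target :=
  DifferentiableOn.mono ((h.holV.fm_mem (pj q)).1 (i, v) S) fun _ hz => ⟨hz, trivial⟩

theorem Dat.isOpen_Wd (h : Dat D H a L lam) (i : A.ι) : IsOpen (Wd D a i) :=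
  (D.continuousOn_pt i (1 : G)).isOpen_inter_preimage (A.e i).open_source
    (t := (Crit (D.atl G) univ a)ᶜ) (by
      rw [compl_eq_univ_sdiff]; exact isOpen_regular isOpen_univ (hol_univ h.hol))

variable [PreconnectedSpace (D.cov G)]

theorem Dat.sthM (h : Dat D H a L lam) : SThM (D.atl G) (Crit (D.atl G) univ a) :=
  sthM_crit isOpen_univ isPreconnected_univ (hol_univ h.hol) (h.reg.imp fun _ hx => ⟨trivial, hx⟩)

theorem Dat.dense_Wd (h : Dat D H a L lam) (i : A.ι) : (A.e i).source ⊆ closure (Wd D a i) := by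
  intro x hx
  refine closure_mono ?_ (mem_closure_image D.continuous_pr.continuousAt
    (h.sthM.dense_compl.open_subset_closure_inter (D.isOpen_sheet i 1) (D.pt_mem_sheet 1 hx)))
  rintro _ ⟨e, ⟨h1, h2⟩, rfl⟩
  exact ⟨h1.1, by rwa [D.pt_of_mem h1]⟩

/-- the line field of `d a_1 ∧ … ∧ d a_q` -/
def Dat.lf (h : Dat D H a L lam) : LF A q where
  κ := A.ι
  ch := id
  U i := (A.e i).source
  op i := (A.e i).open_source
  sub _ := subset_rfl
  cov := A.cover
  τ i := bt D a i 1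
  hm i _ hx S := hm_of_holAt (U := univ) ((h.an_bt i 1 S).mono inter_subset_left) isOpen_univ hx
    trivial
  deg i x _ S hS := by
    by_contra hc
    exact hS ((h.holV.fm_mem (pj q)).2.2.1 _ _ S hc)
  nf i x hx h0 := by
    obtain ⟨y, h1, h2⟩ := mem_closure_iff_nhds.1 (h.dense_Wd i hx) _ h0
    exact h.bt_ne h2 h1
  par i j x hx := by
    obtain ⟨g, hg⟩ := h.tp_bt hx.1 hx.2
    rw [id, id, hg]
    exact Uen.par_smul _ _

theorem Dat.dom (h : Dat D H a L lam) : h.lf.Dom (Wd D a) :=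
  ⟨h.isOpen_Wd, fun _ _ hx => hx.1, h.dense_Wd, fun _ _ hx => h.bt_ne hx⟩

variable {S : Sys q (D.cov G) G}

theorem Of.mem_U (hS : Of D H a L lam S) {x : D.cov G} (hx : x ∉ Crit (D.atl G) univ a) :
    x ∈ S.U := by rw [hS.U_eq]; exact hx

theorem Of.det_pow (hS : Of D H a L lam S) [H.FiniteIndex] (g : G) :
    LinearMap.det (L g : E q →ₗ[ℂ] E q) ^ H.index.factorial = 1 := by
  have h1 : ∀ g g' t, L (g * g') t + lam (g * g') = L g (L g' t + lam g') + lam g := fun g g' t => by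
    obtain ⟨x, rfl⟩ := hS.onto t
    rw [← hS.L_eq, ← hS.lam_eq, ← S.eqv, ← S.eqv, ← S.eqv, mul_smul]
  have h2 : ∀ g ∈ H, (L g : E q →ₗ[ℂ] E q) = 1 := fun g hg =>
    LinearMap.ext fun v => hS.L_eq ▸ S.LH g (hS.H_eq ▸ hg) v
  let ρ : G →* (E q →ₗ[ℂ] E q) :=
    { toFun := fun g => L g
      map_one' := h2 1 H.one_mem
      map_mul' := fun g g' => LinearMap.ext fun t => by
        have h3 := h1 g g' 0
        have h4 := h1 g g' t
        rw [map_zero, map_zero, zero_add, zero_add] at h3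
        rw [h3, map_add, add_assoc, add_left_inj] at h4
        exact h4 }
  change LinearMap.det (ρ g) ^ _ = 1
  rw [← map_pow, ← map_pow]
  exact (congrArg LinearMap.det (h2 _ (H.pow_mem_of_index_ne_zero_of_dvd
    Subgroup.FiniteIndex.index_ne_zero g fun m h h' => Nat.dvd_factorial h h'))).trans (map_one _)

theorem Of.an_hf (hS : Of D H a L lam S) (h : Dat D H a L lam) {f : D.cov G → ℂ} (hf : S.HF f)
    {p : (D.atl G).ι} {z : Cn n} (hz : z ∈ ((D.atl G).e p).target)
    (hc : ((D.atl G).e p).symm z ∉ Crit (D.atl G) univ a) :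
    AnalyticAt ℂ (fun z => f (((D.atl G).e p).symm z)) z := by
  obtain ⟨F, h1, h2⟩ := hf _ (hS.mem_U hc)
  rw [hS.a_eq] at h1 h2
  exact (AnalyticAt.comp (g := F) (f := fun z => (a (((D.atl G).e p).symm z)).ofLp) h1
    (h.holV.an p z hz)).congr
    ((((D.atl G).e p).continuousAt_symm hz).eventually h2 |>.mono fun _ h => h.symm)

theorem Of.ex (hS : Of D H a L lam S) (h : Dat D H a L lam) {f : D.cov G → ℂ} (hf : S.HF f)
    {N : ℕ} {C : ℝ} (hb : ∀ x ∈ S.U, ‖f x‖ * min (S.rho x) 1 ^ N ≤ C) (v : G) :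
    Ex h.lf (Wd D a) fun i y => f (D.pt i v y) := by
  refine ⟨2 * N, fun (i : A.ι) x (hx : x ∈ (A.e i).source) T => ?_⟩
  have ho : IsOpen ((A.e i).target \
      {z | z ∈ (A.e i).target ∧ ((D.atl G).e (i, v)).symm z ∈ Crit (D.atl G) univ a}) := by
    convert ((D.atl G).e (i, v)).isOpen_inter_preimage_symm (hS.U_eq ▸ S.op) using 1
    ext z
    exact ⟨fun h => ⟨h.1, fun h' => h.2 ⟨h.1, h'⟩⟩, fun h => ⟨h.1, fun h' => h.2 h'.2⟩⟩
  obtain ⟨g, hg, hgf⟩ := STh.extend (A.e i).open_target (h.sthM (i, v)) ho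
    (f := fun z => f (((D.atl G).e (i, v)).symm z) * bt D a i v ((A.e i).symm z) T ^ (2 * N))
    (DifferentiableOn.mul (fun z hz => (hS.an_hf h hf (p := (i, v)) hz.1
      fun h' => hz.2 ⟨hz.1, h'⟩).differentiableAt.differentiableWithinAt)
      (((h.an_bt i v T).mono sdiff_subset).pow _)) fun z hz => by
      obtain ⟨K, hK, hKz, hKO⟩ := exists_compact_subset (A.e i).open_target hz
      obtain ⟨c, hc, hl⟩ := hS.low (i, v) K hK hKO
      refine ⟨K, mem_interior_iff_mem_nhds.1 hKz, C / c ^ N, fun w hw => ?_⟩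
      have h1 : c * ‖bt D a i v ((A.e i).symm w) T‖ ^ 2 ≤
          min (S.rho (((D.atl G).e (i, v)).symm w)) 1 := by
        rw [bt, Uen.fm_of_mem _ (D.pt_mem_source (p := (i, v)) ((A.e i).map_target hw.2.1))]
        have h2 := Uen.dF_symm (A := D.atl G) (i := (i, v)) (fun e => (a e).ofLp) hw.2.1
        change dF _ _ _ (D.pt i v _) = _ at h2
        rw [h2]
        unfold Top.wdg
        split_ifs with hT
        · have := hl w hw.1 (fun l => EuclideanSpace.single (T.orderEmbOfFin hT l) 1)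
            fun l => by simp
          rw [hS.a_eq] at this
          exact this
        · simpa using (S.sec _ (hS.mem_U fun h' => hw.2.2 ⟨hw.2.1, h'⟩)).1.le
      rw [le_div_iff₀ (pow_pos hc N), norm_mul, norm_pow, pow_mul, mul_assoc, ← mul_pow,
        mul_comm _ c]
      exact (mul_le_mul_of_nonneg_left (pow_le_pow_left₀ (by positivity) h1 N)
        (norm_nonneg _)).trans (hb _ (hS.mem_U fun h' => hw.2.2 ⟨hw.2.1, h'⟩))
  refine ⟨fun y => LinearMap.det (L v : E q →ₗ[ℂ] E q) ^ (2 * N) * g (A.e i y), (Hm.const _ _).mul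
    (hm_chart hx (R266.SCV.analyticOnNhd_of_differentiableOn (A.e i).open_target hg _
      ((A.e i).map_source hx))), Eventually.of_forall fun y hy => ?_⟩
  have h3 : ((D.atl G).e (i, v)).symm (A.e i y) = D.pt i v y :=
    congrArg (D.pt i v) ((A.e i).left_inv hy.1)
  change _ * g (A.e i y) = f (D.pt i v y) * bt D a i 1 y T ^ _
  rw [hgf _ ⟨(A.e i).map_source hy.1, fun h' => h.mem_Wd hy v (h3 ▸ h'.2)⟩, h3,
    (A.e i).left_inv hy.1, h.bt_deck hy.1 1 v, one_mul, Pi.smul_apply, smul_eq_mul, mul_pow]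
  ring

/-- **the first alternative does not occur** -/
theorem not_big (hN : NoBog A) [H.FiniteIndex] : NBig D H := by
  classical
  intro q hq a L lam S h hS hB
  have := Fintype.ofFinite (G ⧸ H)
  obtain ⟨e0, he0⟩ := h.reg
  obtain ⟨i, hi⟩ := A.cover (D.pr e0)
  have hx0 : D.pr e0 ∈ Wd D a i := h.of_not_crit hi (by rwa [D.pt_co hi])
  set x0 := D.pr e0
  obtain ⟨f, F, N, C, hf, hinv, hb, hF, -, -, hd⟩ := hB (D.pt i 1 x0) (hS.mem_U hx0.2)
  have hex := fun k v => hS.ex h (hf (some k)) (hb (some k)) v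
  have hm : ∀ k v, ∀ y ∈ Wd D a i, Hm A (fun y => f (some k) (D.pt i v y)) y := fun k v y hy =>
    (hex k v).elim fun _ h' => h'.hm h.dom (a := i) hy
  have hH : ∀ k j v, ∀ g ∈ H, ∀ y ∈ Wd D a j,
      f (some k) (D.pt j (v * g) y) = f (some k) (D.pt j v y) := fun k j v g hg y hy => by
    rw [← hinv _ g⁻¹ (hS.H_eq ▸ H.inv_mem hg) (D.pt j v y) (hS.mem_U (h.mem_Wd hy v)), D.deck_pt,
      inv_inv]
  have hli : LinearIndependent ℂ fun k => df A i (fun y => f (some k) (D.pt i 1 y)) x0 := by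
    convert li_of_surj (h.surj hx0) with k
    obtain ⟨h1, h2⟩ := hF (some k)
    rw [hS.a_eq] at h1 h2 hd
    rw [df_congr' hi (((D.continuousOn_pt i 1).continuousAt
      ((A.e i).open_source.mem_nhds hi)).eventually h2)]
    have h3 := (h.holV.anAt (D.pt_mem_source (p := (i, 1)) hi)).differentiableAt.hasFDerivAt
    have h4 := h1.differentiableAt.hasFDerivAt
    rw [show fderiv ℂ (F (some k)) _ = pj q k from ContinuousLinearMap.ext (hd k),
      ← ((D.atl G).e (i, 1)).left_inv (D.pt_mem_source (p := (i, 1)) hi)] at h4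
    exact (HasFDerivAt.comp (f := fun z => (a (((D.atl G).e (i, 1)).symm z)).ofLp) _ h4 h3).fderiv
  obtain ⟨O, hO1, hO, hxO⟩ := _root_.mem_nhds_iff.1 (inter_mem ((h.isOpen_Wd i).mem_nhds hx0)
    (li_ev (fun k => cont_df (hm k 1 x0 hx0) hi) hli))
  let φ : A.ι → G → X → E q := fun j v y k => f (some k) (D.pt j v y)
  obtain ⟨O', h1, hO', ⟨x, hx⟩, h2⟩ := exists_gen (fun v : G ⧸ H => φ i v.out) (φ i 1) Finset.univ
    hO ⟨x0, hxO⟩ (fun v y hy => continuousAt_pi.2 fun k => (hm k _ y (hO1 hy).1).cont)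
    fun y hy => continuousAt_pi.2 fun k => (hm k _ y (hO1 hy).1).cont
  obtain ⟨hxW, hxl⟩ := hO1 (h1 hx)
  have h3 : ∀ v : G ⧸ H, ∃ j : Fin q, φ i v.out x ≠ φ i 1 x → φ i v.out x j ≠ φ i 1 x j := fun v => by
    by_cases hv : φ i v.out x = φ i 1 x
    · exact ⟨⟨0, hq⟩, fun h => absurd hv h⟩
    · exact (Function.ne_iff.1 hv).imp fun _ h _ => h
  choose j hj using h3
  let R : E q → ℂ := fun t => ∏ v ∈ Finset.univ.filter fun v : G ⧸ H => φ i v.out x ≠ φ i 1 x,
    (t (j v) + -φ i v.out x (j v))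
  let P : Fin q → E q → ℂ := fun k t => 1 + (t k + -φ i 1 x k) * (R t * R t)
  have hR : ∀ v, Ex h.lf (Wd D a) fun i y => R (φ i v y) := fun v =>
    ex_prod _ fun w => (hex _ v).add (ex_const _)
  have hP : ∀ k v, Ex h.lf (Wd D a) fun i y => P k (φ i v y) := fun k v =>
    (ex_const 1).add (((hex k v).add (ex_const _)).mul ((hR v).mul (hR v)))
  let g : Fin (q + 1) → A.ι → X → ℂ :=
    Fin.cons (fun _ _ => 1) fun k i y => ∏ v : G ⧸ H, P k (φ i v.out y)
  have hg : ∀ k, Ex h.lf (Wd D a) (g k) := fun k =>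
    Fin.cases (ex_const 1) (fun k => ex_prod _ fun v : G ⧸ H => hP k v.out) k
  choose m hm' using hg
  have htr : ∀ k i i', ∀ y ∈ Wd D a i ∩ Wd D a i', g k i y = g k i' y := fun k i i' y hy => by
    refine Fin.cases rfl (fun k => ?_) k
    refine Fintype.prod_equiv (MulAction.toPerm (D.c i i' y)) _ _ fun v => congrArg (P k) ?_
    funext k'
    have h4 := hH k' i' (D.c i i' y • v).out _ (MonD.mk_out_mul H (v := v) (w := D.c i i' y • v) rfl) y hy.2
    rw [mul_inv_cancel_left] at h4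
    exact (congrArg (f (some k')) (D.pt_eq v.out hy.1.1 hy.2.1)).trans h4
  refine hN q hq h.lf (Wd D a) (H.index.factorial * ∑ k, m k) g h.dom (fun k => ⟨ext_le (hm' k)
    ((Finset.single_le_sum (fun _ _ => Nat.zero_le _) (Finset.mem_univ k)).trans
      (Nat.le_mul_of_pos_left _ (Nat.factorial_pos _))), fun i i' y hy c hc => ?_⟩) i x hxW
    one_ne_zero ?_
  · obtain ⟨γ, hγ⟩ := h.tp_bt hy.1.1 hy.2.1
    rw [smul_left_injective ℂ (h.bt_ne hy.1) (hc.symm.trans hγ), pow_mul, hS.det_pow, one_pow,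
      one_mul]
    exact htr k i i' y hy
  have hR0 : ∀ v : G ⧸ H, φ i v.out x ≠ φ i 1 x → R (φ i v.out x) = 0 := fun v hv =>
    Finset.prod_eq_zero (Finset.mem_filter.2 ⟨Finset.mem_univ v, hv⟩) (add_neg_cancel _)
  have hR1 : R (φ i 1 x) ≠ 0 := Finset.prod_ne_zero_iff.2 fun v hv => by
    rw [← sub_eq_add_neg]
    exact sub_ne_zero.2 (hj v (Finset.mem_filter.1 hv).2).symm
  have hRm : ∀ v, Hm A (fun y => R (φ i v y)) x := fun v =>
    (hR v).elim fun _ h' => h'.hm h.dom (a := i) hxW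
  have h5 : ∀ k (v : G ⧸ H), df A i (fun y => P k (φ i v.out y)) x =
      (if φ i v.out x = φ i 1 x then R (φ i 1 x) * R (φ i 1 x) else 0) •
        df A i (fun y => φ i 1 y k) x := fun k v => by
    have h6 : df A i (fun y => P k (φ i v.out y)) x = df A i (fun y =>
      (φ i v.out y k + -φ i 1 x k) * (R (φ i v.out y) * R (φ i v.out y))) x := fderiv_const_add _
    rw [h6, df_mul' ((hm k _ x hxW).add (Hm.const _ _)) ((hRm _).mul (hRm _)) hxW.1,
      df_mul' (hRm _) (hRm _) hxW.1]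
    split_ifs with hv
    · have h7 : df A i (fun y => φ i v.out y k + -φ i 1 x k) x = df A i (fun y => φ i v.out y k) x :=
        fderiv_add_const _
      have h8 : f (some k) (D.pt i v.out x) = φ i 1 x k := congrFun hv k
      rw [h7, df_congr' (f := fun y => φ i v.out y k) (g := fun y => φ i 1 y k) hxW.1
        (mem_of_superset (hO'.mem_nhds hx) fun y hy =>
          congrFun (((h2 v (Finset.mem_univ v)).resolve_left fun h => h x hx hv) y hy) k)]
      ext w
      simp [hv, h8]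
    · ext w
      simp [hR0 v hv]
  have h8 : ∀ k : Fin q, df A i (fun y => g k.succ i y / g 0 i y) x =
      (∑ v : G ⧸ H, if φ i v.out x = φ i 1 x then R (φ i 1 x) * R (φ i 1 x) else 0) •
        df A i (fun y => φ i 1 y k) x := fun k => by
    simp only [g, Fin.cons_succ, Fin.cons_zero, div_one]
    rw [df_prod_one _ hxW.1 (fun v => (hP k _).elim fun _ h' => h'.hm h.dom (a := i) hxW) fun v => by
      by_cases hv : φ i v.out x = φ i 1 x
      · simp [P, hv]
      · simp [P, hR0 v hv]]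
    exact (Finset.sum_congr rfl fun v _ => h5 k v).trans Finset.sum_smul.symm
  change LinearIndependent ℂ fun k : Fin q => df A i (fun y => g k.succ i y / g 0 i y) x
  simp only [h8]
  refine (li_smul_iff ?_).2 hxl
  rw [← Finset.sum_filter, Finset.sum_const, nsmul_eq_mul]
  refine mul_ne_zero (Nat.cast_ne_zero.2 (Finset.card_ne_zero.2 ⟨((1 : G) : G ⧸ H),
    Finset.mem_filter.2 ⟨Finset.mem_univ _, funext fun k => ?_⟩⟩)) (mul_ne_zero hR1 hR1)
  have h9 := hH k i 1 ((1 : G) : G ⧸ H).out (by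
    simpa using QuotientGroup.eq.1 (QuotientGroup.out_eq' ((1 : G) : G ⧸ H)).symm) x hxW
  rwa [one_mul] at h9

end Crest.Agent.X261.Fib.Mn
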