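import Crest.Agent.X261.Fib.Wt

/-!
# X261 / FIB (helper16), file Cone: strict positivity when there is no complete direction

`cone` : if `psi` is psh, `Y` is connected and `Vd Y = ⊥`, then at every point some admissible
weight is strictly psh.
-/

set_option autoImplicit false
set_option linter.unusedSectionVars false

noncomputable section

open Set Metric Filter Topology MeasureTheory
open scoped ContDiff

namespace Crest.Agent.X261.Fib

open Crest.Agent.R271.Ho51 Crest.Agent.R273.Reg_844 Crest.Agent.R276.NL_137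
open Crest.Agent.R271.W792 (lev dsq Levi_eq_lev)
open Crest.Agent.R275.FL606 (Ker)

variable {q : ℕ} {Y : Type} [TopologicalSpace Y] [RDom q Y] [T2Space Y]

theorem sh_chart (Φ : Y → ℝ) {y : Y} {u : E q} (h : ‖u‖ < dl y) :
    ((fun x => Φ (sh x u)) ∘ (bch y).symm) =ᶠ[𝓝 (cp y)] fun z => (Φ ∘ (bch y).symm) (z + u) := by
  have h1 : ∀ᶠ z in 𝓝 (cp y), ‖z - cp y‖ + ‖u‖ < dl y := by
    refine ContinuousAt.eventually_lt (by fun_prop) continuousAt_const ?_
    simpa using h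
  filter_upwards [h1] with z hz
  have h2 : (bch y).symm z = sh y (z - cp y) := by rw [sh, add_sub_cancel]
  simp only [Function.comp_apply]
  rw [h2, sh_sh hz, sh, ← add_assoc, add_sub_cancel]

theorem contDiffAt_sh {Φ : Y → ℝ} (hΦ : Sm Φ) {y : Y} {u : E q} (h : ‖u‖ < dl y) :
    ContDiffAt ℝ (⊤ : ℕ∞) ((fun x => Φ (sh x u)) ∘ (bch y).symm) (cp y) := by
  refine ContDiffAt.congr_of_eventuallyEq ?_ (sh_chart Φ h)
  exact ContDiffAt.comp (g := Φ ∘ (bch y).symm) (f := fun z => z + u) (cp y)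
    (hΦ.contDiffAt' (isCh_bch y) (ball_bch y (add_mem_ball h))) (by fun_prop)

theorem lev_sh {Φ : Y → ℝ} (hΦ : Sm Φ) {y : Y} {u : E q} (h : ‖u‖ < dl y) (w : E q) :
    lev (fun x => Φ (sh x u)) y w = lev Φ (sh y u) w := by
  have h1 : fderiv ℝ (fderiv ℝ fun z => (Φ ∘ (bch y).symm) (z + u)) (cp y) =
      fderiv ℝ (fderiv ℝ (Φ ∘ (bch y).symm)) (cp y + u) := by
    have h2 : (fderiv ℝ fun z => (Φ ∘ (bch y).symm) (z + u)) =
        fun z => fderiv ℝ (Φ ∘ (bch y).symm) (z + u) := funext fun z => fderiv_comp_add_right u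
    rw [h2, fderiv_comp_add_right]
  rw [lev_eq_chart (isCh_bch y) (mem_bch y) ((contDiffAt_sh hΦ h).of_le (by norm_cast)),
    lev_eq_chart (isCh_bch y) (sh_mem_bch h)
      ((hΦ.contDiffAt (isCh_bch y) (sh_mem_bch h)).of_le (by norm_cast)),
    (sh_chart Φ h).fderiv.fderiv_eq, h1, cp_sh h]

theorem gd_sh {Φ : Y → ℝ} (hΦ : Wt Φ) {y : Y} {u : E q} (h : ‖u‖ < dl y) :
    Gd (fun x => Φ (sh x u)) y := by
  refine Gd.of ?_ fun w => ?_
  · filter_upwards [continuous_dl.continuousAt.eventually (lt_mem_nhds h)] with x hx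
    exact (contDiffAt_sh hΦ.sm hx).congr_of_eventuallyEq
      (comp_germ (isCh_ch x) (isCh_bch x) (mem_ch x) (mem_bch x) _)
  · rw [lev_sh hΦ.sm h, ← Levi_eq_lev hΦ.sm]
    exact hΦ.lev _ _

/-- common null vectors of the Levi forms of all admissible weights -/
def Nul (y : Y) : Set (E q) := {w | ∀ Φ : Y → ℝ, Wt Φ → Levi Φ y w = 0}

theorem nul_sh {Ψ : Y → ℝ} (h0 : Wt Ψ) (hp : ∀ y, psi y ≤ Ψ y) {y : Y} {u : E q}
    (hu : ‖u‖ ≤ Real.exp (-(Ψ y + 4)) / 2) : Nul y ⊆ Nul (sh y u) := by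
  intro w hw Φ hΦ
  have h1 : ∀ x, Ψ x < Ψ y + 1 + 3 → ‖u‖ ≤ dl x / 2 := fun x hx => by
    have := psi_le_iff.1 (show psi x ≤ Ψ y + 4 by linarith [hp x])
    linarith
  have h2 : ∀ x, Ψ x < Ψ y + 1 + 3 → ‖u‖ < dl x := fun x hx => by
    linarith [h1 x hx, dl_pos x]
  obtain ⟨K, C, hK⟩ := hΦ.le
  obtain ⟨Φ', hΦ', h3⟩ := glue h0 (v := fun x => Φ (sh x u)) (c := Ψ y + 1)
    (B := |K| * (Ψ y + 4 + Real.log 2) + C) (fun x hx => gd_sh hΦ (h2 x hx))
    (fun f hf x hx => by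
      obtain ⟨c, hc⟩ := hf.eqv
      rw [← map_sh' hf.cont hc (h2 x hx), hΦ.inv f hf])
    (fun x hx => ⟨hΦ.nonneg _, by
      have h4 := psi_sh_le (h1 x hx)
      have h5 := mul_le_mul_of_nonneg_right (le_abs_self K) (psi_nonneg (sh x u))
      have h6 := mul_le_mul_of_nonneg_left
        (show psi (sh x u) ≤ Ψ y + 4 + Real.log 2 by linarith [hp x]) (abs_nonneg K)
      linarith [hK (sh x u)]⟩)
  have h7 := hw Φ' hΦ'
  rwa [Levi_eq_lev hΦ'.sm, lev_congr (h3 y (lt_add_one _)), lev_sh hΦ.sm (h2 y (by linarith)),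
    ← Levi_eq_lev hΦ.sm] at h7

theorem nul_loc {Ψ : Y → ℝ} (h0 : Wt Ψ) (hp : ∀ y, psi y ≤ Ψ y) (y : Y) :
    ∀ᶠ x in 𝓝 y, Nul x = Nul y := by
  filter_upwards [eventually_eq_sh y, eventually_norm_lt y (half_pos (dl_pos y)),
    eventually_norm_lt y (half_pos (Real.exp_pos (-(Ψ y + 5)))),
    h0.sm.continuous.continuousAt.eventually (gt_mem_nhds (lt_add_one (Ψ y)))] with x h1 h2 h3 h4
  have h5 : Real.exp (-(Ψ y + 5)) ≤ Real.exp (-(Ψ y + 4)) := Real.exp_le_exp.2 (by linarith)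
  have h6 : Real.exp (-(Ψ y + 5)) ≤ Real.exp (-(Ψ x + 4)) := Real.exp_le_exp.2 (by linarith)
  refine Subset.antisymm ?_ ?_
  · have h7 := nul_sh h0 hp (y := x) (u := -(cp x - cp y)) (by rw [norm_neg]; linarith)
    have h8 : sh x (-(cp x - cp y)) = y := by
      conv_lhs => rw [h1, cp_sh (by linarith [dl_pos y]), add_sub_cancel_left]
      exact sh_sh_neg (by linarith)
    rwa [h8] at h7
  · have h7 := nul_sh h0 hp (y := y) (u := cp x - cp y) (by linarith)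
    rwa [← h1] at h7

theorem D_smul_zero {g : Y → ℝ} {x : Y} {w : E q} (h : dsq g x w = 0) (ζ : ℂ) :
    D g x (ζ • w) = 0 := by
  unfold dsq at h
  have h1 : D g x w = 0 := by nlinarith [sq_nonneg (D g x w), sq_nonneg (D g x (Complex.I • w))]
  have h2 : D g x (Complex.I • w) = 0 := by
    nlinarith [sq_nonneg (D g x w), sq_nonneg (D g x (Complex.I • w))]
  have h3 : ζ • w = ζ.re • w + ζ.im • (Complex.I • w) := by
    conv_lhs => rw [← Complex.re_add_im ζ]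
    rw [add_smul, mul_smul, Complex.coe_smul, Complex.coe_smul]
  rw [h3, map_add, map_smul, map_smul, h1, h2, smul_zero, smul_zero, add_zero]

theorem mem_Vd_of_nul (hpsh : PSH (psi : Y → ℝ)) {Ψ : Y → ℝ} (h0 : Wt Ψ) (hp : ∀ y, psi y ≤ Ψ y)
    {w : E q} (hw : ∀ y : Y, w ∈ Nul y) : w ∈ Vd Y := by
  obtain ⟨κ, hκ, hs⟩ := exists_ker_pi q
  intro y
  have h1 : ∀ᶠ ζ : ℂ in 𝓝 0, ‖ζ • w‖ < dl y ∧ Ψ (sh y (ζ • w)) < Ψ y + 1 := by
    refine (eventually_norm_smul_lt w (dl_pos y)).and ?_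
    have h2 : ContinuousAt (fun ζ : ℂ => Ψ (sh y (ζ • w))) 0 := by
      refine h0.sm.continuous.continuousAt.comp (ContinuousAt.comp (g := sh y) ?_ (by fun_prop))
      exact continuousAt_sh (by simpa using dl_pos y)
    exact h2.eventually (gt_mem_nhds (by simp [sh_zero]))
  obtain ⟨r, hr, hb⟩ := Metric.eventually_nhds_iff_ball.1 h1
  filter_upwards [ball_mem_nhds (0 : ℂ) hr] with ζ hζ
  have key : ∀ η : ℝ, 0 < η → |psi (sh y (ζ • w)) - psi y| ≤ η := by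
    intro η hη
    set ε := rad η (Ψ y + 4) with hε
    have hε0 : 0 < ε := rad_pos hη _
    have h2 : ∀ x, Ψ x < Ψ y + 1 + 3 → psi x ≤ Ψ y + 4 := fun x hx => by linarith [hp x]
    obtain ⟨Φ, hΦ, h3⟩ := glue h0 (v := fun x => Real.exp (reg κ ε psi x)) (c := Ψ y + 1)
      (B := Real.exp (Ψ y + 4 + η))
      (fun x hx => (gd_reg hpsh hκ hs hε0 (rad_lt η (h2 x hx))).exp)
      (fun f hf x hx => by rw [reg_inv hκ hε0 hf (rad_lt η (h2 x hx)).le])
      (fun x hx => ⟨(Real.exp_pos _).le, Real.exp_le_exp.2 (by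
        linarith [reg_rad_le hκ hη (h2 x hx), h2 x hx])⟩)
    have h4 : ∀ ξ ∈ ball (0 : ℂ) r,
        HasFDerivAt (fun ξ : ℂ => reg κ ε psi (sh y (ξ • w))) (0 : ℂ →L[ℝ] ℝ) ξ := by
      intro ξ hξ
      obtain ⟨h5, h6⟩ := hb ξ hξ
      obtain ⟨g, hg, hv, hl⟩ := gd_reg hpsh hκ hs hε0 (rad_lt η (h2 _ (by linarith : Ψ (sh y
        (ξ • w)) < Ψ y + 1 + 3)))
      have h7 : Φ =ᶠ[𝓝 (sh y (ξ • w))] fun x => Real.exp (g x) :=
        (h3 _ h6).trans (hv.mono fun x hx => by simp only [hx])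
      have h8 := hw (sh y (ξ • w)) Φ hΦ
      rw [Levi_congr h7, Levi_exp hg, ← Levi_eq_lev hg] at h8
      have h9 : dsq g (sh y (ξ • w)) w = 0 := by
        have h10 := Crest.Agent.R271.W792.dsq_nonneg g (sh y (ξ • w)) w
        have h11 := mul_nonneg (Real.exp_pos (g (sh y (ξ • w)))).le (hl w)
        have h12 := Real.exp_pos (g (sh y (ξ • w)))
        nlinarith
      have hz : cp y + ξ • w ∈ (bch y).target := ball_bch y (add_mem_ball h5)
      have h13 : HasFDerivAt (g ∘ (bch y).symm) (D g (sh y (ξ • w))) (cp y + ξ • w) := by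
        rw [sh, D_symm (isCh_bch y) hz]
        exact ((hg.contDiffAt' (isCh_bch y) hz).differentiableAt (by simp)).hasFDerivAt
      have h14 : HasFDerivAt (fun ξ : ℂ => cp y + ξ • w)
          (((ContinuousLinearMap.id ℂ ℂ).smulRight w).restrictScalars ℝ) ξ :=
        (((ContinuousLinearMap.id ℂ ℂ).smulRight w).restrictScalars ℝ).hasFDerivAt.const_add _
      have h15 := h13.comp ξ h14
      have h16 : (D g (sh y (ξ • w))).comp
          (((ContinuousLinearMap.id ℂ ℂ).smulRight w).restrictScalars ℝ) = 0 := by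
        refine ContinuousLinearMap.ext fun ζ => ?_
        simpa using D_smul_zero h9 ζ
      rw [h16] at h15
      refine h15.congr_of_eventuallyEq ?_
      have h17 : ContinuousAt (fun ξ : ℂ => sh y (ξ • w)) ξ :=
        ContinuousAt.comp (g := sh y) (continuousAt_sh h5) (by fun_prop)
      filter_upwards [h17.eventually hv] with ξ' h18
      exact h18
    have h19 := isOpen_ball.is_const_of_fderiv_eq_zero (𝕜 := ℝ) (convex_ball _ _).isPreconnected
      (fun ξ hξ => (h4 ξ hξ).differentiableAt.differentiableWithinAt)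
      (fun ξ hξ => (h4 ξ hξ).fderiv) hζ (mem_ball_self hr)
    simp only [zero_smul, sh_zero] at h19
    have h20 := h2 _ (by linarith [(hb ζ hζ).2] : Ψ (sh y (ζ • w)) < Ψ y + 1 + 3)
    have h21 := h2 y (by linarith)
    have h22 := reg_rad_le hκ hη h20
    have h23 := reg_rad_le hκ hη h21
    have h24 := hpsh.le_reg hκ hε0 (rad_lt η h20) (adm_dl _)
    have h25 := hpsh.le_reg hκ hε0 (rad_lt η h21) (adm_dl _)
    rw [← hε] at h22 h23
    exact abs_le.2 ⟨by linarith, by linarith⟩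
  have h26 : psi (sh y (ζ • w)) = psi y := by
    rw [← sub_eq_zero, ← abs_nonpos_iff]
    exact le_of_forall_pos_le_add fun η hη => by simpa using key η hη
  rw [← exp_neg_psi, h26, exp_neg_psi]

theorem Wt.add {Φ Ψ : Y → ℝ} (h : Wt Φ) (h' : Wt Ψ) : Wt fun y => Φ y + Ψ y := by
  obtain ⟨K, C, hK⟩ := h.le
  obtain ⟨K', C', hK'⟩ := h'.le
  refine ⟨h.sm.add h'.sm, fun f hf y => by simp only [h.inv f hf y, h'.inv f hf y], fun y w => ?_,
    fun y => add_nonneg (h.nonneg y) (h'.nonneg y), K + K', C + C', fun y => ?_⟩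
  · rw [Levi_add h.sm h'.sm]
    exact add_nonneg (h.lev y w) (h'.lev y w)
  · linarith [hK y, hK' y]

theorem Levi_smul (Φ : Y → ℝ) (y : Y) (t : ℝ) (w : E q) :
    Levi Φ y ((t : ℂ) • w) = t ^ 2 * Levi Φ y w := by
  unfold Levi
  rw [← Complex.re_ofReal_mul, Finset.mul_sum]
  congr 1
  refine Finset.sum_congr rfl fun j _ => ?_
  rw [Finset.mul_sum]
  refine Finset.sum_congr rfl fun k _ => ?_
  simp only [Pi.smul_apply, smul_eq_mul, map_mul, Complex.conj_ofReal, Complex.ofReal_pow]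
  ring

/-- strict positivity -/
theorem cone [PreconnectedSpace Y] (hpsh : PSH (psi : Y → ℝ)) (hV : Vd Y = ⊥) (y0 : Y) :
    ∃ (Ψ : Y → ℝ) (c : ℝ), Wt Ψ ∧ (∀ y, psi y ≤ Ψ y) ∧ 0 < c ∧
      ∀ w, c * nsq w ≤ Levi Ψ y0 w := by
  obtain ⟨Ψ, h0, hp⟩ := exists_wt0 hpsh
  have h1 : ∀ w ∈ Nul y0, w = 0 := fun w hw => by
    rw [← Submodule.mem_bot ℂ, ← hV]
    refine mem_Vd_of_nul hpsh h0 hp fun y => ?_
    rwa [const_of_loc isPreconnected_univ (f := (Nul : Y → Set (E q)))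
      (fun t _ => nhdsWithin_le_nhds (nul_loc h0 hp t)) (mem_univ y) (mem_univ y0)]
  have hc : ∀ Φ : Y → ℝ, Continuous fun w : E q => Levi Φ y0 w := fun Φ => by
    unfold Levi; fun_prop
  have h2 : ∃ Φ : Y → ℝ, Wt Φ ∧ (∀ y, psi y ≤ Φ y) ∧ ∀ w ∈ sphere (0 : E q) 1, 0 < Levi Φ y0 w := by
    refine (isCompact_sphere (0 : E q) 1).induction_on
      (p := fun S => ∃ Φ : Y → ℝ, Wt Φ ∧ (∀ y, psi y ≤ Φ y) ∧ ∀ w ∈ S, 0 < Levi Φ y0 w)
      ⟨Ψ, h0, hp, by simp⟩ ?_ ?_ ?_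
    · rintro s t hst ⟨Φ, h3, h4, h5⟩
      exact ⟨Φ, h3, h4, fun w hw => h5 w (hst hw)⟩
    · rintro s t ⟨Φ, h3, h4, h5⟩ ⟨Φ', h3', -, h5'⟩
      refine ⟨_, h3.add h3', fun y => le_add_of_le_of_nonneg (h4 y) (h3'.nonneg y), fun w hw => ?_⟩
      rw [Levi_add h3.sm h3'.sm]
      rcases hw with hw | hw
      · exact add_pos_of_pos_of_nonneg (h5 w hw) (h3'.lev _ _)
      · exact add_pos_of_nonneg_of_pos (h3.lev _ _) (h5' w hw)
    · intro w hw
      have h6 : w ∉ Nul y0 := fun h => by simp [h1 w h] at hw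
      obtain ⟨Φ, hΦ, h7⟩ : ∃ Φ : Y → ℝ, Wt Φ ∧ Levi Φ y0 w ≠ 0 := by
        by_contra h
        exact h6 fun Φ hΦ => by_contra fun h' => h ⟨Φ, hΦ, h'⟩
      refine ⟨{w | 0 < Levi Φ y0 w}, mem_nhdsWithin_of_mem_nhds
        ((hc Φ).continuousAt.eventually (lt_mem_nhds ((hΦ.lev _ _).lt_of_ne h7.symm))),
        _, h0.add hΦ, fun y => le_add_of_le_of_nonneg (hp y) (hΦ.nonneg y), fun u hu => ?_⟩
      rw [Levi_add h0.sm hΦ.sm]
      exact add_pos_of_nonneg_of_pos (h0.lev _ _) hu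
  obtain ⟨Φ, hΦ, h3, h4⟩ := h2
  obtain ⟨m, hm, h5⟩ : ∃ m : ℝ, 0 < m ∧ ∀ w ∈ sphere (0 : E q) 1, m ≤ Levi Φ y0 w := by
    rcases (sphere (0 : E q) 1).eq_empty_or_nonempty with h | h
    · exact ⟨1, one_pos, by simp [h]⟩
    · obtain ⟨w, hw, h6⟩ := (isCompact_sphere (0 : E q) 1).exists_isMinOn h (hc Φ).continuousOn
      exact ⟨_, h4 w hw, fun u hu => h6 hu⟩
  refine ⟨Φ, m / (q + 1), hΦ, h3, by positivity, fun w => ?_⟩
  rcases eq_or_ne w 0 with rfl | hw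
  · simpa [nsq] using hΦ.lev y0 0
  have hn : 0 < ‖w‖ := norm_pos_iff.2 hw
  have h6 := h5 (((‖w‖⁻¹ : ℝ) : ℂ) • w) (by
    rw [mem_sphere_zero_iff_norm, norm_smul, Complex.norm_real, norm_inv, norm_norm,
      inv_mul_cancel₀ hn.ne'])
  rw [Levi_smul, inv_pow, le_inv_mul_iff₀ (by positivity)] at h6
  have h7 : nsq w ≤ (q + 1) * ‖w‖ ^ 2 := by
    calc nsq w ≤ ∑ _j : Fin q, ‖w‖ ^ 2 := Finset.sum_le_sum fun j _ => by
          gcongr
          exact norm_le_pi_norm w j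
      _ ≤ _ := by
          simp only [Finset.sum_const, Finset.card_univ, Fintype.card_fin, nsmul_eq_mul]
          nlinarith [sq_nonneg ‖w‖]
  calc m / (q + 1) * nsq w ≤ m / (q + 1) * ((q + 1) * ‖w‖ ^ 2) := by gcongr
    _ = ‖w‖ ^ 2 * m := by field_simp
    _ ≤ _ := h6

end Crest.Agent.X261.Fib
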