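import Crest.Agent.X261.Fib.Defs

/-!
# X261 / FIB (helper16), file Flow: the directions of `Vd Y` are complete

* `exists_flow : ∃ φ, Flow φ`;
* `Flow.tr`, `Flow.cont₂` (joint continuity), `Flow.sh_comm`;
* `Vd_map` : `Vd Y` is invariant under homeomorphisms over affine maps.
-/

set_option autoImplicit false
set_option linter.unusedSectionVars false

noncomputable section

open Set Metric Filter Topology

namespace Crest.Agent.X261.Fib

open Crest.Agent.R271.Ho51 Crest.Agent.R273.Reg_844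

variable {q : ℕ} {Y : Type} [TopologicalSpace Y] [RDom q Y] [T2Space Y]

/-- iterated translate -/
def itr (y : Y) (w : E q) : ℕ → Y
  | 0 => y
  | j + 1 => sh (itr y w j) w

theorem itr_spec (y : Y) {w : E q} (hw : w ∈ Vd Y) (h : ‖w‖ < dl y) (j : ℕ) :
    dl (itr y w j) = dl y ∧ cp (itr y w j) = cp y + (j : ℂ) • w := by
  induction j with
  | zero => simp [itr]
  | succ j ih =>
    have h1 : ‖w‖ < dl (itr y w j) := ih.1 ▸ h
    refine ⟨by rw [itr, dl_sh_of_mem hw h1, ih.1], ?_⟩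
    rw [itr, cp_sh h1, ih.2, Nat.cast_succ, add_smul, one_smul, add_assoc]

theorem itr_zero (y : Y) (j : ℕ) : itr y (0 : E q) j = y := by
  induction j with
  | zero => rfl
  | succ j ih => rw [itr, sh_zero, ih]

theorem continuousOn_itr (y : Y) (j : ℕ) :
    ContinuousOn (fun w => itr y w j) ((Vd Y : Set (E q)) ∩ ball 0 (dl y)) := by
  induction j with
  | zero => exact continuousOn_const
  | succ j ih =>
    intro w hw
    have h : ‖w‖ < dl y := by simpa using hw.2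
    have h1 : ‖w‖ < dl (itr y w j) := (itr_spec y hw.1 h j).1 ▸ h
    exact ContinuousAt.comp_continuousWithinAt (g := fun p : Y × E q => sh p.1 p.2)
      (f := fun w => (itr y w j, w)) (continuousAt_sh₂ h1)
      ((ih w hw).prodMk continuousWithinAt_id)

theorem convex_Vd_ball (r : ℝ) : Convex ℝ ((Vd Y : Set (E q)) ∩ ball 0 r) :=
  (((Vd Y).restrictScalars ℝ).convex).inter (convex_ball _ _)

theorem convex_Vd : Convex ℝ (Vd Y : Set (E q)) := ((Vd Y).restrictScalars ℝ).convex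

/-- the leaf through `y` -/
theorem exists_leaf (y : Y) : ∃ σ : E q → Y, ContinuousOn σ (Vd Y) ∧ σ 0 = y ∧
    ∀ v ∈ Vd Y, cp (σ v) = cp y + v ∧ dl (σ v) = dl y := by
  have h0 := dl_pos y
  set s : ℕ → E q → Y := fun k v => itr y (((k + 1 : ℕ) : ℂ)⁻¹ • v) (k + 1) with hs
  have hn : ∀ (k : ℕ) (v : E q), v ∈ ball (0 : E q) ((k + 1) * dl y) →
      ‖((k + 1 : ℕ) : ℂ)⁻¹ • v‖ < dl y := by
    intro k v hv
    rw [norm_smul, norm_inv, Complex.norm_natCast, inv_mul_lt_iff₀ (by positivity)]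
    simpa using hv
  have hsp : ∀ (k : ℕ), ∀ v ∈ (Vd Y : Set (E q)) ∩ ball 0 ((k + 1) * dl y),
      cp (s k v) = cp y + v ∧ dl (s k v) = dl y := by
    intro k v hv
    have h1 := itr_spec y ((Vd Y).smul_mem _ hv.1) (hn k v hv.2) (k + 1)
    refine ⟨?_, h1.1⟩
    rw [hs]
    simp only
    rw [h1.2, smul_smul, mul_inv_cancel₀ (by exact_mod_cast Nat.succ_ne_zero k), one_smul]
  have hc : ∀ k : ℕ, ContinuousOn (s k) ((Vd Y : Set (E q)) ∩ ball 0 ((k + 1) * dl y)) :=
    fun k => (continuousOn_itr y (k + 1)).comp (by fun_prop) fun v hv =>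
      ⟨(Vd Y).smul_mem _ hv.1, by simpa using hn k v hv.2⟩
  have h00 : ∀ k, s k 0 = y := fun k => by simp only [hs, smul_zero, itr_zero]
  have hu : ∀ (k m : ℕ), ∀ v ∈ Vd Y, ‖v‖ < (k + 1) * dl y → ‖v‖ < (m + 1) * dl y →
      s k v = s m v := by
    intro k m v hv h1 h2
    have h3 : ∀ w ∈ (Vd Y : Set (E q)) ∩ ball 0 (min ((k + 1) * dl y) ((m + 1) * dl y)),
        w ∈ (Vd Y : Set (E q)) ∩ ball 0 ((k + 1) * dl y) ∧
          w ∈ (Vd Y : Set (E q)) ∩ ball 0 ((m + 1) * dl y) := fun w hw =>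
      ⟨⟨hw.1, ball_subset_ball (min_le_left _ _) hw.2⟩,
        ⟨hw.1, ball_subset_ball (min_le_right _ _) hw.2⟩⟩
    refine lift_unique (convex_Vd_ball _).isPreconnected ((hc k).mono fun w hw => (h3 w hw).1)
      ((hc m).mono fun w hw => (h3 w hw).2)
      (fun w hw => by rw [(hsp k w (h3 w hw).1).1, (hsp m w (h3 w hw).2).1]) (t0 := 0)
      ⟨(Vd Y).zero_mem, mem_ball_self (by positivity)⟩ (by rw [h00, h00])
      ⟨hv, by simpa using And.intro h1 h2⟩
  have hk : ∀ v : E q, ‖v‖ < ((⌈‖v‖ / dl y⌉₊ : ℕ) + 1) * dl y := fun v => by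
    rw [← div_lt_iff₀ h0]
    exact (Nat.le_ceil _).trans_lt (lt_add_one _)
  refine ⟨fun v => s ⌈‖v‖ / dl y⌉₊ v, fun v hv => ?_, h00 _, fun v hv =>
    hsp _ v ⟨hv, by simpa using hk v⟩⟩
  have h1 : ball (0 : E q) (((⌈‖v‖ / dl y⌉₊ : ℕ) + 1) * dl y) ∈ 𝓝 v :=
    isOpen_ball.mem_nhds (by simpa using hk v)
  rw [← continuousWithinAt_inter h1]
  refine (hc _ v ⟨hv, mem_of_mem_nhds h1⟩).congr (fun w hw => ?_) rfl
  exact hu _ _ w hw.1 (hk w) (by simpa using hw.2)

theorem exists_flow : ∃ φ : E q → Y → Y, Flow φ := by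
  choose σ hc h0 hσ using exists_leaf (q := q) (Y := Y)
  have hu : ∀ (y : Y) (τ : E q → Y), ContinuousOn τ (Vd Y) → τ 0 = y →
      (∀ v ∈ Vd Y, cp (τ v) = cp y + v) → ∀ v ∈ Vd Y, σ y v = τ v := by
    intro y τ h1 h2 h3 v hv
    exact lift_unique convex_Vd.isPreconnected (hc y) h1
      (fun w hw => by rw [(hσ y w hw).1, h3 w hw]) (t0 := 0) (Vd Y).zero_mem (by rw [h0, h2]) hv
  have hsh : ∀ (y : Y) (u : E q), ‖u‖ < dl y → ∀ v ∈ Vd Y, σ (sh y u) v = sh (σ y v) u := by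
    intro y u h
    refine hu _ _ (fun w hw => ?_) (by rw [h0]) fun w hw => ?_
    · exact ContinuousAt.comp_continuousWithinAt (g := fun p : Y × E q => sh p.1 p.2)
        (f := fun w => (σ y w, u)) (continuousAt_sh₂ (by rwa [(hσ y w hw).2]))
        ((hc y w hw).prodMk continuousWithinAt_const)
    · rw [cp_sh (by rwa [(hσ y w hw).2]), cp_sh h, (hσ y w hw).1]
      abel
  refine ⟨fun v y => σ y v, fun v hv => ?_, fun v hv y => (hσ y v hv).1, fun v hv y h => ?_,
    fun v hv w hw y => ?_, fun v hv y => (hσ y v hv).2⟩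
  · rw [continuous_iff_continuousAt]
    intro y
    have h1 : ContinuousAt (fun y' : Y => sh (σ y v) (cp y' - cp y)) y := by
      refine ContinuousAt.comp (g := sh (σ y v)) ?_ (cp_cont.sub continuous_const).continuousAt
      rw [sub_self]
      exact continuousAt_sh (by rw [norm_zero]; exact dl_pos _)
    refine h1.congr ?_
    filter_upwards [eventually_eq_sh y, eventually_norm_lt y (dl_pos y)] with y' h2 h3
    rw [← hsh y _ h3 v hv, ← h2]
  · refine lift_unique (convex_Vd_ball (dl y)).isPreconnected ((hc y).mono inter_subset_left)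
      ((continuousOn_sh y).mono inter_subset_right)
      (fun w hw => by rw [(hσ y w hw.1).1, cp_sh (by simpa using hw.2)]) (t0 := 0)
      ⟨(Vd Y).zero_mem, mem_ball_self (dl_pos y)⟩ (by rw [h0, sh_zero]) ⟨hv, by simpa using h⟩
  · refine (hu (σ y w) (fun v => σ y (v + w)) ?_ (by rw [zero_add]) (fun u hu => ?_) v hv).symm
    · exact (hc y).comp (by fun_prop) fun u hu => (Vd Y).add_mem hu hw
    · rw [(hσ y _ ((Vd Y).add_mem hu hw)).1, (hσ y w hw).1]
      abel

namespace Flow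

variable {φ : E q → Y → Y}

theorem tr (hf : Flow φ) {v : E q} (hv : v ∈ Vd Y) : Tr (φ v) :=
  ⟨hf.cont v hv, ⟨v, hf.cp_eq v hv⟩, hf.dl_eq v hv⟩

theorem zero (hf : Flow φ) (y : Y) : φ 0 y = y := by
  rw [hf.small 0 (Vd Y).zero_mem y (by rw [norm_zero]; exact dl_pos y), sh_zero]

theorem neg_cancel (hf : Flow φ) {v : E q} (hv : v ∈ Vd Y) (y : Y) : φ (-v) (φ v y) = y := by
  rw [← hf.add _ ((Vd Y).neg_mem hv) _ hv, neg_add_cancel, hf.zero]

theorem cancel_neg (hf : Flow φ) {v : E q} (hv : v ∈ Vd Y) (y : Y) : φ v (φ (-v) y) = y := by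
  rw [← hf.add _ hv _ ((Vd Y).neg_mem hv), add_neg_cancel, hf.zero]

theorem sh_comm (hf : Flow φ) {v : E q} (hv : v ∈ Vd Y) {y : Y} {w : E q} (hw : ‖w‖ < dl y) :
    φ v (sh y w) = sh (φ v y) w :=
  map_sh' (hf.cont v hv) (hf.cp_eq v hv) hw

/-- joint continuity -/
theorem cont₂ (hf : Flow φ) :
    ContinuousOn (fun p : E q × Y => φ p.1 p.2) ((Vd Y : Set (E q)) ×ˢ univ) := by
  rintro ⟨v, y⟩ ⟨hv, -⟩
  have h1 : ContinuousAt (fun p : E q × Y => φ v (sh p.2 (p.1 - v))) (v, y) := by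
    refine (hf.cont v hv).continuousAt.comp ?_
    refine ContinuousAt.comp (g := fun p : Y × E q => sh p.1 p.2)
      (f := fun p : E q × Y => (p.2, p.1 - v)) ?_ (by fun_prop)
    exact continuousAt_sh₂ (by simpa using dl_pos y)
  have h2 : ∀ᶠ p : E q × Y in 𝓝 (v, y), ‖p.1 - v‖ < dl p.2 := by
    refine ContinuousAt.eventually_lt (by fun_prop)
      ((continuous_dl.comp continuous_snd).continuousAt) ?_
    simpa using dl_pos y
  refine h1.continuousWithinAt.congr_of_eventuallyEq ?_ (by simp [sh_zero])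
  filter_upwards [nhdsWithin_le_nhds h2, self_mem_nhdsWithin] with p h3 h4
  have h5 : p.1 - v ∈ Vd Y := (Vd Y).sub_mem h4.1 hv
  rw [← hf.small _ h5 _ h3, ← hf.add _ hv _ h5, add_sub_cancel]

theorem comp_cont (hf : Flow φ) {T : Type*} [TopologicalSpace T] {s : Set T} {v : T → E q}
    {y : T → Y} (hv : ContinuousOn v s) (hy : ContinuousOn y s) (h : ∀ t ∈ s, v t ∈ Vd Y) :
    ContinuousOn (fun t => φ (v t) (y t)) s :=
  hf.cont₂.comp (hv.prodMk hy) fun t ht => ⟨h t ht, mem_univ _⟩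

/-- lifts of translations commute with the flow -/
theorem map (hf : Flow φ) {f : Y → Y} (hc : Continuous f) {c : E q}
    (h : ∀ y, cp (f y) = cp y + c) {v : E q} (hv : v ∈ Vd Y) (y : Y) :
    f (φ v y) = φ v (f y) := by
  refine lift_unique convex_Vd.isPreconnected (f := fun v => f (φ v y)) (g := fun v => φ v (f y))
    (hc.comp_continuousOn (hf.comp_cont continuousOn_id continuousOn_const fun _ h => h))
    (hf.comp_cont continuousOn_id continuousOn_const fun _ h => h) (fun w hw => ?_) (t0 := 0)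
    (Vd Y).zero_mem (by simp only [hf.zero]) hv
  rw [h, hf.cp_eq w hw, hf.cp_eq w hw, h]
  abel

end Flow

/-- `Vd Y` is invariant under homeomorphisms over affine maps -/
theorem Vd_map {f f' : Y → Y} (hf : Continuous f) (hf' : Continuous f') (h1 : ∀ y, f (f' y) = y)
    (h2 : ∀ y, f' (f y) = y) {L : E q →L[ℂ] E q} {c : E q} (h : ∀ y, cp (f y) = L (cp y) + c)
    {v : E q} (hv : v ∈ Vd Y) : L v ∈ Vd Y := by
  obtain ⟨φ, hφ⟩ := exists_flow (q := q) (Y := Y)
  have hT : ∀ w ∈ Vd Y, ∀ y, dl y ≤ dl (f (φ w (f' y))) := fun w hw y =>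
    dl_le_map (f := fun y => f (φ w (f' y))) (hf.comp ((hφ.cont w hw).comp hf')) (c := L w)
      (fun y => by
        rw [h, hφ.cp_eq w hw, map_add]
        conv_rhs => rw [← h1 y, h]
        abel) y
  intro y
  filter_upwards [eventually_norm_smul_lt v (dl_pos (f' y)),
    eventually_norm_smul_lt (L v) (dl_pos y)] with ζ h3 h4
  have hw : ζ • v ∈ Vd Y := (Vd Y).smul_mem ζ hv
  have h5 : sh y (ζ • L v) = f (φ (ζ • v) (f' y)) := by
    rw [hφ.small _ hw _ h3, map_sh hf h h3 (by rwa [h1, map_smul]), h1, map_smul]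
  rw [h5]
  refine le_antisymm ?_ (hT _ hw y)
  have h6 := hT _ ((Vd Y).neg_mem hw) (f (φ (ζ • v) (f' y)))
  rwa [h2, hφ.neg_cancel hw, h1] at h6

end Crest.Agent.X261.Fib
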