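import Crest.Agent.X261.Fib.RatA

/-!
# X261 / FIB Rat (helper84): the invariant directions of a periodic pseudoconvex Riemann domain
form a rational subspace (`PD.rat`).
-/

set_option autoImplicit false
set_option linter.unusedSectionVars false

noncomputable section

open Set Metric Filter Topology MeasureTheory

namespace Crest.Agent.X261.Fib

open Crest.Agent.R271.Ho51 Crest.Agent.R273.Reg_844 Crest.Agent.R281.Thn_280
open Crest.Agent.R275.FL606 (circ ang av)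

variable {q : ℕ} {Y : Type} [TopologicalSpace Y] [RDom q Y] [T2Space Y]

namespace Rt

variable (Y) in
/-- invariance of `dl` along the real direction `w` -/
def RInv (w : E q) : Prop :=
  ∀ (y : Y) (s : ℝ), ‖(s : ℂ) • w‖ < dl y → dl (sh y ((s : ℂ) • w)) = dl y

theorem RInv.neg {w : E q} (h : RInv Y w) : RInv Y (-w) := fun y s hs => by
  have h1 : (s : ℂ) • -w = ((-s : ℝ) : ℂ) • w := by simp
  rw [h1] at hs ⊢
  exact h y _ hs

theorem dense_cp {S : Set (E q)} (h : Dense S) : Dense {y : Y | cp y ∈ S} :=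
  h.preimage (cp_lh (M := Y)).isOpenMap

/-- an inequality `dl y ≤ dl (y + v)` extends from a dense set -/
theorem le_of_dense {S : Set Y} (hS : Dense S) {v : E q}
    (h : ∀ y ∈ S, ‖v‖ < dl y → dl y ≤ dl (sh y v)) {y : Y} (hy : ‖v‖ < dl y) :
    dl y ≤ dl (sh y v) := by
  have h1 : ContinuousAt (fun y' : Y => dl (sh y' v)) y :=
    continuous_dl.continuousAt.comp
      (ContinuousAt.comp (f := fun y' : Y => (y', v)) (continuousAt_sh₂ hy) (by fun_prop))
  by_contra hlt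
  rw [not_le] at hlt
  have h2 : ∀ᶠ y' in 𝓝 y, dl (sh y' v) < dl y' := h1.eventually_lt continuous_dl.continuousAt hlt
  have h3 : ∀ᶠ y' : Y in 𝓝 y, ‖v‖ < dl y' :=
    continuous_dl.continuousAt.eventually (lt_mem_nhds hy)
  obtain ⟨y', h4, h5⟩ := hS.inter_nhds_nonempty (h2.and h3)
  exact absurd (h y' h4 h5.2) (not_le.2 h5.1)

theorem eq_of_le {v : E q} (h : ∀ y : Y, ‖v‖ < dl y → dl y ≤ dl (sh y v))
    (h' : ∀ y : Y, ‖-v‖ < dl y → dl y ≤ dl (sh y (-v))) {y : Y} (hy : ‖v‖ < dl y) :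
    dl (sh y v) = dl y := by
  refine le_antisymm ?_ (h y hy)
  have h1 : ‖-v‖ < dl (sh y v) := by rw [norm_neg]; exact hy.trans_le (h y hy)
  have h2 : sh (sh y v) (-v) = y := by
    have h3 := lift_unique (isPreconnected_Icc (a := (0 : ℝ)) (b := 1))
      (f := fun t : ℝ => sh (sh y v) ((t : ℂ) • -v))
      (g := fun t : ℝ => sh y (((1 - t : ℝ) : ℂ) • v)) ?_ ?_ ?_ (t0 := 0) ⟨le_rfl, zero_le_one⟩
      (by simp [sh_zero]) (⟨zero_le_one, le_rfl⟩ : (1 : ℝ) ∈ Icc (0 : ℝ) 1)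
    · simpa [sh_zero] using h3
    all_goals
      have hI : ∀ t ∈ Icc (0 : ℝ) 1, ∀ v : E q, ‖(t : ℂ) • v‖ ≤ ‖v‖ := by
        intro t ht v
        rw [norm_smul, Complex.norm_real, Real.norm_of_nonneg ht.1]
        exact mul_le_of_le_one_left (norm_nonneg _) ht.2
      have hJ : ∀ t ∈ Icc (0 : ℝ) 1, 1 - t ∈ Icc (0 : ℝ) 1 := fun t ht =>
        ⟨by linarith [ht.2], by linarith [ht.1]⟩
      intro t ht
    · exact (ContinuousAt.comp (f := fun t : ℝ => (t : ℂ) • -v)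
        (continuousAt_sh ((hI t ht _).trans_lt h1)) (by fun_prop)).continuousWithinAt
    · exact (ContinuousAt.comp (f := fun t : ℝ => ((1 - t : ℝ) : ℂ) • v)
        (continuousAt_sh ((hI _ (hJ t ht) _).trans_lt hy)) (by fun_prop)).continuousWithinAt
    · rw [cp_sh ((hI t ht _).trans_lt h1), cp_sh ((hI _ (hJ t ht) _).trans_lt hy), cp_sh hy]
      push_cast
      rw [sub_smul, one_smul, smul_neg]
      abel
  simpa [h2] using h' (sh y v) h1

theorem isOpen_dom (y : Y) (w : E q) : IsOpen {s : ℝ | ‖(s : ℂ) • w‖ < dl y} :=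
  isOpen_lt (by fun_prop) continuous_const

theorem convex_dom (y : Y) (w : E q) : Convex ℝ {s : ℝ | ‖(s : ℂ) • w‖ < dl y} := by
  have h := (convex_ball (0 : E q) (dl y)).linear_preimage (LinearMap.toSpanSingleton ℝ (E q) w)
  have h1 : {s : ℝ | ‖(s : ℂ) • w‖ < dl y} =
      LinearMap.toSpanSingleton ℝ (E q) w ⁻¹' ball 0 (dl y) := by
    ext s
    simp
  rw [h1]
  exact h

theorem continuousOn_dom (y : Y) (w : E q) :
    ContinuousOn (fun s : ℝ => sh y ((s : ℂ) • w)) {s : ℝ | ‖(s : ℂ) • w‖ < dl y} := fun s hs =>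
  (ContinuousAt.comp (f := fun t : ℝ => (t : ℂ) • w) (continuousAt_sh hs)
    (by fun_prop)).continuousWithinAt

variable {G : Type} [Group G] [MulAction G Y]

/-- step (1): limit directions of translations which lift -/
theorem rinv_of_lim (D : PD q Y G) {w : E q}
    (h : ∀ (s ε : ℝ), 0 < ε → ∃ (f : Y → Y) (c : E q), (∀ y, cp (f y) = cp y + c) ∧
      (∀ y, dl (f y) = dl y) ∧ ‖c - (s : ℂ) • w‖ < ε) : RInv Y w := by
  have key : ∀ y : Y, cp y ∉ D.D0 → ∀ s : ℝ, ‖(s : ℂ) • w‖ < dl y →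
      dl (sh y ((s : ℂ) • w)) = dl y := by
    intro y hy s hs
    obtain ⟨S, hS, hS'⟩ := D.fin _ hy
    have hfin : ((dl : Y → ℝ) '' S).Finite := hS.image _
    have hmap : MapsTo (fun s : ℝ => dl (sh y ((s : ℂ) • w))) {s : ℝ | ‖(s : ℂ) • w‖ < dl y}
        (dl '' S) := by
      intro r hr
      rw [← hfin.isClosed.closure_eq, Metric.mem_closure_iff]
      intro ε hε
      obtain ⟨f, c, h1, h2, h3⟩ := h (-r) (min ε (dl (sh y ((r : ℂ) • w)))) (lt_min hε (dl_pos _))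
      have h4 : ‖((-r : ℝ) : ℂ) • w - c‖ < dl (f (sh y ((r : ℂ) • w))) := by
        rw [h2, norm_sub_rev]; exact h3.trans_le (min_le_right _ _)
      obtain ⟨g, -, hg⟩ := hS' (sh (f (sh y ((r : ℂ) • w))) (((-r : ℝ) : ℂ) • w - c)) (by
        rw [cp_sh h4, h1, cp_sh hr]
        push_cast
        rw [neg_smul]
        abel)
      refine ⟨_, ⟨_, hg, rfl⟩, ?_⟩
      rw [(D.tr g).dl_eq, Real.dist_eq, abs_sub_comm]
      have h5 := abs_dl_sh h4
      rw [h2, norm_sub_rev] at h5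
      exact h5.trans_lt (h3.trans_le (min_le_left _ _))
    have h0 : (0 : ℝ) ∈ {s : ℝ | ‖(s : ℂ) • w‖ < dl y} := by simpa using dl_pos y
    have := (convex_dom y w).isPreconnected.constant_of_mapsTo hfin.isDiscrete
      (continuous_dl.comp_continuousOn (continuousOn_dom y w)) hmap hs h0
    simpa [sh_zero] using this
  have hd : Dense {y : Y | cp y ∈ D.D0ᶜ} := dense_cp D.sth.dense_compl
  intro y s hs
  refine eq_of_le (fun y hy => le_of_dense hd (fun y h1 h2 => (key y h1 s h2).ge) hy)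
    (fun y hy => ?_) hs
  have h1 : -((s : ℂ) • w) = ((-s : ℝ) : ℂ) • w := by simp
  rw [h1] at hy ⊢
  exact le_of_dense hd (fun y h1 h2 => (key y h1 (-s) h2).ge) hy

/-- `psi` is convex along `i w` -/
theorem convexOn_psi (hp : PSH (psi : Y → ℝ)) {w : E q} (h : RInv Y w) (y : Y) :
    ConvexOn ℝ {s : ℝ | ‖(s : ℂ) • (Complex.I • w)‖ < dl y}
      fun s : ℝ => psi (sh y ((s : ℂ) • (Complex.I • w))) := by
  refine convexOn_of_av (convex_dom y _)
    (continuous_psi.comp_continuousOn (continuousOn_dom y _)) fun x hx => ?_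
  have hx' : ‖(x : ℂ) • (Complex.I • w)‖ < dl y := hx
  set d : ℝ := dl y - ‖(x : ℂ) • (Complex.I • w)‖ with hd
  have hd0 : 0 < d := sub_pos.2 hx'
  have hw1 : 0 < ‖w‖ + 1 := by positivity
  refine ⟨d / (4 * (‖w‖ + 1)), by positivity, fun r hr => ?_⟩
  have hr1 : r * ‖w‖ < d / 4 := by
    have h1 := hr.2
    rw [lt_div_iff₀ (by positivity)] at h1
    nlinarith [hr.1]
  have hI : ∀ a : ℝ, |a| ≤ 1 → ∀ v : E q, ‖v‖ = ‖w‖ → ‖((r * a : ℝ) : ℂ) • v‖ < d / 4 := by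
    intro a ha v hv
    rw [norm_smul, Complex.norm_real, Real.norm_eq_abs, abs_mul, abs_of_pos hr.1, hv]
    refine lt_of_le_of_lt ?_ hr1
    exact mul_le_mul_of_nonneg_right (mul_le_of_le_one_right hr.1.le ha) (norm_nonneg _)
  have hIw : ‖Complex.I • w‖ = ‖w‖ := by rw [norm_smul, Complex.norm_I, one_mul]
  have hmem : ∀ θ, ‖((x + r * Real.sin θ : ℝ) : ℂ) • (Complex.I • w)‖ < dl y - 3 * d / 4 := by
    intro θ
    rw [Complex.ofReal_add, add_smul]
    have := norm_add_le ((x : ℂ) • (Complex.I • w))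
      (((r * Real.sin θ : ℝ) : ℂ) • (Complex.I • w))
    linarith [hI _ (Real.abs_sin_le_one θ) _ hIw]
  refine ⟨fun θ => (hmem θ).trans (by linarith), ?_⟩
  have h1 := hp.le_av (isCh_bch y) (z := cp y + (x : ℂ) • (Complex.I • w)) (v := (r : ℂ) • w)
    (fun ζ hζ => by
      rw [add_assoc]
      refine ball_bch y (add_mem_ball ?_)
      have h2 : ‖ζ • (r : ℂ) • w‖ ≤ r * ‖w‖ := by
        rw [norm_smul, norm_smul, Complex.norm_real, Real.norm_of_nonneg hr.1.le]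
        exact mul_le_of_le_one_left (mul_nonneg hr.1.le (norm_nonneg _)) hζ
      linarith [norm_add_le ((x : ℂ) • (Complex.I • w)) (ζ • (r : ℂ) • w)])
  refine h1.trans (le_of_eq (integral_congr_ae (Eventually.of_forall fun θ => ?_)))
  have h2 : cp y + (x : ℂ) • (Complex.I • w) + ang θ • (r : ℂ) • w =
      cp y + (((x + r * Real.sin θ : ℝ) : ℂ) • (Complex.I • w) +
        ((r * Real.cos θ : ℝ) : ℂ) • w) := by
    rw [ang, Complex.exp_mul_I]
    push_cast
    simp only [smul_smul]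
    rw [add_assoc, ← add_smul, ← add_smul]
    congr 2
    ring
  have h3 := hI _ (Real.abs_cos_le_one θ) w rfl
  have h4 := hmem θ
  change psi ((bch y).symm _) = psi _
  rw [h2]
  change psi (sh y _) = _
  rw [← sh_sh (by linarith), psi, psi, h]
  linarith [dl_sh (y := y) (w := ((x + r * Real.sin θ : ℝ) : ℂ) • (Complex.I • w)) (by linarith)]

/-- growth along the lift of a segment -/
theorem grow {u : E q} (hc : ∀ y : Y, ConvexOn ℝ {s : ℝ | ‖(s : ℂ) • u‖ < dl y}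
      fun s : ℝ => psi (sh y ((s : ℂ) • u))) {h m : ℝ} (hh : 0 < h) {y0 : Y}
    (h0 : psi y0 + m ≤ psi (sh y0 ((h : ℂ) • u))) {N : ℕ}
    (hN : ∀ k ≤ N, ∀ y : Y, cp y = cp y0 + ((k * h : ℝ) : ℂ) • u → 2 * ‖(h : ℂ) • u‖ < dl y) :
    ∀ k ≤ N, ∃ y : Y, cp y = cp y0 + ((k * h : ℝ) : ℂ) • u ∧
      psi y + m ≤ psi (sh y ((h : ℂ) • u)) ∧ k * m ≤ psi y := by
  intro k
  induction k with
  | zero => exact fun _ => ⟨y0, by simp, h0, by simpa using psi_nonneg y0⟩
  | succ k ih =>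
    intro hk
    obtain ⟨y, h1, h2, h3⟩ := ih (by omega)
    have h4 := hN k (by omega) y h1
    have h5 : ‖(h : ℂ) • u‖ < dl y := by linarith [norm_nonneg ((h : ℂ) • u)]
    refine ⟨sh y ((h : ℂ) • u), ?_, ?_, by push_cast; linarith⟩
    · rw [cp_sh h5, h1, add_assoc, ← add_smul]
      congr 2
      push_cast
      ring
    · have h6 : ((2 * h : ℝ) : ℂ) • u = (h : ℂ) • u + (h : ℂ) • u := by
        rw [← add_smul]; congr 1; push_cast; ring
      have h9 : (0 : ℝ) ∈ {s : ℝ | ‖(s : ℂ) • u‖ < dl y} := by simpa using dl_pos y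
      have h10 : 2 * h ∈ {s : ℝ | ‖(s : ℂ) • u‖ < dl y} := by
        change ‖((2 * h : ℝ) : ℂ) • u‖ < dl y
        rw [h6]
        linarith [norm_add_le ((h : ℂ) • u) ((h : ℂ) • u)]
      have h7 := (hc y).2 h9 h10 (show (0 : ℝ) ≤ 1 / 2 by norm_num)
        (show (0 : ℝ) ≤ 1 / 2 by norm_num) (by norm_num)
      have h8 : (1 / 2 : ℝ) * 0 + 1 / 2 * (2 * h) = h := by ring
      simp only [smul_eq_mul, h8, h6, Complex.ofReal_zero, zero_smul, sh_zero] at h7
      rw [sh_sh (by linarith)]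
      linarith

/-- uniform lower bound over compact subsets of the complement of `D0` -/
theorem low_compact (D : PD q Y G) {K : Set (E q)} (hK : IsCompact K) (h : ∀ t ∈ K, t ∉ D.D0) :
    ∃ c : ℝ, 0 < c ∧ ∀ y : Y, cp y ∈ K → c ≤ dl y := by
  revert h
  refine hK.induction_on (p := fun s => (∀ t ∈ K, t ∉ D.D0) →
    ∃ c : ℝ, 0 < c ∧ ∀ y : Y, cp y ∈ s → c ≤ dl y) ?_ ?_ ?_ ?_
  · exact fun _ => ⟨1, one_pos, by simp⟩
  · intro s t hst h h'
    obtain ⟨c, hc, h1⟩ := h h'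
    exact ⟨c, hc, fun y hy => h1 y (hst hy)⟩
  · intro s t h1 h2 h'
    obtain ⟨c, hc, h3⟩ := h1 h'
    obtain ⟨c', hc', h4⟩ := h2 h'
    refine ⟨min c c', lt_min hc hc', fun y hy => ?_⟩
    rcases hy with hy | hy
    · exact (min_le_left _ _).trans (h3 y hy)
    · exact (min_le_right _ _).trans (h4 y hy)
  · intro t ht
    by_cases h0 : t ∈ D.D0
    · exact ⟨univ, univ_mem, fun h' => (h' t ht h0).elim⟩
    obtain ⟨c, hc, h1⟩ := D.low t h0
    exact ⟨_, mem_nhdsWithin_of_mem_nhds h1, fun _ => ⟨c, hc, fun y hy => hy y rfl⟩⟩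

/-- the periods -/
def per (D : PD q Y G) : AddSubgroup (E q) where
  carrier := range D.lam
  add_mem' := by rintro _ _ ⟨g, rfl⟩ ⟨h, rfl⟩; exact ⟨g * h, D.lam_mul g h⟩
  zero_mem' := ⟨1, by simpa using D.lam_mul 1 1⟩
  neg_mem' := by
    rintro _ ⟨g, rfl⟩
    have h1 : D.lam 1 = 0 := by simpa using D.lam_mul 1 1
    have h2 := D.lam_mul g⁻¹ g
    rw [inv_mul_cancel, h1] at h2
    exact ⟨g⁻¹, eq_neg_of_add_eq_zero_left h2.symm⟩

/-- step (2), one sided -/
theorem le_of_convex (D : PD q Y G) {u : E q}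
    (hc : ∀ y : Y, ConvexOn ℝ {s : ℝ | ‖(s : ℂ) • u‖ < dl y}
      fun s : ℝ => psi (sh y ((s : ℂ) • u))) {x0 : ℝ} (hx0 : 0 < x0) {y : Y}
    (hy : ‖(x0 : ℂ) • u‖ < dl y) : dl y ≤ dl (sh y ((x0 : ℂ) • u)) := by
  refine le_of_dense (dense_cp (dense_line D.sth u)) (fun y0 hg hy0 => ?_) hy
  by_contra hlt
  rw [not_le] at hlt
  have hg' : ∀ x : ℝ, cp y0 + (x : ℂ) • u ∉ D.D0 := hg
  set y1 := sh y0 ((x0 : ℂ) • u) with hy1
  have hm : 0 < (psi y1 - psi y0) / x0 :=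
    div_pos (by have := Real.log_lt_log (dl_pos _) hlt; unfold psi; linarith) hx0
  set m := (psi y1 - psi y0) / x0 with hmdef
  obtain ⟨c0, hc0, hlow⟩ := D.low (cp y0) (by simpa using hg' 0)
  obtain ⟨ε, hε, hball⟩ := Metric.eventually_nhds_iff.1 hlow
  obtain ⟨R, hR⟩ := D.coc
  obtain ⟨b, hb, _, ⟨g, rfl⟩, hbg⟩ := recur (per D) (R := R)
    (fun t => (hR t).elim fun g hg => ⟨_, ⟨g, rfl⟩, hg⟩) u hε (x0 + (|Real.log c0| + 1) / m)
  have hbx : (|Real.log c0| + 1) / m ≤ b - x0 := by linarith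
  have hbx0 : 0 < b - x0 := lt_of_lt_of_le (by positivity) hbx
  obtain ⟨c, hc1, hlow1⟩ := low_compact D (K := (fun x : ℝ => cp y0 + (x : ℂ) • u) '' Icc 0 b)
    (isCompact_Icc.image (by fun_prop)) (by rintro _ ⟨x, -, rfl⟩; exact hg' x)
  set δ : ℝ := min c (dl y0 - ‖(x0 : ℂ) • u‖) with hδ
  have hδ0 : 0 < δ := lt_min hc1 (sub_pos.2 hy0)
  obtain ⟨N, hN⟩ := exists_nat_gt (2 * ((b - x0) * ‖u‖) / δ)
  have hN0 : (0 : ℝ) < N := lt_of_le_of_lt (by positivity) hN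
  set h : ℝ := (b - x0) / N with hh
  have hh0 : 0 < h := div_pos hbx0 hN0
  have hNh : N * h = b - x0 := by rw [hh]; field_simp
  have hhu : 2 * ‖(h : ℂ) • u‖ < δ := by
    rw [norm_smul, Complex.norm_real, Real.norm_of_nonneg hh0.le]
    rw [div_lt_iff₀ hδ0, ← hNh] at hN
    nlinarith
  have hn0 := norm_nonneg ((h : ℂ) • u)
  have hδ1 : δ ≤ dl y0 - ‖(x0 : ℂ) • u‖ := min_le_right _ _
  have hcp1 : cp y1 = cp y0 + (x0 : ℂ) • u := cp_sh hy0
  have hsum : ((x0 + h : ℝ) : ℂ) • u = (x0 : ℂ) • u + (h : ℂ) • u := by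
    rw [Complex.ofReal_add, add_smul]
  have hQ : psi y1 + m * h ≤ psi (sh y1 ((h : ℂ) • u)) := by
    have h1 := (hc y0).slope_mono_adjacent (x := 0) (y := x0) (z := x0 + h)
      (by simpa using dl_pos y0) (by
        change ‖((x0 + h : ℝ) : ℂ) • u‖ < dl y0
        rw [hsum]
        linarith [norm_add_le ((x0 : ℂ) • u) ((h : ℂ) • u)]) hx0 (by linarith)
    simp only [Complex.ofReal_zero, zero_smul, sh_zero, sub_zero, add_sub_cancel_left, hsum] at h1
    rw [← sh_sh (by linarith), ← hy1, ← hmdef, le_div_iff₀ hh0] at h1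
    linarith
  obtain ⟨y2, h1, -, h2⟩ := grow hc hh0 hQ (N := N) (fun k hk y hy => by
    refine hhu.trans_le ((min_le_left _ _).trans (hlow1 y ⟨x0 + k * h, ⟨by positivity, ?_⟩, ?_⟩))
    · have : (k : ℝ) ≤ N := by exact_mod_cast hk
      nlinarith
    · simp only
      rw [hy, hcp1, Complex.ofReal_add, add_smul, add_assoc]) N le_rfl
  have h3 : cp (g⁻¹ • y2) = cp y0 + ((b : ℂ) • u - D.lam g) := by
    have h4 := D.eqv g (g⁻¹ • y2)
    rw [smul_inv_smul, h1, hcp1, hNh, add_assoc, ← add_smul, ← Complex.ofReal_add,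
      add_sub_cancel] at h4
    rw [← add_sub_assoc, h4, add_sub_cancel_right]
  have h4 := hball (y := cp (g⁻¹ • y2)) (by rwa [h3, dist_eq_norm, add_sub_cancel_left]) _ rfl
  rw [(D.tr g⁻¹).dl_eq] at h4
  have h5 := Real.log_le_log hc0 h4
  have h6 : (N : ℝ) * (m * h) = m * (b - x0) := by rw [← hNh]; ring
  rw [div_le_iff₀ hm] at hbx
  have h7 := neg_abs_le (Real.log c0)
  unfold psi at h2
  nlinarith

/-- step (2) -/
theorem rinv_I (D : PD q Y G) {w : E q} (h : RInv Y w) : RInv Y (Complex.I • w) := by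
  have key : ∀ w : E q, RInv Y w → ∀ s : ℝ, 0 < s → ∀ y : Y,
      ‖(s : ℂ) • (Complex.I • w)‖ < dl y → dl (sh y ((s : ℂ) • (Complex.I • w))) = dl y := by
    intro w h s hs y hy
    refine eq_of_le (fun y hy => le_of_convex D (convexOn_psi D.psh h) hs hy) (fun y hy => ?_) hy
    rw [← smul_neg, ← smul_neg] at hy ⊢
    exact le_of_convex D (convexOn_psi D.psh h.neg) hs hy
  intro y s hs
  rcases lt_trichotomy s 0 with h1 | h1 | h1
  · have h2 : (s : ℂ) • (Complex.I • w) = ((-s : ℝ) : ℂ) • (Complex.I • -w) := by simp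
    rw [h2] at hs ⊢
    exact key _ h.neg _ (by linarith) y hs
  · simp [h1, sh_zero]
  · exact key w h s h1 y hs

theorem mem_Vd_of_rinv {w : E q} (h : RInv Y w) (h' : RInv Y (Complex.I • w)) : w ∈ Vd Y := by
  intro y
  filter_upwards [eventually_norm_smul_lt w (half_pos (dl_pos y))] with ζ hζ
  have h1 : ζ • w = (ζ.re : ℂ) • w + (ζ.im : ℂ) • (Complex.I • w) := by
    rw [smul_smul, ← add_smul, Complex.re_add_im]
  have h2 : ‖(ζ.re : ℂ) • w‖ < dl y / 2 := by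
    refine lt_of_le_of_lt ?_ hζ
    rw [norm_smul, norm_smul, Complex.norm_real]
    exact mul_le_mul_of_nonneg_right (Complex.abs_re_le_norm ζ) (norm_nonneg _)
  have h3 : ‖(ζ.im : ℂ) • (Complex.I • w)‖ < dl y / 2 := by
    refine lt_of_le_of_lt ?_ hζ
    rw [norm_smul, norm_smul, norm_smul, Complex.norm_real, Complex.norm_I, one_mul]
    exact mul_le_mul_of_nonneg_right (Complex.abs_im_le_norm ζ) (norm_nonneg _)
  have h0 := dl_pos y
  have h4 := h y ζ.re (by linarith)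
  rw [h1, ← sh_sh (by linarith), h' _ _ (by rw [h4]; linarith), h4]

end Rt

/-- the invariant directions form a rational subspace -/
theorem PD.rat {G : Type} [Group G] [MulAction G Y] (D : PD q Y G) {φ : E q → Y → Y}
    (hf : Flow φ) :
    ∃ c : ℝ, 0 < c ∧ ∀ g, ∀ v ∈ Vd Y, ‖D.lam g - v‖ < c → D.lam g ∈ Vd Y := by
  by_contra hcon
  push Not at hcon
  obtain ⟨w, hw, hcl⟩ := Rt.exists_dir (Vd Y) (Rt.per D ⊔ (Vd Y).toAddSubgroup)
    (fun v hv => AddSubgroup.mem_sup_right hv) (fun c hc => by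
      obtain ⟨g, v, hv, h1, h2⟩ := hcon c hc
      refine ⟨_, AddSubgroup.sub_mem _ (AddSubgroup.mem_sup_left ⟨g, rfl⟩)
        (AddSubgroup.mem_sup_right hv), h1, fun h3 => h2 ?_⟩
      simpa using (Vd Y).add_mem h3 hv)
  have h1 : Rt.RInv Y w := Rt.rinv_of_lim D fun s ε hε => by
    obtain ⟨a, ha, h2⟩ := Metric.mem_closure_iff.1 (hcl s) ε hε
    obtain ⟨_, ⟨g, rfl⟩, v, hv, rfl⟩ := AddSubgroup.mem_sup.1 ha
    refine ⟨fun y => g • φ v y, D.lam g + v, fun y => ?_, fun y => ?_, ?_⟩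
    · rw [D.eqv, hf.cp_eq v hv]; abel
    · rw [(D.tr g).dl_eq, hf.dl_eq v hv]
    · rwa [dist_comm, dist_eq_norm] at h2
  exact hw (Rt.mem_Vd_of_rinv h1 (Rt.rinv_I D h1))

end Crest.Agent.X261.Fib
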