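import Crest.Agent.X261.Fib.Om
import Crest.Agent.X261.Fib.Cone
import Crest.Agent.X261.Fib.Flow
import Crest.Agent.X261.Fib.Rat
import Crest.Agent.R281.Thin3_524

/-!
# X261 / FIB (helper16), file Dich: the dichotomy

`Sys.dich_of : JetsStmt → S.Big ∨ ∃ V, S.Dir V`.
-/

set_option autoImplicit false
set_option linter.unusedSectionVars false

noncomputable section

open Set Metric Filter Topology

namespace Crest.Agent.X261.Fib

open Crest.Agent.R271.Ho51 Crest.Agent.R273.Reg_844 Crest.Agent.R281.Thn_280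
open Crest.Agent.R266.SCV (analyticOnNhd_of_differentiableOn)

/-- the statement of `PD.jets` -/
def JetsStmt : Prop :=
  ∀ (q : ℕ) (Y : Type) [TopologicalSpace Y] [RDom q Y] [T2Space Y] (G : Type) [Group G]
    [MulAction G Y] (_D : PD q Y G) (Ψ : Y → ℝ), Wt Ψ → (∀ y, psi y ≤ Ψ y) → ∀ (y0 : Y) (c : ℝ),
    0 < c → (∀ w, c * nsq w ≤ Levi Ψ y0 w) →
    ∃ H : Option (Fin q) → Y → ℂ, Jets y0 H ∧ ∀ j (g : G) y, H j (g • y) = H j y

variable {q : ℕ} {Y : Type} [TopologicalSpace Y] [RDom q Y] [T2Space Y]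

theorem preconn_off [PreconnectedSpace Y] {D0 : Set (E q)} (hc : IsClosed D0) (hs : STh D0) :
    IsPreconnected {y : Y | cp y ∉ D0} := by
  refine Crest.Agent.R281.Thin3_524.preconnected_of_thin (e := fun y : Y => ch y)
    (fun y => ⟨y, mem_ch y⟩) (hc.isOpen_compl.preimage cp_cont) fun y z _ => ?_
  refine (hs.dense_line z).mono fun v hv => Countable.mono ?_ hv
  rintro c ⟨h1, -, h2⟩
  simpa [(isCh_ch y).cp_symm h1] using h2

theorem finite_fibre {K : Set Y} (hK : IsCompact K) (t : E q) : (K ∩ {y | cp y = t}).Finite := by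
  refine hK.induction_on (p := fun s => (s ∩ {y | cp y = t}).Finite) (by simp)
    (fun s s' h h' => h'.subset (inter_subset_inter_left _ h))
    (fun s s' h h' => by rw [union_inter_distrib_right]; exact h.union h') fun x _ => ?_
  refine ⟨(ch x).source, mem_nhdsWithin_of_mem_nhds ((ch x).open_source.mem_nhds (mem_ch x)),
    Set.Subsingleton.finite fun y hy y' hy' => (isCh_ch x).injOn hy.1 hy'.1 ?_⟩
  rw [hy.2, hy'.2]

variable {M : Type} [TopologicalSpace M] {G : Type} [Group G] [MulAction G M] [MulAction G Y]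
  {S : Sys q M G}

namespace Env

open Sys

variable (V : Env S Y)

theorem contAt {x : M} (hx : x ∈ S.U) : ContinuousAt V.π x :=
  V.cont.continuousAt (S.op.mem_nhds hx)

theorem cont_σ {x : M} (hx : x ∈ S.U) :
    ContinuousOn (fun t => V.π (S.σ x t)) (ball (S.a x) (S.rho x)) :=
  V.cont.comp (sc_σ hx).cont (sc_σ hx).mem

theorem cp_σ {x : M} (hx : x ∈ S.U) : ∀ t ∈ ball (S.a x) (S.rho x), cp (V.π (S.σ x t)) = t :=
  fun t ht => by rw [V.cp_eq _ ((sc_σ hx).mem t ht), (sc_σ hx).eq t ht]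

theorem le_dl {x : M} (hx : x ∈ S.U) : min (S.rho x) 1 ≤ dl (V.π x) := by
  have h := adm_of_section (rho_pos hx) (V.cont_σ hx) (V.cp_σ hx)
  simp only [σ_a hx] at h
  exact min_le_dl h

include V in
theorem eqvH {g : G} (hg : g ∈ S.H) (y : Y) : cp (g • y) = cp y + S.lam g := by
  rw [V.geqv, S.LH g hg]

/-- translates of `π y` by vectors of length `< r` are values of `π` -/
def Sh (r : ℝ) (y : M) : Prop :=
  r ≤ dl (V.π y) ∧ ∀ w : E q, ‖w‖ < r → ∃ x ∈ S.U, sh (V.π y) w = V.π x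

theorem Sh.mono {r s : ℝ} {y : M} (h : V.Sh r y) (hs : s ≤ r) : V.Sh s y :=
  ⟨hs.trans h.1, fun w hw => h.2 w (hw.trans_le hs)⟩

theorem near {x : M} (hx : x ∈ S.U) : ∃ r : ℝ, 0 < r ∧ ∀ᶠ y in 𝓝 x, V.Sh r y := by
  have h0 : 0 < min (S.rho x) 1 := lt_min (rho_pos hx) one_pos
  have h1 := V.le_dl hx
  refine ⟨_, half_pos h0, ?_⟩
  filter_upwards [(V.contAt hx).eventually (eventually_eq_sh (V.π x)),
    (V.contAt hx).eventually (eventually_norm_lt (V.π x) (half_pos h0))] with y h2 h3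
  have h7 := dl_sh (y := V.π x) (w := cp (V.π y) - cp (V.π x)) (by linarith)
  rw [← h2] at h7
  refine ⟨by linarith, fun w hw => ?_⟩
  have h4 : ‖cp (V.π y) - cp (V.π x) + w‖ < min (S.rho x) 1 := (norm_add_le _ _).trans_lt (by linarith)
  have h5 := h4.trans_le (min_le_left _ _)
  refine ⟨_, (sc_σ hx).mem _ (add_mem_ball h5), ?_⟩
  have h6 := section_eq_sh (V.cont_σ hx) (V.cp_σ hx) h5 (by rw [σ_a hx]; exact h4.trans_le h1)
  rw [h6, σ_a hx, ← sh_sh (by linarith), ← h2]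

theorem Sh.smul {r : ℝ} {y : M} (hy : y ∈ S.U) (h : V.Sh r y) {g : G} (hg : g ∈ S.H) :
    V.Sh r (g • y) := by
  unfold Sh
  rw [V.smul g y hy]
  refine ⟨h.1.trans (dl_le_map (V.gcont g) (V.eqvH hg) _), fun w hw => ?_⟩
  obtain ⟨x, hx, h1⟩ := h.2 w hw
  exact ⟨g • x, S.inv g x hx, by
    rw [← map_sh' (V.gcont g) (V.eqvH hg) (hw.trans_le h.1), h1, V.smul g x hx]⟩

theorem a_smul {g : G} (hg : g ∈ S.H) (h : S.lam g = 0) (x : M) : S.a (g • x) = S.a x := by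
  rw [S.eqv, S.LH g hg, h, add_zero]

theorem unif {t : E q} (ht : t ∉ S.D0) :
    ∃ r : ℝ, 0 < r ∧ ∀ y, ‖S.a y - t‖ < r → V.Sh r y := by
  obtain ⟨ε, hε, hb⟩ := nhds_basis_closedBall.mem_iff.1 (S.closed.isOpen_compl.mem_nhds ht)
  obtain ⟨C, hC, hK⟩ := S.prop _ (isCompact_closedBall t ε)
  have h1 : ∃ r : ℝ, 0 < r ∧ ∀ y ∈ C ∩ S.a ⁻¹' closedBall t ε, V.Sh r y := by
    refine (hC.inter_right (isClosed_closedBall.preimage S.cont_a)).induction_on
      (p := fun s => ∃ r : ℝ, 0 < r ∧ ∀ y ∈ s, V.Sh r y) ⟨1, one_pos, by simp⟩ ?_ ?_ ?_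
    · rintro s s' h ⟨r, hr, h2⟩
      exact ⟨r, hr, fun y hy => h2 y (h hy)⟩
    · rintro s s' ⟨r, hr, h2⟩ ⟨r', hr', h3⟩
      exact ⟨min r r', lt_min hr hr', fun y hy => hy.elim
        (fun h => Sh.mono V (h2 y h) (min_le_left _ _))
        fun h => Sh.mono V (h3 y h) (min_le_right _ _)⟩
    · intro x hx
      obtain ⟨r, hr, h2⟩ := V.near (S.reg x (hb hx.2))
      exact ⟨_, mem_nhdsWithin_of_mem_nhds h2, r, hr, fun y hy => hy⟩
  obtain ⟨r, hr, h2⟩ := h1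
  refine ⟨min r ε, lt_min hr hε, fun y hy => ?_⟩
  have h3 : S.a y ∈ closedBall t ε := by
    rw [mem_closedBall, dist_eq_norm]
    exact (hy.trans_le (min_le_right _ _)).le
  obtain ⟨g, hg, h4, h5⟩ := hK y h3
  have h6 : S.a (g • y) ∈ closedBall t ε := by rwa [a_smul hg h4]
  have h7 := Sh.smul V (S.reg _ (hb h6)) (h2 _ ⟨h5, h6⟩) (S.H.inv_mem hg)
  rw [inv_smul_smul] at h7
  exact Sh.mono V h7 (min_le_left _ _)

theorem surj [PreconnectedSpace Y] {p : Y} (hp : cp p ∉ S.D0) : ∃ x, S.a x = cp p ∧ V.π x = p := by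
  have h := (preconn_off (Y := Y) S.closed S.sth).subset_of_closure_inter_subset
    (u := {p | cp p ∉ S.D0 ∧ ∃ x ∈ S.U, V.π x = p}) ?_ ?_ ?_ hp
  · obtain ⟨-, x, hx, rfl⟩ := h
    exact ⟨x, (V.cp_eq x hx).symm, rfl⟩
  · rw [isOpen_iff_mem_nhds]
    rintro _ ⟨h1, x, hx, rfl⟩
    obtain ⟨r, hr, h2⟩ := V.near hx
    filter_upwards [eventually_eq_sh (V.π x), eventually_norm_lt (V.π x) hr,
      cp_cont.continuousAt.eventually (S.closed.isOpen_compl.mem_nhds h1)] with y h3 h4 h5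
    obtain ⟨x', hx', h6⟩ := h2.self_of_nhds.2 _ h4
    exact ⟨h5, x', hx', by rw [← h6, ← h3]⟩
  · obtain ⟨x, hx⟩ := S.ne
    obtain ⟨t, h1, h2⟩ := S.sth.dense_compl.inter_nhds_nonempty (ball_mem_nhds _ (rho_pos hx))
    have h3 : cp (V.π (S.σ x t)) ∉ S.D0 := by rwa [V.cp_σ hx t h2]
    exact ⟨_, h3, h3, _, (sc_σ hx).mem t h2, rfl⟩
  · rintro p ⟨h1, h2⟩
    obtain ⟨r, hr, h3⟩ := V.unif h2
    obtain ⟨_, ⟨-, x, hx, rfl⟩, h4, h5, h6⟩ := ((mem_closure_iff_frequently.1 h1).and_eventually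
      ((eventually_eq_sh p).and ((eventually_norm_lt p hr).and
        (eventually_norm_lt p (half_pos (dl_pos p)))))).exists
    obtain ⟨x', hx', h7⟩ := (h3 x (by rwa [← V.cp_eq x hx])).2 (-(cp (V.π x) - cp p))
      (by rwa [norm_neg])
    refine ⟨h2, x', hx', ?_⟩
    rw [← h7]
    conv_lhs => rw [h4, cp_sh (by linarith [dl_pos p]), add_sub_cancel_left]
    exact sh_sh_neg (by linarith)

/-- the periodic domain -/
def pd [PreconnectedSpace Y] : PD q Y S.H where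
  lam := fun g => S.lam g
  lam_mul := fun g h => by
    have h1 := S.aff_mul g h 0
    simp only [map_zero, zero_add, S.LH g g.2] at h1
    rw [Subgroup.coe_mul, h1, add_comm]
  cont := fun g => V.gcont g
  eqv := fun g y => V.eqvH g.2 y
  psh := V.psh
  disc := S.disc.imp fun _ h => ⟨h.1, fun g => h.2 g g.2⟩
  coc := S.coc.imp fun _ h t => by
    obtain ⟨g, hg, h1⟩ := h t
    exact ⟨⟨g, hg⟩, h1⟩
  D0 := S.D0
  closed := S.closed
  sth := S.sth
  fin := fun t ht => by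
    obtain ⟨C, hC, hK⟩ := S.prop _ (isCompact_singleton (x := t))
    have h1 : IsCompact (V.π '' (C ∩ S.a ⁻¹' {t})) :=
      (hC.inter_right (isClosed_singleton.preimage S.cont_a)).image_of_continuousOn
        (V.cont.mono fun x hx => S.reg x (by rwa [show S.a x = t from hx.2]))
    refine ⟨_, finite_fibre h1 t, fun y hy => ?_⟩
    obtain ⟨x, h2, rfl⟩ := V.surj (p := y) (by rwa [hy])
    rw [hy] at h2
    obtain ⟨g, hg, h3, h4⟩ := hK x h2
    have hx : x ∈ S.U := S.reg x (by rwa [h2])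
    refine ⟨⟨g, hg⟩, h3, ⟨g • x, ⟨h4, by rw [mem_preimage, a_smul hg h3, h2]; rfl⟩,
      V.smul g x hx⟩, ?_⟩
    change cp (g • V.π x) = t
    rw [V.eqvH hg, h3, add_zero, hy]
  low := fun t ht => by
    obtain ⟨r, hr, h1⟩ := V.unif ht
    refine ⟨r, hr, ?_⟩
    filter_upwards [ball_mem_nhds t hr, S.closed.isOpen_compl.mem_nhds ht] with s h2 h3 y hy
    obtain ⟨x, h4, rfl⟩ := V.surj (p := y) (by rwa [hy])
    exact (h1 x (by rwa [h4, hy, ← dist_eq_norm])).1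

theorem fac {F : Y → ℂ} (hF : Hol F) {x : M} (hx : x ∈ S.U) :
    S.Fac (fun y => F (V.π y)) x (F ∘ (ch (V.π x)).symm) := by
  refine ⟨analyticOnNhd_of_differentiableOn (ch _).open_target (hF _ (isCh_ch _)) _ ?_, ?_⟩
  · rw [← V.cp_eq x hx]
    exact (isCh_ch _).cp_mem (mem_ch _)
  · filter_upwards [(V.contAt hx).eventually (eventually_eq_comp (isCh_ch _) (mem_ch _) F),
      S.op.mem_nhds hx] with y h1 h2
    rw [h1, V.cp_eq y h2]

include V in
theorem big (hJ : JetsStmt) [PreconnectedSpace Y] (h : Vd Y = ⊥) : S.Big := by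
  intro x0 hx0
  obtain ⟨Ψ, c, h1, h2, h3, h4⟩ := cone V.psh h (V.π x0)
  obtain ⟨H, hH, h5⟩ := hJ q Y S.H V.pd Ψ h1 h2 _ c h3 h4
  obtain ⟨N, C, h6⟩ := hH.le
  have h7 : (ch (V.π x0)).symm (S.a x0) = V.π x0 := by rw [← V.cp_eq x0 hx0, symm_cp]
  refine ⟨fun j y => H j (V.π y), fun j => H j ∘ (ch (V.π x0)).symm, N, C,
    fun j x hx => ⟨_, V.fac (hH.hol j) hx⟩, fun j g hg x hx => ?_, fun j x hx => ?_,
    fun j => V.fac (hH.hol j) hx0, ?_, fun j => ?_, fun j w => ?_⟩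
  · simp only [V.smul g x hx]
    exact h5 j ⟨g, hg⟩ _
  · refine le_trans (mul_le_mul_of_nonneg_left ?_ (norm_nonneg _)) (h6 j (V.π x))
    exact pow_le_pow_left₀ (lt_min (rho_pos hx) one_pos).le (V.le_dl hx) N
  · simp only [Function.comp_apply, h7, hH.one]
  · simp only [Function.comp_apply, h7, hH.zero]
  · rw [← Crest.Agent.R266.SCV.fderiv_real_eq (V.fac (hH.hol _) hx0).1.differentiableAt,
      ← V.cp_eq x0 hx0]
    exact hH.der j w

include V in
theorem dir [PreconnectedSpace Y] (h : Vd Y ≠ ⊥) : S.Dir (Vd Y) := by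
  obtain ⟨φ, hφ⟩ := exists_flow (q := q) (Y := Y)
  refine ⟨h, fun g v hv => ?_, ?_, fun t ht => ?_⟩
  · exact Vd_map (V.gcont g) (V.gcont g⁻¹) (smul_inv_smul g) (inv_smul_smul g)
      (L := (S.L g : E q →L[ℂ] E q)) (V.geqv g) hv
  · obtain ⟨c, hc, h1⟩ := V.pd.rat hφ
    exact ⟨c, hc, fun g hg => h1 ⟨g, hg⟩⟩
  obtain ⟨P, hP⟩ := Submodule.ClosedComplemented.of_finiteDimensional (Vd Y)
  obtain ⟨c, hc, h1⟩ := V.pd.low t ht
  obtain ⟨δ, hδ, h2⟩ := Metric.eventually_nhds_iff_ball.1 h1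
  set Q : E q →L[ℂ] E q := ContinuousLinearMap.id ℂ (E q) - (Vd Y).subtypeL.comp P with hQ
  have hQ1 : ∀ u, Q u = u - P u := fun u => rfl
  have hQ2 : ∀ v ∈ Vd Y, Q v = 0 := fun v hv => by rw [hQ1, hP ⟨v, hv⟩, sub_self]
  have hm : 0 < min c δ := lt_min hc hδ
  refine ⟨min c δ / (‖Q‖ + 1), by positivity, fun W hW hpre hr x hx x' hx' h3 h4 f hf => ?_⟩
  have h5 : ∀ y ∈ W, ‖Q (S.a y - t)‖ < min c δ := fun y hy => by
    obtain ⟨v, hv, h6⟩ := hr y hy
    rw [lt_div_iff₀ (by positivity)] at h6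
    have h7 : Q (S.a y - t) = Q (S.a y - t - v) := by rw [map_sub _ _ v, hQ2 v hv, sub_zero]
    rw [h7]
    nlinarith [Q.le_opNorm (S.a y - t - v), norm_nonneg (S.a y - t - v)]
  have h8 : ∀ y, -(P (S.a y - t) : E q) ∈ Vd Y := fun y => (Vd Y).neg_mem (P _).2
  have h9 : ∀ y ∈ W, cp (φ (-(P (S.a y - t) : E q)) (V.π y)) = t + Q (S.a y - t) := fun y hy => by
    rw [hφ.cp_eq _ (h8 y), V.cp_eq y (hW hy), hQ1]
    abel
  have h10 : ∀ y ∈ W, ‖-Q (S.a y - t)‖ < dl (φ (-(P (S.a y - t) : E q)) (V.π y)) := fun y hy => by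
    rw [norm_neg]
    exact ((h5 y hy).trans_le (min_le_left _ _)).trans_le
      (h2 _ (add_mem_ball ((h5 y hy).trans_le (min_le_right _ _))) _ (h9 y hy))
  have hca := S.cont_a
  have h11 : ContinuousOn (fun y => φ (-(P (S.a y - t) : E q)) (V.π y)) W :=
    hφ.comp_cont (by fun_prop) (V.cont.mono hW) fun y _ => h8 y
  have h12 : ContinuousOn
      (fun y => sh (φ (-(P (S.a y - t) : E q)) (V.π y)) (-Q (S.a y - t))) W := fun y hy =>
    ContinuousAt.comp_continuousWithinAt (g := fun p : Y × E q => sh p.1 p.2)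
      (f := fun y => (φ (-(P (S.a y - t) : E q)) (V.π y), -Q (S.a y - t)))
      (continuousAt_sh₂ (h10 y hy)) ((h11 y hy).prodMk (by fun_prop))
  have h13 := lift_unique hpre h12 (continuousOn_const (c := V.π x))
    (fun y hy => by rw [cp_sh (h10 y hy), h9 y hy, V.cp_eq x (hW hx), h3, add_neg_cancel_right])
    hx (by simp [h3, hφ.zero, sh_zero]) hx'
  simp only [h4, sub_self, map_zero, ZeroMemClass.coe_zero, neg_zero, hφ.zero, sh_zero] at h13
  obtain ⟨F, hF⟩ := V.val f hf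
  rw [hF x (hW hx), hF x' (hW hx'), h13]

end Env

/-- the dichotomy -/
theorem Sys.dich_of (hJ : JetsStmt) [LocallyConnectedSpace M] (S : Sys q M G) :
    S.Big ∨ ∃ V, S.Dir V := by
  obtain ⟨Y, _, _, _, _, _, ⟨V⟩⟩ := S.exists_env
  by_cases h : Vd Y = ⊥
  · exact Or.inl (V.big hJ h)
  · exact Or.inr ⟨_, V.dir h⟩

end Crest.Agent.X261.Fib
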