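import Crest.Agent.X261.Fib.Hor
import Crest.Agent.X261.Fib.Dich

/-!
# X261 / FIB Hor (helper84): `JetsStmt` and the unconditional dichotomy
-/

set_option autoImplicit false

namespace Crest.Agent.X261.Fib

theorem jetsStmt : JetsStmt := fun _ _ _ _ _ _ _ _ D _ hW hp _ _ hc hs => D.jets hW hp hc hs

theorem Sys.dich {q : ℕ} {M : Type} [TopologicalSpace M] {G : Type} [Group G] [MulAction G M]
    [LocallyConnectedSpace M] (S : Sys q M G) : S.Big ∨ ∃ V, S.Dir V :=
  Sys.dich_of jetsStmt S

end Crest.Agent.X261.Fib
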