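import Crest.Agent.X261.Fib.Defs
import Crest.Agent.R266.SCV
import Crest.Agent.R276.Lq_464

/-!
# X261 / FIB (helper16), file Cau: domains of existence are pseudoconvex

`psh_of_max` : if a family of holomorphic functions on a Riemann domain does not extend beyond
the boundary, then `psi = - log dl` is plurisubharmonic (Cartan–Thullen).
-/

set_option autoImplicit false
set_option linter.unusedSectionVars false

noncomputable section

open Set Metric Filter Topology MeasureTheory
open scoped Nat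

namespace Crest.Agent.X261.Fib

open Crest.Agent.R271.Ho51 Crest.Agent.R273.Reg_844 Crest.Agent.R281.Thn_280
open Crest.Agent.R266.SCV (analyticOnNhd_of_differentiableOn)

variable {q : ℕ}

/-- Taylor coefficient (times `k!`) along a line -/
def tc (g : E q → ℂ) (z u : E q) (k : ℕ) : ℂ := iteratedDeriv k (fun s : ℂ => g (z + s • u)) 0

theorem tc_congr {g g' : E q → ℂ} {z : E q} (h : g =ᶠ[𝓝 z] g') (u : E q) (k : ℕ) :
    tc g z u k = tc g' z u k := by
  refine Filter.EventuallyEq.iteratedDeriv_eq k ?_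
  have h1 : Tendsto (fun s : ℂ => z + s • u) (𝓝 0) (𝓝 z) := by
    simpa using (by fun_prop : Continuous fun s : ℂ => z + s • u).tendsto 0
  exact h1.eventually h

theorem tc_cauchy {g : E q → ℂ} {z u : E q} {W : Set (E q)} {ρ M : ℝ} (hρ : 0 < ρ)
    (hg : DifferentiableOn ℂ g W) (hW : closedBall z ρ ⊆ W)
    (hM : ∀ w ∈ closedBall z ρ, ‖g w‖ ≤ M) (hu : ‖u‖ ≤ 1) (k : ℕ) :
    ‖tc g z u k‖ ≤ k ! * M / ρ ^ k := by
  have h1 : ∀ s ∈ closedBall (0 : ℂ) ρ, z + s • u ∈ closedBall z ρ := fun s hs => by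
    rw [mem_closedBall, dist_eq_norm, add_sub_cancel_left, norm_smul]
    exact (mul_le_of_le_one_right (norm_nonneg _) hu).trans (by simpa using hs)
  refine Complex.norm_iteratedDeriv_le_of_forall_mem_sphere_norm_le k hρ ?_
    fun s hs => hM _ (h1 s (sphere_subset_closedBall hs))
  refine DifferentiableOn.diffContOnCl ?_
  rw [closure_ball _ hρ.ne']
  exact hg.comp (by fun_prop) fun s hs => hW (h1 s hs)

theorem tc_series {g : E q → ℂ} {z : E q} {p : FormalMultilinearSeries ℂ (E q) ℂ}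
    (hp : HasFPowerSeriesAt g p z) (u : E q) (k : ℕ) : tc g z u k = k ! * p k fun _ => u := by
  have h1 := hp.comp_sub (-z)
  rw [add_neg_cancel, ← map_zero ((ContinuousLinearMap.id ℂ ℂ).smulRight u)] at h1
  obtain ⟨r, h2⟩ := h1.compContinuousLinearMap
  have h3 := h2.factorial_smul (1 : ℂ) k
  rw [tc, iteratedDeriv_eq_iteratedFDeriv]
  have h4 : (fun s : ℂ => g (z + s • u)) =
      (fun w => g (w - -z)) ∘ ((ContinuousLinearMap.id ℂ ℂ).smulRight u) := by
    funext s
    simp [add_comm]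
  rw [h4, ← h3, FormalMultilinearSeries.compContinuousLinearMap_apply, nsmul_eq_mul]
  congr 2
  funext j
  simp

/-- extension by the series of homogeneous polynomials -/
theorem exists_ext {g : E q → ℂ} {z : E q} (hg : AnalyticAt ℂ g z) {ρ ρ' M : ℝ} (h0 : 0 < ρ')
    (hρ : ρ' < ρ) (hM : ∀ u, ‖u‖ ≤ 1 → ∀ k, ‖tc g z u k‖ ≤ k ! * M / ρ ^ k) :
    ∃ G : E q → ℂ, DifferentiableOn ℂ G (ball z ρ') ∧ G =ᶠ[𝓝 z] g := by
  obtain ⟨p, hp⟩ := hg
  have hρ0 : 0 < ρ := h0.trans hρ
  have h1 : ∀ k, ∀ w ∈ ball z ρ', ‖p k fun _ => w - z‖ ≤ M * (ρ' / ρ) ^ k := by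
    intro k w hw
    have h2 : ‖((ρ'⁻¹ : ℝ) : ℂ) • (w - z)‖ ≤ 1 := by
      rw [norm_smul, Complex.norm_real, Real.norm_of_nonneg (by positivity), inv_mul_le_iff₀ h0,
        mul_one, ← dist_eq_norm]
      exact le_of_lt hw
    have h3 := hM _ h2 k
    rw [tc_series hp, norm_mul, Complex.norm_natCast, mul_div_assoc,
      mul_le_mul_iff_right₀ (by positivity), (p k).map_smul_univ, norm_smul, Finset.prod_const,
      Finset.card_univ, Fintype.card_fin, norm_pow, Complex.norm_real,
      Real.norm_of_nonneg (by positivity), inv_pow, inv_mul_le_iff₀ (by positivity)] at h3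
    refine h3.trans (le_of_eq ?_)
    rw [div_pow]
    ring
  have h4 : Summable fun k : ℕ => M * (ρ' / ρ) ^ k :=
    (summable_geometric_of_lt_one (by positivity) ((div_lt_one hρ0).2 hρ)).mul_left M
  refine ⟨fun w => ∑' k, p k fun _ => w - z, ?_, ?_⟩
  · refine (Crest.Agent.R266.SCV.analyticOnNhd_of_tendstoLocallyUniformlyOn isOpen_ball
      (tendstoUniformlyOn_tsum_nat h4 h1).tendstoLocallyUniformlyOn
      (Eventually.of_forall fun N => ?_)).differentiableOn
    refine (Differentiable.fun_sum fun k _ => ?_).differentiableOn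
    exact ((p k).contDiff (n := 1)).differentiable_one.comp (by fun_prop)
  · filter_upwards [hp.eventually_hasSum_sub] with w hw
    exact hw.tsum_eq

/-- Jensen -/
theorem norm_le_exp_av {f : ℂ → ℂ} (hf : AnalyticOnNhd ℂ f (closedBall 0 1)) {ψ : ℂ → ℝ}
    (hψ : ContinuousOn ψ (sphere 0 1)) (h0 : ∀ ζ, 0 ≤ ψ ζ) {A : ℝ} (hA : 1 ≤ A) (k : ℕ)
    (h : ∀ ζ ∈ sphere (0 : ℂ) 1, ‖f ζ‖ ≤ A * Real.exp (k * ψ ζ)) :
    ‖f 0‖ ≤ A * Real.exp (k * Real.circleAverage ψ 0 1) := by
  by_cases hz : f 0 = 0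
  · rw [hz, norm_zero]; positivity
  have hi : CircleIntegrable ψ 0 1 := hψ.circleIntegrable zero_le_one
  have hi' : CircleIntegrable (fun ζ => (k : ℝ) • ψ ζ) 0 1 :=
    (hψ.const_smul (k : ℝ)).circleIntegrable zero_le_one
  have h1 := Crest.Agent.R276.Lq_464.log_le_circleAverage one_pos hf hz
  have h2 : Real.circleAverage (fun z => Real.log ‖f z‖) 0 1 ≤
      Real.circleAverage (fun ζ => Real.log A + (k : ℝ) • ψ ζ) 0 1 := by
    refine Real.circleAverage_mono
      (((hf.mono sphere_subset_closedBall).meromorphicOn).circleIntegrable_log_norm_of_nonneg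
        zero_le_one) ((circleIntegrable_const _ _ _).add hi') fun ζ hζ => ?_
    rw [abs_one] at hζ
    have h3 : 0 ≤ Real.log A + (k : ℝ) • ψ ζ :=
      add_nonneg (Real.log_nonneg hA) (mul_nonneg (Nat.cast_nonneg k) (h0 ζ))
    rcases (norm_nonneg (f ζ)).eq_or_lt with h4 | h4
    · rwa [← h4, Real.log_zero]
    · refine (Real.log_le_log h4 (h ζ hζ)).trans (le_of_eq ?_)
      rw [Real.log_mul (by positivity) (Real.exp_pos _).ne', Real.log_exp, smul_eq_mul]
  rw [Real.circleAverage_fun_add (circleIntegrable_const _ _ _) hi', Real.circleAverage_const,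
    Real.circleAverage_fun_smul, smul_eq_mul] at h2
  have h5 := Real.exp_le_exp.2 (h1.trans h2)
  rwa [Real.exp_log (norm_pos_iff.2 hz), Real.exp_add, Real.exp_log (by positivity)] at h5

variable {Y : Type} [TopologicalSpace Y] [RDom q Y] [T2Space Y]

theorem Hol.continuous {F : Y → ℂ} (hF : Hol F) : Continuous F := by
  rw [continuous_iff_continuousAt]
  intro x
  have h1 : ContinuousAt (F ∘ (ch x).symm) (cp x) :=
    ((hF _ (isCh_ch x)).differentiableAt ((ch x).open_target.mem_nhds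
      ((isCh_ch x).cp_mem (mem_ch x)))).continuousAt
  exact (ContinuousAt.comp (g := F ∘ (ch x).symm) h1 cp_cont.continuousAt).congr
    (eventually_eq_comp (isCh_ch x) (mem_ch x) F).symm

/-- Cartan–Thullen -/
theorem psh_of_max {ι : Type*} {F : ι → Y → ℂ} (hF : ∀ i, Hol (F i))
    (hmax : ∀ (y : Y) (r : ℝ), 0 < r → (∀ i, ∃ G : E q → ℂ, DifferentiableOn ℂ G (ball (cp y) r) ∧
      G =ᶠ[𝓝 (cp y)] F i ∘ (ch y).symm) → Adm r y) : PSH (psi : Y → ℝ) := by
  refine PSH.mk' continuous_psi.upperSemicontinuous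
    (fun _ => ⟨0, Eventually.of_forall psi_nonneg⟩) fun e he z v hd => ?_
  rw [Crest.Agent.R275.FL606.av_eq_circleAverage, psi_le_iff]
  set m := Real.circleAverage (fun w : ℂ => (psi ∘ e.symm) (z + w • v)) 0 1 with hm
  have hz : z ∈ e.target := by simpa using hd 0 (by simp)
  have hd' : ∀ ζ ∈ sphere (0 : ℂ) 1, z + ζ • v ∈ e.target := fun ζ hζ =>
    hd ζ (le_of_eq (by simpa using hζ))
  have hp : ContinuousOn (fun ζ : ℂ => e.symm (z + ζ • v)) (sphere 0 1) :=
    e.symm.continuousOn.comp (by fun_prop) hd'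
  have hm0 : 0 ≤ m := Real.circleAverage_nonneg_of_nonneg fun _ _ => psi_nonneg _
  refine le_of_forall_lt fun ρ' hρ' => ?_
  obtain ⟨ρ, h1, h2⟩ := exists_between (max_lt hρ' (Real.exp_pos (-m)))
  obtain ⟨ρ₁, h3, h4⟩ := exists_between h1
  have hρ₁ : 0 < ρ₁ := (le_max_right _ _).trans_lt h3
  have hρ : 0 < ρ := hρ₁.trans h4
  refine ((le_max_left _ _).trans_lt h3).trans_le (le_dl ?_ (hmax _ _ hρ₁ fun i => ?_))
  · linarith [Real.exp_le_one_iff.2 (neg_nonpos.2 hm0)]
  set t := ρ * Real.exp m with ht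
  have ht0 : 0 < t := by positivity
  have ht1 : t < 1 := by
    have := mul_lt_mul_of_pos_right h2 (Real.exp_pos m)
    rwa [← Real.exp_add, neg_add_cancel, Real.exp_zero] at this
  have hn : ∀ (y : Y) (w : E q), ‖w‖ ≤ 1 → ‖((t * dl y : ℝ) : ℂ) • w‖ < dl y := fun y w hw => by
    have := dl_pos y
    rw [norm_smul, Complex.norm_real, Real.norm_of_nonneg (by positivity)]
    exact (mul_le_of_le_one_right (by positivity) hw).trans_lt (mul_lt_of_lt_one_left this ht1)
  have hK : IsCompact ((fun p : ℂ × E q => sh (e.symm (z + p.1 • v))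
      (((t * dl (e.symm (z + p.1 • v)) : ℝ) : ℂ) • p.2)) '' (sphere 0 1 ×ˢ closedBall 0 1)) := by
    refine ((isCompact_sphere _ _).prod (isCompact_closedBall _ _)).image_of_continuousOn ?_
    have h5 : ContinuousOn (fun p : ℂ × E q => e.symm (z + p.1 • v))
        (sphere 0 1 ×ˢ closedBall 0 1) := hp.comp continuousOn_fst fun p h => h.1
    have h6 : ContinuousOn (fun p : ℂ × E q => ((t * dl (e.symm (z + p.1 • v)) : ℝ) : ℂ) • p.2)
        (sphere 0 1 ×ˢ closedBall 0 1) :=
      (Complex.continuous_ofReal.comp_continuousOn (continuousOn_const.mul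
        (continuous_dl.comp_continuousOn h5))).smul continuousOn_snd
    intro p h
    exact ContinuousAt.comp_continuousWithinAt (g := fun p : Y × E q => sh p.1 p.2)
      (f := fun p : ℂ × E q => (e.symm (z + p.1 • v),
        ((t * dl (e.symm (z + p.1 • v)) : ℝ) : ℂ) • p.2))
      (continuousAt_sh₂ (hn _ p.2 (by simpa using h.2))) ((h5 p h).prodMk (h6 p h))
  obtain ⟨M0, hM0⟩ := hK.exists_bound_of_continuousOn (Hol.continuous (hF i)).continuousOn
  have hg : AnalyticOnNhd ℂ (F i ∘ e.symm) e.target :=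
    analyticOnNhd_of_differentiableOn e.open_target (hF i e he)
  have key : ∀ u : E q, ‖u‖ ≤ 1 → ∀ k, ‖tc (F i ∘ e.symm) z u k‖ ≤ k ! * max M0 1 / ρ ^ k := by
    intro u hu k
    have h7 : ∀ w ∈ e.target, tc (F i ∘ e.symm) w u k = (dd u)^[k] (F i ∘ e.symm) w := fun w hw => by
      have := iteratedDeriv_line e.open_target hg w u k 0 (by simpa using hw)
      rwa [zero_smul, add_zero] at this
    have h8 : 1 ≤ k ! * max M0 1 / t ^ k := by
      rw [one_le_div (by positivity)]
      exact (pow_le_one₀ ht0.le ht1.le).trans (one_le_mul_of_one_le_of_one_le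
        (by exact_mod_cast k.factorial_pos) (le_max_right _ _))
    have h9 := norm_le_exp_av (f := fun ζ : ℂ => (dd u)^[k] (F i ∘ e.symm) (z + ζ • v))
      (fun ζ hζ => AnalyticAt.comp (g := (dd u)^[k] (F i ∘ e.symm))
        (analyticOnNhd_dd_iter hg u k _ (hd ζ (by simpa using hζ))) (by fun_prop))
      (ψ := fun w : ℂ => (psi ∘ e.symm) (z + w • v)) (continuous_psi.comp_continuousOn hp)
      (fun _ => psi_nonneg _) h8 k fun ζ hζ => by
        set y := e.symm (z + ζ • v) with hy
        have hc : cp y = z + ζ • v := he.cp_symm (hd' ζ hζ)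
        have hd0 := dl_pos y
        rw [← h7 _ (hd' ζ hζ), ← hc,
          tc_congr (comp_germ he (isCh_bch y) (e.map_target (hd' ζ hζ)) (mem_bch y) (F i))]
        refine (tc_cauchy (ρ := t * dl y) (M := max M0 1) (by positivity) (hF i _ (isCh_bch y))
          ((closedBall_subset_ball (mul_lt_of_lt_one_left hd0 ht1)).trans (ball_bch y))
          (fun w hw => ?_) hu k).trans (le_of_eq ?_)
        · refine le_trans (le_of_eq ?_) ((hM0 _ ⟨(ζ, (((t * dl y)⁻¹ : ℝ) : ℂ) • (w - cp y)),
            ⟨hζ, ?_⟩, rfl⟩).trans (le_max_left _ _))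
          · simp only [← hy, sh, smul_smul, ← Complex.ofReal_mul,
              mul_inv_cancel₀ (mul_pos ht0 hd0).ne', Complex.ofReal_one, one_smul, add_sub_cancel,
              Function.comp_apply]
          · rw [mem_closedBall_zero_iff, norm_smul, Complex.norm_real,
              Real.norm_of_nonneg (by positivity), inv_mul_le_iff₀ (by positivity), mul_one,
              ← dist_eq_norm]
            exact hw
        · rw [Function.comp_apply, hc, ← hy, ← exp_neg_psi y, mul_pow, ← Real.exp_nat_mul,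
            mul_neg, Real.exp_neg]
          field_simp
    simp only [zero_smul, add_zero] at h9
    rw [h7 z hz]
    refine h9.trans (le_of_eq ?_)
    rw [← hm, ht, mul_pow, ← Real.exp_nat_mul]
    field_simp
  obtain ⟨G, hG, hG'⟩ := exists_ext (hg z hz) hρ₁ h4 key
  have hc : cp (e.symm z) = z := he.cp_symm hz
  refine ⟨G, by rwa [hc], ?_⟩
  refine EventuallyEq.trans (by rwa [hc]) (comp_germ he (isCh_ch _) (e.map_target hz) (mem_ch _) _)

end Crest.Agent.X261.Fib
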