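import Crest.Agent.X261.Fib.RD
import Crest.Agent.R271.H3_51
import Crest.Agent.R281.Thn5_280

/-!
# X261 / FIB (helper16), definitions

* `Vd Y` : directions along which the boundary distance is invariant;
* `Tr f` : lifts of translations preserving `dl`; `Inv Φ` : invariant under all of them;
* `Wt Ψ` : admissible weight (smooth, psh, invariant, logarithmic growth);
* `PD`   : periodic pseudoconvex Riemann domain;
* `Sys`  : the topological data upstairs; `Sys.HF` : functions which are locally `F ∘ a`.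
-/

set_option autoImplicit false
set_option linter.unusedSectionVars false

noncomputable section

open Set Metric Filter Topology

namespace Crest.Agent.X261.Fib

open Crest.Agent.R271.Ho51 Crest.Agent.R273.Reg_844 Crest.Agent.R281.Thn_280

section RD

variable {q : ℕ} {Y : Type} [TopologicalSpace Y] [RDom q Y] [T2Space Y]

theorem eventually_norm_smul_lt (v : E q) {r : ℝ} (hr : 0 < r) :
    ∀ᶠ ζ : ℂ in 𝓝 0, ‖ζ • v‖ < r := by
  have h : Tendsto (fun ζ : ℂ => ‖ζ • v‖) (𝓝 0) (𝓝 ‖(0 : ℂ) • v‖) :=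
    (by fun_prop : Continuous fun ζ : ℂ => ‖ζ • v‖).tendsto 0
  rw [zero_smul, norm_zero] at h
  exact h.eventually (gt_mem_nhds hr)

theorem dl_sh_of_loc {v : E q} (hv : ∀ y : Y, ∀ᶠ ζ : ℂ in 𝓝 0, dl (sh y (ζ • v)) = dl y)
    (y : Y) (ζ : ℂ) (hζ : ‖ζ • v‖ < dl y) : dl (sh y (ζ • v)) = dl y := by
  have hI : ∀ t ∈ Icc (0 : ℝ) 1, ‖((t : ℂ) * ζ) • v‖ < dl y := by
    intro t ht
    rw [mul_smul, norm_smul, Complex.norm_real, Real.norm_of_nonneg ht.1]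
    exact (mul_le_of_le_one_left (norm_nonneg _) ht.2).trans_lt hζ
  have h1 := const_of_loc (isPreconnected_Icc (a := (0 : ℝ)) (b := 1))
    (f := fun t : ℝ => dl (sh y (((t : ℂ) * ζ) • v))) (fun t ht => by
      have h2 : Tendsto (fun s : ℝ => ((s : ℂ) - t) * ζ) (𝓝 t) (𝓝 0) := by
        simpa using (by fun_prop : Continuous fun s : ℝ => ((s : ℂ) - t) * ζ).tendsto t
      apply nhdsWithin_le_nhds
      filter_upwards [h2.eventually (hv (sh y (((t : ℂ) * ζ) • v))),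
        h2.eventually (eventually_norm_smul_lt v (sub_pos.2 (hI t ht)))] with s h3 h4
      rw [← h3, sh_sh (by linarith), ← add_smul]
      congr 3
      ring) ⟨zero_le_one, le_rfl⟩ ⟨le_rfl, zero_le_one⟩
  simpa [sh_zero] using h1

variable (Y) in
/-- directions along which the boundary distance is invariant -/
def Vd : Submodule ℂ (E q) where
  carrier := {v | ∀ y : Y, ∀ᶠ ζ : ℂ in 𝓝 0, dl (sh y (ζ • v)) = dl y}
  zero_mem' := fun y => Eventually.of_forall fun ζ => by rw [smul_zero, sh_zero]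
  smul_mem' := fun c v hv y => by
    have h : Tendsto (fun ζ : ℂ => ζ * c) (𝓝 0) (𝓝 0) := by
      simpa using (by fun_prop : Continuous fun ζ : ℂ => ζ * c).tendsto 0
    filter_upwards [h.eventually (hv y)] with ζ hζ
    rwa [smul_smul]
  add_mem' := by
    intro v w hv hw y
    have h0 := dl_pos y
    filter_upwards [eventually_norm_smul_lt v (half_pos h0), eventually_norm_smul_lt w (half_pos h0)]
      with ζ h1 h2
    have h3 := dl_sh_of_loc hv y ζ (by linarith)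
    rw [smul_add, ← sh_sh (by linarith), dl_sh_of_loc hw _ ζ (by rw [h3]; linarith), h3]

theorem mem_Vd {v : E q} :
    v ∈ Vd Y ↔ ∀ y : Y, ∀ᶠ ζ : ℂ in 𝓝 0, dl (sh y (ζ • v)) = dl y := Iff.rfl

theorem dl_sh_of_mem {v : E q} (hv : v ∈ Vd Y) {y : Y} (h : ‖v‖ < dl y) : dl (sh y v) = dl y := by
  simpa using dl_sh_of_loc hv y 1 (by simpa using h)

/-- lift of a translation which preserves `dl` -/
structure Tr (f : Y → Y) : Prop where
  cont : Continuous f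
  eqv : ∃ c : E q, ∀ y, cp (f y) = cp y + c
  dl_eq : ∀ y, dl (f y) = dl y

/-- invariant under all lifts of translations -/
def Inv {α : Type*} (Φ : Y → α) : Prop := ∀ f : Y → Y, Tr f → ∀ y, Φ (f y) = Φ y

/-- admissible weight -/
structure Wt (Ψ : Y → ℝ) : Prop where
  sm : Sm Ψ
  inv : Inv Ψ
  lev : ∀ y w, 0 ≤ Levi Ψ y w
  nonneg : ∀ y, 0 ≤ Ψ y
  le : ∃ K C : ℝ, ∀ y, Ψ y ≤ K * psi y + C

/-- a global flow along the directions of `Vd Y` -/
structure Flow (φ : E q → Y → Y) : Prop where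
  cont : ∀ v ∈ Vd Y, Continuous (φ v)
  cp_eq : ∀ v ∈ Vd Y, ∀ y, cp (φ v y) = cp y + v
  small : ∀ v ∈ Vd Y, ∀ y, ‖v‖ < dl y → φ v y = sh y v
  add : ∀ v ∈ Vd Y, ∀ w ∈ Vd Y, ∀ y, φ (v + w) y = φ v (φ w y)
  dl_eq : ∀ v ∈ Vd Y, ∀ y, dl (φ v y) = dl y

/-- periodic pseudoconvex Riemann domain -/
structure PD (q : ℕ) (Y : Type) [TopologicalSpace Y] [RDom q Y] [T2Space Y]
    (G : Type) [Group G] [MulAction G Y] where
  lam : G → E q
  lam_mul : ∀ g h, lam (g * h) = lam g + lam h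
  cont : ∀ g : G, Continuous fun y : Y => g • y
  eqv : ∀ (g : G) (y : Y), cp (g • y) = cp y + lam g
  psh : PSH (psi : Y → ℝ)
  disc : ∃ c : ℝ, 0 < c ∧ ∀ g, lam g ≠ 0 → c ≤ ‖lam g‖
  coc : ∃ R : ℝ, ∀ t : E q, ∃ g, ‖t - lam g‖ ≤ R
  D0 : Set (E q)
  closed : IsClosed D0
  sth : STh D0
  fin : ∀ t ∉ D0, ∃ S : Set Y, S.Finite ∧ ∀ y, cp y = t → ∃ g, lam g = 0 ∧ g • y ∈ S
  low : ∀ t ∉ D0, ∃ c : ℝ, 0 < c ∧ ∀ᶠ s in 𝓝 t, ∀ y : Y, cp y = s → c ≤ dl y

theorem PD.tr {G : Type} [Group G] [MulAction G Y] (D : PD q Y G) (g : G) :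
    Tr fun y : Y => g • y := by
  refine ⟨D.cont g, ⟨_, D.eqv g⟩, fun y => le_antisymm ?_ (dl_le_map (D.cont g) (D.eqv g) y)⟩
  simpa using dl_le_map (D.cont g⁻¹) (D.eqv g⁻¹) (g • y)

/-- holomorphic functions with polynomial growth at the boundary and free `1`-jet at `y0` -/
structure Jets (y0 : Y) (H : Option (Fin q) → Y → ℂ) : Prop where
  hol : ∀ j, Hol (H j)
  le : ∃ (N : ℕ) (C : ℝ), ∀ j y, ‖H j y‖ * dl y ^ N ≤ C
  one : H none y0 = 1
  zero : ∀ j, H (some j) y0 = 0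
  der : ∀ j w, D (H (some j)) y0 w = w j

end RD

/-- the data upstairs -/
structure Sys (q : ℕ) (M : Type) [TopologicalSpace M] (G : Type) [Group G] [MulAction G M] where
  a : M → E q
  cont_a : Continuous a
  cont : ∀ g : G, Continuous fun x : M => g • x
  L : G → E q ≃L[ℂ] E q
  lam : G → E q
  eqv : ∀ (g : G) (x : M), a (g • x) = L g (a x) + lam g
  H : Subgroup G
  LH : ∀ g ∈ H, ∀ v, L g v = v
  U : Set M
  op : IsOpen U
  inv : ∀ (g : G), ∀ x ∈ U, g • x ∈ U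
  pre : IsPreconnected U
  ne : U.Nonempty
  rho : M → ℝ
  sec : ∀ x ∈ U, 0 < rho x ∧ ∃ σ : E q → M, ContinuousOn σ (ball (a x) (rho x)) ∧ σ (a x) = x ∧
    ∀ t ∈ ball (a x) (rho x), σ t ∈ U ∧ a (σ t) = t
  D0 : Set (E q)
  closed : IsClosed D0
  sth : STh D0
  reg : ∀ x, a x ∉ D0 → x ∈ U
  disc : ∃ c : ℝ, 0 < c ∧ ∀ g ∈ H, lam g ≠ 0 → c ≤ ‖lam g‖
  coc : ∃ R : ℝ, ∀ t : E q, ∃ g ∈ H, ‖t - lam g‖ ≤ R
  prop : ∀ K : Set (E q), IsCompact K → ∃ C : Set M, IsCompact C ∧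
    ∀ x, a x ∈ K → ∃ g ∈ H, lam g = 0 ∧ g • x ∈ C

namespace Sys

variable {q : ℕ} {M : Type} [TopologicalSpace M] {G : Type} [Group G] [MulAction G M]
  (S : Sys q M G)

/-- `h = F ∘ a` near `x`, `F` analytic -/
def Fac (h : M → ℂ) (x : M) (F : E q → ℂ) : Prop :=
  AnalyticAt ℂ F (S.a x) ∧ ∀ᶠ y in 𝓝 x, h y = F (S.a y)

/-- functions on `U` which are locally holomorphic functions of `a` -/
def HF (h : M → ℂ) : Prop := ∀ x ∈ S.U, ∃ F, S.Fac h x F

/-- first alternative: invariant functions with polynomial growth and free `1`-jet -/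
def Big : Prop :=
  ∀ x0 ∈ S.U, ∃ (h : Option (Fin q) → M → ℂ) (F : Option (Fin q) → E q → ℂ) (N : ℕ) (C : ℝ),
    (∀ j, S.HF (h j)) ∧ (∀ j, ∀ g ∈ S.H, ∀ x ∈ S.U, h j (g • x) = h j x) ∧
    (∀ j, ∀ x ∈ S.U, ‖h j x‖ * min (S.rho x) 1 ^ N ≤ C) ∧ (∀ j, S.Fac (h j) x0 (F j)) ∧
    F none (S.a x0) = 1 ∧ (∀ j, F (some j) (S.a x0) = 0) ∧
    ∀ j w, fderiv ℂ (F (some j)) (S.a x0) w = w j

/-- second alternative: an invariant rational subspace of complete directions -/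
structure Dir (V : Submodule ℂ (E q)) : Prop where
  ne : V ≠ ⊥
  inv : ∀ g, ∀ v ∈ V, S.L g v ∈ V
  rat : ∃ c : ℝ, 0 < c ∧ ∀ g ∈ S.H, ∀ v ∈ V, ‖S.lam g - v‖ < c → S.lam g ∈ V
  inj : ∀ t ∉ S.D0, ∃ r : ℝ, 0 < r ∧ ∀ W : Set M, W ⊆ S.U → IsPreconnected W →
    (∀ x ∈ W, ∃ v ∈ V, ‖S.a x - t - v‖ < r) → ∀ x ∈ W, ∀ x' ∈ W, S.a x = t → S.a x' = t →
      ∀ h, S.HF h → h x = h x'

end Sys

end Crest.Agent.X261.Fib
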