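import Crest.Agent.X261.Fib.Cau

/-!
# X261 / FIB (helper16), file Et: the étale space of families of holomorphic germs

`Et q ι` is a Hausdorff Riemann domain with `psi` plurisubharmonic; `Cmp y0` is a connected
component of a Riemann domain.
-/

set_option autoImplicit false
set_option linter.unusedSectionVars false

noncomputable section

open Set Metric Filter Topology

namespace Crest.Agent.X261.Fib

open Crest.Agent.R271.Ho51 Crest.Agent.R273.Reg_844
open Crest.Agent.R266.SCV (analyticOnNhd_of_differentiableOn)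

variable {q : ℕ} {ι : Type}

/-- a family of holomorphic functions on `W` -/
def HolF (H : ι → E q → ℂ) (W : Set (E q)) : Prop := ∀ i, DifferentiableOn ℂ (H i) W

theorem HolF.mono {H : ι → E q → ℂ} {W W' : Set (E q)} (h : HolF H W) (h' : W' ⊆ W) : HolF H W' :=
  fun i => (h i).mono h'

/-- the family of germs at `z` -/
def gm (H : ι → E q → ℂ) (z : E q) : ι → Germ (𝓝 (0 : E q)) ℂ :=
  fun i => ((fun w => H i (z + w) : E q → ℂ) : Germ (𝓝 (0 : E q)) ℂ)

theorem gm_eq_iff {H H' : ι → E q → ℂ} {z : E q} :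
    gm H z = gm H' z ↔ ∀ i, H i =ᶠ[𝓝 z] H' i := by
  rw [funext_iff]
  refine forall_congr' fun i => ?_
  rw [gm, gm, Germ.coe_eq]
  constructor
  · intro h
    have h1 : Tendsto (fun w : E q => w - z) (𝓝 z) (𝓝 0) := by
      simpa using (by fun_prop : Continuous fun w : E q => w - z).tendsto z
    filter_upwards [h1.eventually h] with w hw
    simpa using hw
  · intro h
    have h1 : Tendsto (fun w : E q => z + w) (𝓝 0) (𝓝 z) := by
      simpa using (by fun_prop : Continuous fun w : E q => z + w).tendsto 0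
    exact h1.eventually h

/-- the étale space of `ι`-indexed families of germs -/
@[ext] structure Et (q : ℕ) (ι : Type) where
  z : E q
  γ : ι → Germ (𝓝 (0 : E q)) ℂ
  ex : ∃ (H : ι → E q → ℂ) (r : ℝ), 0 < r ∧ HolF H (ball z r) ∧ γ = gm H z

namespace Et

open Classical in
/-- the section defined by a family -/
def sec (H : ι → E q → ℂ) (z : E q) : Et q ι :=
  if h : ∃ r : ℝ, 0 < r ∧ HolF H (ball z r) then ⟨z, gm H z, H, h.imp fun _ h => ⟨h.1, h.2, rfl⟩⟩
  else ⟨z, gm 0 z, 0, 1, one_pos, fun _ => differentiableOn_const _, rfl⟩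

theorem sec_z (H : ι → E q → ℂ) (z : E q) : (sec H z).z = z := by
  unfold sec
  split_ifs <;> rfl

theorem sec_γ {H : ι → E q → ℂ} {W : Set (E q)} (hH : HolF H W) {z : E q} (hz : W ∈ 𝓝 z) :
    (sec H z).γ = gm H z := by
  obtain ⟨r, hr, hb⟩ := Metric.mem_nhds_iff.1 hz
  unfold sec
  rw [dif_pos ⟨r, hr, hH.mono hb⟩]

theorem exists_sec (p : Et q ι) :
    ∃ (H : ι → E q → ℂ) (r : ℝ), 0 < r ∧ HolF H (ball p.z r) ∧ sec H p.z = p := by
  obtain ⟨H, r, hr, hH, h⟩ := p.ex
  exact ⟨H, r, hr, hH, Et.ext (sec_z _ _) ((sec_γ hH (ball_mem_nhds _ hr)).trans h.symm)⟩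

theorem sec_eq_iff {H H' : ι → E q → ℂ} {W W' : Set (E q)} (hH : HolF H W) (hH' : HolF H' W')
    {z : E q} (hz : W ∈ 𝓝 z) (hz' : W' ∈ 𝓝 z) : sec H z = sec H' z ↔ ∀ i, H i =ᶠ[𝓝 z] H' i := by
  rw [← gm_eq_iff, Et.ext_iff, sec_z, sec_z, sec_γ hH hz, sec_γ hH' hz']
  simp

theorem sec_eqOn {H H' : ι → E q → ℂ} {W : Set (E q)} (hW : IsOpen W) (hc : IsPreconnected W)
    (hH : HolF H W) (hH' : HolF H' W) {z : E q} (hz : z ∈ W) (h : sec H z = sec H' z) :
    EqOn (sec H) (sec H') W := by
  intro w hw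
  rw [sec_eq_iff hH hH' (hW.mem_nhds hw) (hW.mem_nhds hw)]
  rw [sec_eq_iff hH hH' (hW.mem_nhds hz) (hW.mem_nhds hz)] at h
  intro i
  exact ((analyticOnNhd_of_differentiableOn hW (hH i)).eqOn_of_preconnected_of_eventuallyEq
    (analyticOnNhd_of_differentiableOn hW (hH' i)) hc hz (h i)).eventuallyEq_of_mem
    (hW.mem_nhds hw)

instance : TopologicalSpace (Et q ι) where
  IsOpen O := ∀ (H : ι → E q → ℂ) (W : Set (E q)), IsOpen W → HolF H W → IsOpen (W ∩ sec H ⁻¹' O)
  isOpen_univ := fun H W hW _ => by simpa using hW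
  isOpen_inter := fun s t hs ht H W hW hH => by
    rw [preimage_inter, inter_inter_distrib_left]
    exact (hs H W hW hH).inter (ht H W hW hH)
  isOpen_sUnion := fun S hS H W hW hH => by
    rw [preimage_sUnion, inter_iUnion₂]
    exact isOpen_biUnion fun s hs => hS s hs H W hW hH

theorem isOpen_iff {O : Set (Et q ι)} : IsOpen O ↔
    ∀ (H : ι → E q → ℂ) (W : Set (E q)), IsOpen W → HolF H W → IsOpen (W ∩ sec H ⁻¹' O) :=
  Iff.rfl

theorem continuousOn_sec {H : ι → E q → ℂ} {W : Set (E q)} (hW : IsOpen W) (hH : HolF H W) :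
    ContinuousOn (sec H) W :=
  (continuousOn_open_iff hW).2 fun _ hO => hO H W hW hH

theorem continuous_z : Continuous (Et.z : Et q ι → E q) := by
  refine continuous_def.2 fun O hO H W hW _ => ?_
  have : sec H ⁻¹' (Et.z ⁻¹' O) = O := by ext w; simp [sec_z]
  rw [this]
  exact hW.inter hO

theorem isOpen_sheet {H : ι → E q → ℂ} {W : Set (E q)} (hW : IsOpen W) (hH : HolF H W) :
    IsOpen (sec H '' W) := by
  intro H' W' hW' hH'
  rw [Metric.isOpen_iff]
  rintro z ⟨hz', w, hw, h⟩
  have h1 : w = z := by simpa [sec_z] using congrArg Et.z h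
  subst h1
  obtain ⟨r, hr, hb⟩ := Metric.isOpen_iff.1 (hW.inter hW') w ⟨hw, hz'⟩
  refine ⟨r, hr, fun u hu => ⟨(hb hu).2, u, (hb hu).1, ?_⟩⟩
  exact sec_eqOn isOpen_ball (convex_ball _ _).isPreconnected
    (hH.mono (hb.trans inter_subset_left)) (hH'.mono (hb.trans inter_subset_right))
    (mem_ball_self hr) h hu

instance : RDom q (Et q ι) where
  p := Et.z
  hp := fun p => by
    obtain ⟨H, r, hr, hH, h⟩ := exists_sec p
    exact ⟨{ toFun := Et.z
             invFun := sec H
             source := sec H '' ball p.z r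
             target := ball p.z r
             map_source' := by rintro _ ⟨z, hz, rfl⟩; rwa [sec_z]
             map_target' := fun z hz => ⟨z, hz, rfl⟩
             left_inv' := by rintro _ ⟨z, -, rfl⟩; rw [sec_z]
             right_inv' := fun z _ => sec_z H z
             open_source := isOpen_sheet isOpen_ball hH
             open_target := isOpen_ball
             continuousOn_toFun := continuous_z.continuousOn
             continuousOn_invFun := continuousOn_sec isOpen_ball hH },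
      ⟨p.z, mem_ball_self hr, h⟩, rfl⟩

theorem cp_eq (p : Et q ι) : cp p = p.z := rfl

theorem cp_sec (H : ι → E q → ℂ) (z : E q) : cp (sec H z) = z := sec_z H z

instance : T2Space (Et q ι) := by
  refine ⟨fun p p' hne => ?_⟩
  by_cases hz : p.z = p'.z
  · obtain ⟨H, r, hr, hH, h⟩ := exists_sec p
    obtain ⟨H', r', hr', hH', h'⟩ := exists_sec p'
    rw [← hz] at hH' h'
    have h0 : 0 < min r r' := lt_min hr hr'
    have h1 := hH.mono (ball_subset_ball (min_le_left r r'))
    have h2 := hH'.mono (ball_subset_ball (min_le_right r r'))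
    refine ⟨_, _, isOpen_sheet isOpen_ball h1, isOpen_sheet isOpen_ball h2,
      ⟨_, mem_ball_self h0, h⟩, ⟨_, mem_ball_self h0, h'⟩, disjoint_left.2 ?_⟩
    rintro _ ⟨w, hw, rfl⟩ ⟨w', -, h3⟩
    have h4 : w' = w := by simpa [sec_z] using congrArg Et.z h3
    subst h4
    exact hne (h.symm.trans ((sec_eqOn isOpen_ball (convex_ball _ _).isPreconnected h1 h2 hw
      h3.symm (mem_ball_self h0)).trans h'))
  · exact separated_by_continuous continuous_z hz

/-- the value of the `i`-th germ -/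
def val (i : ι) (p : Et q ι) : ℂ := (p.γ i).value

theorem val_sec {H : ι → E q → ℂ} {W : Set (E q)} (hH : HolF H W) {z : E q} (hz : W ∈ 𝓝 z)
    (i : ι) : val i (sec H z) = H i z := by
  rw [val, sec_γ hH hz, gm]
  change H i (z + 0) = _
  rw [add_zero]

theorem val_germ {H : ι → E q → ℂ} {W : Set (E q)} (hW : IsOpen W) (hH : HolF H W) {z : E q}
    (hz : z ∈ W) {e : OpenPartialHomeomorph (Et q ι) (E q)} (he : IsCh e)
    (h : sec H z ∈ e.source) (i : ι) : val i ∘ e.symm =ᶠ[𝓝 z] H i := by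
  filter_upwards [section_nhds ((continuousOn_sec hW hH).continuousAt (hW.mem_nhds hz))
    (Eventually.of_forall (cp_sec H)) he h, hW.mem_nhds hz] with w h1 h2
  rw [Function.comp_apply, ← h1, val_sec hH (hW.mem_nhds h2)]

theorem hol_val (i : ι) : Hol (val i : Et q ι → ℂ) := by
  intro e he z hz
  obtain ⟨H, r, hr, hH, h⟩ := exists_sec (e.symm z)
  rw [← cp_eq, he.cp_symm hz] at hH h
  exact (((hH i).differentiableAt (ball_mem_nhds _ hr)).congr_of_eventuallyEq
    (val_germ isOpen_ball hH (mem_ball_self hr) he (h ▸ e.map_target hz) i)).differentiableWithinAt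

theorem adm_sec {H : ι → E q → ℂ} {z : E q} {r : ℝ} (hr : 0 < r) (hH : HolF H (ball z r)) :
    Adm r (sec H z) :=
  adm_of_section hr (continuousOn_sec isOpen_ball hH) fun w _ => cp_sec H w

theorem psh : PSH (psi : Et q ι → ℝ) := by
  refine psh_of_max hol_val fun p r hr h => ?_
  choose G hG hG' using h
  obtain ⟨H, s, hs, hH, h1⟩ := exists_sec p
  have h2 : sec G (cp p) = p := by
    refine Eq.trans ?_ h1
    rw [cp_eq] at hG hG' ⊢
    rw [sec_eq_iff hG hH (ball_mem_nhds _ hr) (ball_mem_nhds _ hs)]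
    exact fun i => (hG' i).trans (val_germ isOpen_ball hH (mem_ball_self hs) (isCh_ch p)
      (by rw [h1]; exact mem_ch p) i)
  rw [← h2]
  exact adm_sec hr hG

/-! ### affine maps -/

/-- transport of a family along `z ↦ L z + c` and a map of indices -/
def trf (L : E q ≃L[ℂ] E q) (c : E q) (τ : ι → ι) (H : ι → E q → ℂ) : ι → E q → ℂ :=
  fun i w => H (τ i) (L.symm (w - c))

theorem holF_trf (L : E q ≃L[ℂ] E q) (c : E q) (τ : ι → ι) {H : ι → E q → ℂ} {W : Set (E q)}
    (hH : HolF H W) : HolF (trf L c τ H) ((fun w => L.symm (w - c)) ⁻¹' W) :=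
  fun i => (hH (τ i)).comp (by fun_prop) fun _ h => h

theorem nhds_trf (L : E q ≃L[ℂ] E q) (c : E q) {W : Set (E q)} {z : E q} (hz : W ∈ 𝓝 z) :
    (fun w => L.symm (w - c)) ⁻¹' W ∈ 𝓝 (L z + c) :=
  (by fun_prop : Continuous fun w => L.symm (w - c)).continuousAt.preimage_mem_nhds
    (by simpa using hz)

/-- the induced map on the étale space -/
def map (L : E q ≃L[ℂ] E q) (c : E q) (τ : ι → ι) (p : Et q ι) : Et q ι :=
  sec (trf L c τ (exists_sec p).choose) (L p.z + c)

theorem cp_map (L : E q ≃L[ℂ] E q) (c : E q) (τ : ι → ι) (p : Et q ι) :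
    cp (map L c τ p) = L (cp p) + c := cp_sec _ _

theorem map_sec (L : E q ≃L[ℂ] E q) (c : E q) (τ : ι → ι) {H : ι → E q → ℂ} {W : Set (E q)}
    (hH : HolF H W) {z : E q} (hz : W ∈ 𝓝 z) :
    map L c τ (sec H z) = sec (trf L c τ H) (L z + c) := by
  obtain ⟨r, hr, h1, h2⟩ := (exists_sec (sec H z)).choose_spec
  unfold map
  generalize (exists_sec (sec H z)).choose = H' at h1 h2
  rw [sec_z] at h1 h2 ⊢
  rw [sec_eq_iff h1 hH (ball_mem_nhds _ hr) hz] at h2
  rw [sec_eq_iff (holF_trf L c τ h1) (holF_trf L c τ hH) (nhds_trf L c (ball_mem_nhds _ hr))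
    (nhds_trf L c hz)]
  intro i
  have h3 : Tendsto (fun w => L.symm (w - c)) (𝓝 (L z + c)) (𝓝 z) := by
    simpa using (by fun_prop : Continuous fun w => L.symm (w - c)).tendsto (L z + c)
  exact h3.eventually (h2 (τ i))

theorem continuous_map (L : E q ≃L[ℂ] E q) (c : E q) (τ : ι → ι) :
    Continuous (map L c τ : Et q ι → Et q ι) := by
  refine continuous_def.2 fun O hO H W hW hH => ?_
  have h1 := (hO _ _ (hW.preimage (by fun_prop : Continuous fun w => L.symm (w - c)))
    (holF_trf L c τ hH)).preimage (by fun_prop : Continuous fun z => L z + c)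
  convert h1 using 1
  ext z
  simp only [mem_inter_iff, mem_preimage, add_sub_cancel_right,
    ContinuousLinearEquiv.symm_apply_apply]
  exact and_congr_right fun hz => by rw [map_sec L c τ hH (hW.mem_nhds hz)]

theorem val_map (L : E q ≃L[ℂ] E q) (c : E q) (τ : ι → ι) (p : Et q ι) (i : ι) :
    val i (map L c τ p) = val (τ i) p := by
  obtain ⟨H, r, hr, hH, h⟩ := exists_sec p
  conv_lhs => rw [← h]
  conv_rhs => rw [← h]
  rw [map_sec L c τ hH (ball_mem_nhds _ hr), val_sec (holF_trf L c τ hH)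
    (nhds_trf L c (ball_mem_nhds _ hr)), val_sec hH (ball_mem_nhds _ hr)]
  simp [trf]

theorem map_map (L L' L'' : E q ≃L[ℂ] E q) (c c' c'' : E q) (τ τ' τ'' : ι → ι)
    (h : ∀ z, L'' z + c'' = L (L' z + c') + c) (hτ : ∀ i, τ'' i = τ' (τ i)) (p : Et q ι) :
    map L'' c'' τ'' p = map L c τ (map L' c' τ' p) := by
  obtain ⟨H, r, hr, hH, h1⟩ := exists_sec p
  have h2 := ball_mem_nhds p.z hr
  rw [← h1, map_sec _ _ _ hH h2, map_sec _ _ _ hH h2,
    map_sec _ _ _ (holF_trf L' c' τ' hH) (nhds_trf L' c' h2), h]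
  congr 1
  funext i w
  simp only [trf, hτ]
  congr 1
  rw [ContinuousLinearEquiv.symm_apply_eq, sub_eq_iff_eq_add, h]
  simp

theorem map_id (L : E q ≃L[ℂ] E q) (c : E q) (τ : ι → ι) (h : ∀ z, L z + c = z)
    (hτ : ∀ i, τ i = i) (p : Et q ι) : map L c τ p = p := by
  obtain ⟨H, r, hr, hH, h1⟩ := exists_sec p
  conv_lhs => rw [← h1]
  rw [map_sec _ _ _ hH (ball_mem_nhds _ hr), h]
  refine Eq.trans ?_ h1
  congr 1
  funext i w
  simp only [trf, hτ]
  congr 1
  rw [ContinuousLinearEquiv.symm_apply_eq, sub_eq_iff_eq_add, h]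

end Et

/-! ### connected components -/

section Cmp

variable {Y : Type} [TopologicalSpace Y] [RDom q Y] [T2Space Y]

theorem preconn_sh (y : Y) {r : ℝ} (hr : r ≤ dl y) : IsPreconnected (sh y '' ball 0 r) :=
  (convex_ball _ _).isPreconnected.image _ ((continuousOn_sh y).mono (ball_subset_ball hr))

theorem sh_image_nhds (y : Y) {r : ℝ} (hr : 0 < r) : sh y '' ball 0 r ∈ 𝓝 y := by
  filter_upwards [eventually_eq_sh y, eventually_norm_lt y hr] with x h1 h2
  exact ⟨_, by simpa using h2, h1.symm⟩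

theorem isOpen_cmp (q : ℕ) {Y : Type} [TopologicalSpace Y] [RDom q Y] [T2Space Y] (y0 : Y) :
    IsOpen (connectedComponent y0) := by
  rw [isOpen_iff_mem_nhds]
  intro y hy
  refine mem_of_superset (sh_image_nhds y (dl_pos y)) ?_
  rw [connectedComponent_eq hy]
  exact (preconn_sh y le_rfl).subset_connectedComponent
    ⟨0, mem_ball_self (dl_pos y), sh_zero y⟩

/-- a connected component -/
def Cmp (y0 : Y) : Type := {y : Y // y ∈ connectedComponent y0}

variable {y0 : Y}

instance : TopologicalSpace (Cmp y0) := instTopologicalSpaceSubtype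

instance : T2Space (Cmp y0) := inferInstanceAs (T2Space {y : Y // y ∈ connectedComponent y0})

instance : PreconnectedSpace (Cmp y0) :=
  Subtype.preconnectedSpace isPreconnected_connectedComponent

instance : RDom q (Cmp y0) where
  p := fun y => cp y.1
  hp := cp_lh.comp (isOpen_cmp q y0).isOpenEmbedding_subtypeVal.isLocalHomeomorph

theorem cp_cmp (y : Cmp y0) : cp y = cp y.1 := rfl

theorem dl_cmp (y : Cmp y0) : dl y = dl y.1 := by
  classical
  refine le_antisymm (dl_le_map (f := fun y : Cmp y0 => y.1) continuous_subtype_val (c := 0)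
    (fun y => by rw [add_zero, cp_cmp]) y) (le_dl (dl_le_one _) ?_)
  have h1 : ∀ w ∈ ball (cp y.1) (dl y.1), sh y.1 (w - cp y.1) ∈ connectedComponent y0 := by
    intro w hw
    exact (connectedComponent_eq y.2).ge ((preconn_sh y.1 le_rfl).subset_connectedComponent
      ⟨0, mem_ball_self (dl_pos _), sh_zero _⟩ ⟨_, by simpa [dist_eq_norm] using hw, rfl⟩)
  set σ : E q → Cmp y0 := fun w =>
    if h : sh y.1 (w - cp y.1) ∈ connectedComponent y0 then ⟨_, h⟩ else y with hσ
  have h2 : ∀ w ∈ ball (cp y.1) (dl y.1), (σ w).1 = sh y.1 (w - cp y.1) := fun w hw => by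
    simp only [hσ, dif_pos (h1 w hw)]
  have h3 : σ (cp y.1) = y := Subtype.ext (by
    rw [h2 _ (mem_ball_self (dl_pos _)), sub_self, sh_zero])
  have h4 := adm_of_section (σ := σ) (z := cp y.1) (dl_pos y.1) (by
    refine (IsInducing.subtypeVal.continuousOn_iff).2 (ContinuousOn.congr ?_ h2)
    exact (continuousOn_sh y.1).comp (by fun_prop) fun w hw => by simpa [dist_eq_norm] using hw)
    fun w hw => by rw [cp_cmp, h2 w hw, cp_sh (by simpa [dist_eq_norm] using hw), add_sub_cancel]
  rwa [h3] at h4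

theorem sh_cmp {y : Cmp y0} {w : E q} (h : ‖w‖ < dl y) : (sh y w).1 = sh y.1 w :=
  map_sh' (f := fun y : Cmp y0 => y.1) continuous_subtype_val (c := 0)
    (fun y => by rw [add_zero, cp_cmp]) h

theorem chart_cmp {e : OpenPartialHomeomorph (Cmp y0) (E q)} (he : IsCh e) :
    ∃ e' : OpenPartialHomeomorph Y (E q), IsCh e' ∧ e'.target = e.target ∧
      ∀ w, e'.symm w = (e.symm w).1 := by
  obtain ⟨e', h1, h2, -, h3⟩ := chart_of_section (σ := fun w => (e.symm w).1) e.open_target
    (continuous_subtype_val.comp_continuousOn e.symm.continuousOn) fun w hw => he.cp_symm hw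
  exact ⟨e', h1, h2, h3⟩

theorem hol_cmp {F : Y → ℂ} (hF : Hol F) : Hol fun y : Cmp y0 => F y.1 := by
  intro e he
  obtain ⟨e', h1, h2, h3⟩ := chart_cmp he
  refine (h2 ▸ hF e' h1).congr fun w _ => ?_
  simp [h3]

theorem psh_cmp (h : PSH (psi : Y → ℝ)) : PSH (psi : Cmp y0 → ℝ) := by
  refine ⟨continuous_psi.upperSemicontinuous, fun _ => ⟨0, Eventually.of_forall psi_nonneg⟩,
    fun e he => ?_⟩
  obtain ⟨e', h1, h2, h3⟩ := chart_cmp he
  have h4 : (psi : Cmp y0 → ℝ) ∘ e.symm = psi ∘ e'.symm := by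
    funext w
    simp only [Function.comp_apply, h3, psi, dl_cmp]
  rw [h4, ← h2]
  exact h.sm e' h1

end Cmp

end Crest.Agent.X261.Fib
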