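import Crest.Agent.X261.Fib.Ind
import Crest.Agent.X261.Jet.TbC

/-!
# X261 / FIB, SepT (helper89): the topological half of the separation of components

`sepH_of` : reduction of `SepH` to a statement on a proper tube in a covering.
-/

set_option autoImplicit false
set_option linter.unusedSectionVars false

noncomputable section

open Set Metric Filter Topology

namespace Crest.Agent.X261.Fib.Mn

open Crest.Agent.R275.Geo Crest.Agent.R275.Core144 Crest.Agent.R273.UCov_914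
open Crest.Agent.R281.ThnM_280 Crest.Agent.R281.Thn_280 Crest.Agent.X261.Fib.Sec
open Crest.Agent.X261.Jet.Tb (Sbm Tub)

/-- the charted space of an atlas -/
@[reducible] def csOf {n : ℕ} {M : Type} [TopologicalSpace M] (B : Atl n M) :
    ChartedSpace (Cn n) M where
  atlas := range B.e
  chartAt x := B.e (B.cover x).choose
  mem_chart_source x := (B.cover x).choose_spec
  chart_mem_atlas _ := ⟨_, rfl⟩

theorem locCompact {n : ℕ} {M : Type} [TopologicalSpace M] (B : Atl n M) :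
    LocallyCompactSpace M :=
  let _ := csOf B
  ChartedSpace.locallyCompactSpace (Cn n) M

theorem locConn {n : ℕ} {M : Type} [TopologicalSpace M] (B : Atl n M) :
    LocallyConnectedSpace M :=
  let _ := csOf B
  ChartedSpace.locallyConnectedSpace (Cn n) M

/-- the tube around a component of a fibre -/
theorem exists_tube {M Y G : Type*} [TopologicalSpace M] [T2Space M] [LocallyCompactSpace M]
    [MetricSpace Y] [Group G] [MulAction G M] [ContinuousConstSMul G M]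
    (hfin : ∀ K : Set M, IsCompact K → {g : G | ∃ e ∈ K, g • e ∈ K}.Finite)
    {a : M → Y} (ha : Continuous a) {Γ : Subgroup G} (hΓ : ∀ g ∈ Γ, ∀ x, a (g • x) = a x)
    {U : Set M} (hU : ∀ g ∈ Γ, ∀ x, g • x ∈ U → x ∈ U) {t : Y}
    (hlc : ∀ x, a x = t → ∃ O ∈ 𝓝 x, O ⊆ U ∧
      ∀ y ∈ O, a y = t → y ∈ connectedComponentIn (a ⁻¹' {t}) x)
    {C : Set M} (hC : IsCompact C) (hp : ∀ x, dist (a x) t ≤ 1 → ∃ g ∈ Γ, g • x ∈ C) {x₁ : M}
    (h₁ : a x₁ = t) : ∃ r : ℝ, 0 < r ∧ ∃ T : Set M, IsOpen T ∧ T ⊆ U ∧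
      (∀ y ∈ T, dist (a y) t < r) ∧ x₁ ∈ T ∧
      (∀ y ∈ T, a y = t → y ∈ connectedComponentIn (a ⁻¹' {t}) x₁) ∧
      ∃ N ≤ Γ, (∀ g ∈ N, ∀ y ∈ T, g • y ∈ T) ∧ ∀ r' < r, ∃ K ⊆ T, IsCompact K ∧
        ∀ y ∈ T, dist (a y) t ≤ r' → ∃ g ∈ N, g • y ∈ K := by
  set κ := connectedComponentIn (a ⁻¹' {t}) with hκ
  have tr : ∀ {x y z}, y ∈ κ x → z ∈ κ y → z ∈ κ x := fun h h' => by
    rwa [hκ, connectedComponentIn_eq h]
  have sy : ∀ {x y}, y ∈ κ x → x ∈ κ y := fun h => by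
    rw [hκ, ← connectedComponentIn_eq h]
    exact mem_connectedComponentIn (connectedComponentIn_nonempty_iff.1 ⟨_, h⟩)
  have eq : ∀ g ∈ Γ, ∀ {x y}, y ∈ κ x → g • y ∈ κ (g • x) := fun g hg x y h =>
    connectedComponentIn_mono _ (by rintro _ ⟨z, hz, rfl⟩; exact (hΓ g hg z).trans hz)
      ((continuous_const_smul g).continuousOn.mapsTo_connectedComponentIn
        (connectedComponentIn_nonempty_iff.1 ⟨_, h⟩) h)
  have hQ : ∀ x, ∃ Q : Set M, IsCompact Q ∧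
      (a x = t → Q ∈ 𝓝 x ∧ Q ⊆ U ∧ ∀ y ∈ Q, a y = t → y ∈ κ x) := fun x => by
    by_cases hx : a x = t
    · obtain ⟨O, h1, h2, h3⟩ := hlc x hx
      obtain ⟨Q, h4, h5, h6⟩ := local_compact_nhds h1
      exact ⟨Q, h6, fun _ => ⟨h4, h5.trans h2, fun y hy => h3 y (h5 hy)⟩⟩
    · exact ⟨∅, isCompact_empty, fun h => absurd h hx⟩
  choose Q hQc hQ using hQ
  obtain ⟨s, hs, hcov⟩ := (hC.inter_right
    (isClosed_singleton.preimage ha (t := {t}))).elim_nhds_subcover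
    (fun x => interior (Q x)) fun x hx => interior_mem_nhds.2 (hQ x hx.2).1
  have hcov' : ∀ y ∈ C, a y = t → ∃ x ∈ s, y ∈ interior (Q x) := fun y h h' => by
    simpa using hcov ⟨h, h'⟩
  have hS := hfin _ (s.isCompact_biUnion fun x _ => hQc x)
  let Z : Set M := (C \ ⋃ x ∈ s, interior (Q x)) ∪ ⋃ x ∈ s, ⋃ x' ∈ s,
    ⋃ g ∈ {g : G | (∃ e ∈ ⋃ x ∈ s, Q x, g • e ∈ ⋃ x ∈ s, Q x) ∧ g ∈ Γ ∧ g • x ∉ κ x'},
      Q x ∩ (fun y => g • y) ⁻¹' Q x'
  have hZ : IsCompact Z := (hC.diff (isOpen_biUnion fun _ _ => isOpen_interior)).union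
    (s.isCompact_biUnion fun x _ => s.isCompact_biUnion fun x' _ =>
      (hS.subset fun g hg => hg.1).isCompact_biUnion fun g _ =>
        (hQc x).inter_right ((hQc x').isClosed.preimage (continuous_const_smul g)))
  have hZt : t ∈ (a '' Z)ᶜ := by
    rintro ⟨y, hy | hy, hyt⟩
    · obtain ⟨x, hx, h⟩ := hcov' y hy.1 hyt
      exact hy.2 (mem_biUnion hx h)
    · simp only [mem_iUnion] at hy
      obtain ⟨x, hx, x', hx', g, ⟨-, hg, hn⟩, h1, h2⟩ := hy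
      exact hn (tr ((hQ x' (hs x' hx').2).2.2 _ h2 ((hΓ g hg y).trans hyt))
        (sy (eq g hg ((hQ x (hs x hx).2).2.2 y h1 hyt))))
  obtain ⟨r0, hr0, hball⟩ := Metric.isOpen_iff.1 (hZ.image ha).isClosed.isOpen_compl t hZt
  have hnZ : ∀ y, dist (a y) t < min r0 1 → y ∉ Z := fun y hy h =>
    hball (hy.trans_le (min_le_left _ _)) ⟨y, h, rfl⟩
  let N : Subgroup G :=
    { carrier := {g | g ∈ Γ ∧ g • x₁ ∈ κ x₁}
      one_mem' := ⟨Γ.one_mem, by rw [one_smul]; exact mem_connectedComponentIn h₁⟩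
      mul_mem' := fun {g g'} h h' => ⟨Γ.mul_mem h.1 h'.1, by
        rw [mul_smul]; exact tr h.2 (eq g h.1 h'.2)⟩
      inv_mem' := fun {g} h => ⟨Γ.inv_mem h.1, by
        simpa using eq g⁻¹ (Γ.inv_mem h.1) (sy h.2)⟩ }
  let T : Set M := {y | dist (a y) t < min r0 1 ∧
    ∃ x ∈ s, ∃ g ∈ Γ, g • x₁ ∈ κ x ∧ g • y ∈ interior (Q x)}
  refine ⟨min r0 1, lt_min hr0 one_pos, T, ?_, ?_, fun y hy => hy.1, ?_, ?_, N, fun g h => h.1,
    ?_, fun r' hr' => ?_⟩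
  · refine isOpen_iff_mem_nhds.2 fun y ⟨h1, x, hx, g, hg, h2, h3⟩ => ?_
    filter_upwards [(isOpen_ball.preimage ha).mem_nhds (show y ∈ a ⁻¹' ball t _ from h1),
      (isOpen_interior.preimage (continuous_const_smul g)).mem_nhds h3] with z h4 h5
    exact ⟨h4, x, hx, g, hg, h2, h5⟩
  · rintro y ⟨-, x, hx, g, hg, -, h3⟩
    exact hU g hg y ((hQ x (hs x hx).2).2.1 (interior_subset h3))
  · obtain ⟨g, hg, h1⟩ := hp x₁ (by simp [h₁])
    obtain ⟨x, hx, h2⟩ := hcov' _ h1 ((hΓ g hg _).trans h₁)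
    exact ⟨by simp [h₁, hr0], x, hx, g, hg,
      (hQ x (hs x hx).2).2.2 _ (interior_subset h2) ((hΓ g hg _).trans h₁), h2⟩
  · rintro y ⟨-, x, hx, g, hg, h2, h3⟩ hy
    simpa using eq g⁻¹ (Γ.inv_mem hg)
      (tr (sy h2) ((hQ x (hs x hx).2).2.2 _ (interior_subset h3) ((hΓ g hg _).trans hy)))
  · rintro h ⟨h1, h2⟩ y ⟨h3, x, hx, g, hg, h4, h5⟩
    refine ⟨by rwa [hΓ h h1], x, hx, g * h⁻¹, Γ.mul_mem hg (Γ.inv_mem h1), ?_, by simpa [mul_smul]⟩
    rw [mul_smul]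
    exact tr h4 (eq g hg (N.inv_mem ⟨h1, h2⟩).2)
  have hγ : ∀ x, ∃ γ : G, (∃ g ∈ Γ, g • x₁ ∈ κ x) → γ ∈ Γ ∧ γ • x₁ ∈ κ x := fun x => by
    by_cases h : ∃ g ∈ Γ, g • x₁ ∈ κ x
    · exact h.imp fun _ h _ => h
    · exact ⟨1, fun h' => absurd h' h⟩
  choose γ hγ using hγ
  refine ⟨(⋃ x ∈ {x | x ∈ s ∧ ∃ g ∈ Γ, g • x₁ ∈ κ x}, (fun y => (γ x)⁻¹ • y) '' Q x) ∩
    a ⁻¹' closedBall t r', ?_, ((s.finite_toSet.subset fun x hx => hx.1).isCompact_biUnion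
      fun x _ => (hQc x).image (continuous_const_smul _)).inter_right
        (isClosed_closedBall.preimage ha), ?_⟩
  · rintro y ⟨hy, h1⟩
    simp only [mem_iUnion] at hy
    obtain ⟨x, ⟨hx, h2⟩, z, hz, rfl⟩ := hy
    obtain ⟨h3, h4⟩ := hγ x h2
    have h5 : dist (a ((γ x)⁻¹ • z)) t < min r0 1 := lt_of_le_of_lt h1 hr'
    obtain ⟨g, hg, h6⟩ := hp _ (h5.le.trans (min_le_right _ _))
    have h7 : g • (γ x)⁻¹ • z ∈ ⋃ x ∈ s, interior (Q x) := by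
      by_contra hc
      exact hnZ _ (by rwa [hΓ g hg]) (Or.inl ⟨h6, hc⟩)
    simp only [mem_iUnion] at h7
    obtain ⟨x', hx', h7⟩ := h7
    refine ⟨h5, x', hx', g, hg, ?_, h7⟩
    have h8 : (g * (γ x)⁻¹) • z ∈ Q x' := by rw [mul_smul]; exact interior_subset h7
    have h9 : (g * (γ x)⁻¹) • x ∈ κ x' := by
      by_contra hc
      refine hnZ z (by rwa [hΓ _ (Γ.inv_mem h3)] at h5) (Or.inr ?_)
      simp only [mem_iUnion]
      exact ⟨x, hx, x', hx', _, ⟨⟨z, ⟨x, hx, hz⟩, x', hx', h8⟩, Γ.mul_mem hg (Γ.inv_mem h3), hc⟩,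
        hz, h8⟩
    simpa [mul_smul] using tr h9 (eq _ (Γ.mul_mem hg (Γ.inv_mem h3)) h4)
  · rintro y ⟨-, x, hx, g, hg, h2, h3⟩ hy
    obtain ⟨h4, h5⟩ := hγ x ⟨g, hg, h2⟩
    have h6 := Γ.mul_mem (Γ.inv_mem h4) hg
    refine ⟨(γ x)⁻¹ * g, ⟨h6, ?_⟩, mem_biUnion (t := fun x => (fun y => (γ x)⁻¹ • y) '' Q x)
      ⟨hx, g, hg, h2⟩ ⟨_, interior_subset h3, (mul_smul _ _ _).symm⟩, ?_⟩
    · simpa [mul_smul] using eq _ (Γ.inv_mem h4) (tr (sy h5) h2)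
    · rwa [mem_preimage, hΓ _ h6]

/-- the fibres of a submersion are locally connected -/
theorem fib_lc {n p : ℕ} {M : Type} [TopologicalSpace M] {B : Atl n M} {T : Set M} {π : M → Cn p}
    (H : Sbm B T π) {x : M} (hx : x ∈ T) : ∃ O ∈ 𝓝 x, O ⊆ T ∧
      ∀ y ∈ O, π y = π x → y ∈ connectedComponentIn (π ⁻¹' {π x}) x := by
  obtain ⟨i, hi⟩ := B.cover x
  obtain ⟨P⟩ := H.exists_pc hx hi
  have h1 : IsPreconnected ((fun w => P.Γ (π x, w)) '' ball (P.κ x) P.ρ) :=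
    (convex_ball _ _).isPreconnected.image _ fun w hw => (ContinuousAt.comp (f := fun w => (π x, w))
      (P.Γ_cont (P.mem_ball' (mem_ball_self P.pos) hw)) (by fun_prop)).continuousWithinAt
  have h2 := h1.subset_connectedComponentIn (F := π ⁻¹' {π x}) ⟨_, mem_ball_self P.pos, P.Γ_self⟩
    (by rintro _ ⟨w, hw, rfl⟩; exact P.π_Γ (P.mem_ball' (mem_ball_self P.pos) hw))
  refine ⟨_, inter_mem (H.opn.mem_nhds hx) (inter_mem P.Γ_inv
    (P.cont.preimage_mem_nhds (ball_mem_nhds _ P.pos))), inter_subset_left, fun y hy h => ?_⟩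
  exact h2 ⟨_, hy.2.2, h ▸ hy.2.1⟩

variable {n : ℕ} {X : Type} [TopologicalSpace X] {A : Atl n X} {G : Type} [Group G]
  {D : MonD A G} {H : Subgroup G}

theorem qm_eq {N : Subgroup G} {e e' : D.cov G} (h : D.qm N e = D.qm N e') :
    ∃ g ∈ N, g • e = e' := by
  obtain ⟨g, rfl⟩ := D.exists_deck (e := e) (e' := e') (congrArg (D.pr (F := G ⧸ N)) h)
  obtain ⟨i, hi⟩ := A.cover (D.pr e)
  have h1 := congrArg (D.co i) h
  rw [D.co_qm, D.co_qm, D.co_deck, QuotientGroup.eq, inv_mul_cancel_left] at h1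
  exact ⟨g, inv_mem_iff.1 h1, rfl⟩

variable (D) in
/-- the analytic half of the separation -/
def SepAn : Prop := ∀ (F : Type) [MulAction G F] [Countable F] [PreconnectedSpace (D.cov F)]
  (q : ℕ), 1 ≤ q → ∀ π : D.cov F → Cn q,
  (∀ p, DifferentiableOn ℂ (fun z => π (((D.atl F).e p).symm z)) ((D.atl F).e p).target) →
  ∀ T, Tub (D.atl F) T π → ∀ y₁ ∈ T, π y₁ = 0 → ∀ y₂ ∉ T, π y₂ = 0 →
    y₂ ∉ Crit (D.atl F) univ π → ∃ h : D.cov F → ℂ,
      (∀ y ∉ Crit (D.atl F) univ π, ∃ Φ : Cn q → ℂ, AnalyticAt ℂ Φ (π y) ∧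
        ∀ᶠ z in 𝓝 y, h z = Φ (π z)) ∧ h y₁ ≠ h y₂

theorem sepH_of [T2Space X] [Finite A.ι] [PreconnectedSpace (D.cov G)] (hA : SepAn D) :
    SepH D H := by
  intro q hq a L lam S h hS t ht x₁ x₂ h₁ h₂ hn
  have : Nonempty (D.cov G) := ⟨x₁⟩
  have : ConnectedSpace (D.cov G) := ⟨‹_›⟩
  have := Cov.A.countable D
  have := locCompact (D.atl G)
  have ha : ∀ x, S.a x = (a x).ofLp := fun x => by rw [hS.a_eq]
  have hU : ∀ x, x ∈ S.U ↔ x ∉ Crit (D.atl G) univ a := fun x => by rw [hS.U_eq]; rfl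
  have heH : ∀ g ∈ H, ∀ x, S.a (g • x) = S.a x + lam g := fun g hg x => by
    rw [ha, ha, h.eqv, h.LH g hg]
  let Γ : Subgroup G :=
    { carrier := {g | g ∈ H ∧ lam g = 0}
      one_mem' := ⟨H.one_mem, by simpa using heH 1 H.one_mem x₁⟩
      mul_mem' := fun h h' => ⟨H.mul_mem h.1 h'.1, by rw [lam_mul heH h.1 h'.1, h.2, h'.2, add_zero]⟩
      inv_mem' := fun h => ⟨H.inv_mem h.1, by rw [lam_inv heH h.1, h.2, neg_zero]⟩ }
  have hΓ : ∀ g ∈ Γ, ∀ x, a (g • x) = a x := fun g hg x => WithLp.ofLp_injective 2 (by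
    rw [← ha, ← ha, heH g hg.1, hg.2, add_zero])
  set t' : Cn q := WithLp.toLp 2 t with ht'
  have hat : ∀ x, a x = t' ↔ S.a x = t := fun x => by
    rw [ha]
    exact ⟨fun h => by rw [h], fun h => by rw [ht', ← h]⟩
  have hF : a ⁻¹' {t'} = S.a ⁻¹' {t} := Set.ext hat
  have hsb : Sbm (D.atl G) S.U a := ⟨S.op, fun p => (h.hol p).mono inter_subset_left,
    eq_empty_of_forall_notMem fun x hx => (hU x).1 hx.1 ⟨trivial, hx.2⟩⟩
  obtain ⟨C, hC, hp⟩ := S.prop _ ((isCompact_closedBall t' 1).image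
    (EuclideanSpace.equiv (Fin q) ℂ).continuous)
  obtain ⟨r, hr, T, hTo, hTU, hTr, hT₁, hTF, N, hN, hNT, hK⟩ := exists_tube
    (fun K hK => D.finite_deck hK hK) (cont_of_hol h.hol) hΓ (U := S.U)
    (fun g _ x hx => by simpa using S.inv g⁻¹ _ hx) (t := t')
    (fun x hx => hx ▸ fib_lc hsb (S.reg x (((hat x).1 hx).symm ▸ ht))) hC
    (fun x hx => by
      obtain ⟨g, h1, h2, h3⟩ := hp x ⟨a x, hx, (ha x).symm⟩
      exact ⟨g, ⟨hS.H_eq ▸ h1, hS.lam_eq ▸ h2⟩, h3⟩) ((hat _).2 h₁)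
  have hc0 : ((r⁻¹ : ℝ) : ℂ) ≠ 0 := by exact_mod_cast (inv_pos.2 hr).ne'
  let R : Cn q ≃L[ℂ] Cn q := (LinearEquiv.smulOfNeZero ℂ (Cn q) _ hc0).toContinuousLinearEquiv
  let π : D.cov (G ⧸ N) → Cn q := fun y => R (a (Function.surjInv (D.surjective_qm N) y)) + -R t'
  have hπ : ∀ e, π (D.qm N e) = R (a e) + -R t' := fun e => by
    obtain ⟨g, hg, h1⟩ := qm_eq (Function.surjInv_eq (D.surjective_qm N) (D.qm N e))
    exact congrArg (fun w => R w + -R t') ((hΓ g (hN hg) _).symm.trans (congrArg a h1))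
  have hnπ : ∀ e, ‖π (D.qm N e)‖ = r⁻¹ * dist (a e) t' := fun e => by
    rw [hπ, ← sub_eq_add_neg, ← map_sub, dist_eq_norm]
    change ‖((r⁻¹ : ℝ) : ℂ) • (a e - t')‖ = _
    rw [norm_smul, Complex.norm_real, Real.norm_of_nonneg (inv_pos.2 hr).le]
  have hrd : ∀ i (g : G), (fun z => π (((D.atl (G ⧸ N)).e (i, (g : G ⧸ N))).symm z)) =
      fun z => R (a (((D.atl G).e (i, g)).symm z)) + -R t' := fun i g => funext fun z => by
    rw [← hπ]
    exact congrArg π (D.qm_pt N i g _).symm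
  have hhol : ∀ p, DifferentiableOn ℂ (fun z => π (((D.atl (G ⧸ N)).e p).symm z))
      ((D.atl (G ⧸ N)).e p).target := by
    rintro ⟨i, v⟩
    obtain ⟨g, rfl⟩ := QuotientGroup.mk_surjective v
    rw [hrd]
    exact (R.differentiable.comp_differentiableOn (h.hol (i, g))).add_const _
  have hcr : ∀ e ∈ S.U, D.qm N e ∉ Crit (D.atl (G ⧸ N)) univ π := by
    rintro e he ⟨-, ⟨i, v⟩, ⟨h1, h2⟩, h3⟩
    obtain rfl : ((D.co i e : G) : G ⧸ N) = v := (D.co_qm N i e).symm.trans h2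
    rw [hrd, surj_equiv] at h3
    exact h3 (surj_of_not_crit (mem_univ e) ((hU e).1 he) (i := (i, D.co i e)) ⟨h1, rfl⟩)
  have hz : ∀ x, S.a x = t → π (D.qm N x) = 0 := fun x hx => by
    rw [hπ, (hat x).2 hx, add_neg_cancel]
  have : Countable (G ⧸ N) := QuotientGroup.mk_surjective.countable
  obtain ⟨f, hf, hne⟩ := hA (G ⧸ N) q hq π hhol (D.qm N '' T)
    { opn := Cov.A.isOpenMap_cmap (D := D) (D' := D) (f := fun g : G => (g : G ⧸ N))
        (fun _ _ _ _ => rfl) T hTo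
      hol := fun p => (hhol p).mono inter_subset_left
      subm := eq_empty_of_forall_notMem fun _ ⟨⟨e, he, h1⟩, h2⟩ =>
        hcr e (hTU he) (h1 ▸ ⟨trivial, h2⟩)
      lt := by
        rintro _ ⟨e, he, rfl⟩
        rw [hnπ, inv_mul_lt_iff₀ hr, mul_one]
        exact hTr e he
      prop := fun ρ hρ => by
        obtain ⟨K, h1, h2, h3⟩ := hK (r * ρ) (by nlinarith)
        convert (h2.inter_right (isClosed_closedBall.preimage (cont_of_hol h.hol)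
          (t := closedBall t' (r * ρ)))).image (D.continuous_qm N) using 1
        ext y
        constructor
        · rintro ⟨⟨e, he, rfl⟩, h4⟩
          rw [hnπ, inv_mul_le_iff₀ hr] at h4
          obtain ⟨g, hg, h5⟩ := h3 e he h4
          exact ⟨g • e, ⟨h5, by rwa [mem_preimage, hΓ g (hN hg)]⟩, D.qm_deck N ⟨g, hg⟩ e⟩
        · rintro ⟨e, ⟨h4, h5⟩, rfl⟩
          exact ⟨⟨e, h1 h4, rfl⟩, by rw [hnπ, inv_mul_le_iff₀ hr]; exact h5⟩ }
    _ ⟨x₁, hT₁, rfl⟩ (hz _ h₁) (D.qm N x₂) (fun ⟨e, he, h1⟩ => by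
      obtain ⟨g, hg, rfl⟩ := qm_eq h1
      exact hn (hF ▸ hTF _ (hNT g hg e he) ((hat _).2 h₂))) (hz _ h₂)
    (hcr _ (S.reg _ (h₂.symm ▸ ht)))
  refine ⟨fun e => f (D.qm N e), fun x hx => ?_, hne⟩
  obtain ⟨Φ, h1, h2⟩ := hf _ (hcr x hx)
  refine ⟨fun w => Φ (R ((EuclideanSpace.equiv (Fin q) ℂ).symm w) + -R t'), ?_, ?_⟩
  · refine AnalyticAt.comp (g := Φ) (by rw [ha]; rwa [hπ] at h1) ?_
    exact ((R.analyticAt _).comp ((EuclideanSpace.equiv (Fin q) ℂ).symm.analyticAt _)).add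
      analyticAt_const
  · filter_upwards [(D.continuous_qm N).continuousAt.eventually h2] with y hy
    rw [hy, hπ, ha]
    rfl

end Crest.Agent.X261.Fib.Mn
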