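import Crest.Agent.X261.Fib.Big
import Crest.Agent.X261.Fib.SepT
import Crest.Agent.X261.Fib.HorS

/-!
# X261 / FIB, Fin (helper89): connected general fibres from the analytic separation statement
-/

set_option autoImplicit false

namespace Crest.Agent.X261.Fib.Mn

open Crest.Agent.R275.Geo Crest.Agent.R273.UCov_914

variable {n : ℕ} {X : Type} [TopologicalSpace X] {A : Atl n X} {G : Type} [Group G]
  {D : MonD A G} {H : Subgroup G}

theorem dich (D : MonD A G) : Dich D := fun _ S =>
  have := locConn (D.atl G)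
  S.dich

theorem fibIn [T2Space X] [Finite A.ι] [PreconnectedSpace (D.cov G)] [H.FiniteIndex]
    (hN : Bog.NoBog A) (hA : SepAn D) : Dich D ∧ NBig D H ∧ SepH D H :=
  ⟨dich D, not_big hN, sepH_of hA⟩

theorem conn [CompactSpace X] [T2Space X] [Finite A.ι] [PreconnectedSpace (D.cov G)]
    [H.FiniteIndex] (hN : Bog.NoBog A) (hA : SepAn D) {q : ℕ} {a : D.cov G → Cn q}
    {L : G → E q ≃L[ℂ] E q} {lam : G → E q} (h : Dat D H a L lam) : Conn a L lam :=
  conn_of (dich D) (not_big hN) (sepH_of hA) q a L lam h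

end Crest.Agent.X261.Fib.Mn
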