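import Crest.Agent.X261.Fib.HrC
import Crest.Agent.X261.Fib.Rat

/-!
# X261 / FIB Hor (helper84): invariant holomorphic functions with polynomial growth and free
`1`-jet (`PD.jets`), by Poincaré series
-/

set_option autoImplicit false
set_option linter.unusedSectionVars false

noncomputable section

open Set Metric Filter Topology MeasureTheory
open scoped ENNReal

namespace Crest.Agent.X261.Fib

open Crest.Agent.R271.Ho51 Crest.Agent.R273.Reg_844

variable {q : ℕ} {Y : Type} [TopologicalSpace Y] [RDom q Y] [T2Space Y]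

namespace Hr

/-- Weierstrass' theorem for normally convergent series -/
theorem series {ι : Type} {g : ι → E q → ℂ} {u : ι → ℝ} {ρ : ℝ} (hρ : 0 < ρ) (hu : Summable u)
    (hg : ∀ l, DifferentiableOn ℂ (g l) (ball 0 ρ)) (hb : ∀ l, ∀ w ∈ ball 0 ρ, ‖g l w‖ ≤ u l) :
    HasFDerivAt (fun w => ∑' l, g l w) (∑' l, fderiv ℂ (g l) 0) 0 := by
  have hs : ball (0 : E q) (ρ / 2) ⊆ ball 0 ρ := ball_subset_ball (by linarith)
  refine hasFDerivAt_tsum_of_isPreconnected (u := fun l => 2 * u l / (ρ / 2))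
    (f' := fun l w => fderiv ℂ (g l) w) ((hu.mul_left 2).div_const _) isOpen_ball
    (convex_ball (0 : E q) (ρ / 2)).isPreconnected
    (fun l w hw => ((hg l).differentiableAt (isOpen_ball.mem_nhds (hs hw))).hasFDerivAt)
    (fun l w hw => ?_) (mem_ball_self (half_pos hρ))
    (Summable.of_norm_bounded hu fun l => hb l 0 (mem_ball_self hρ)) (mem_ball_self (half_pos hρ))
  have h1 : ball w (ρ / 2) ⊆ ball 0 ρ := ball_subset_ball' (by linarith [mem_ball.1 hw])
  refine Complex.norm_fderiv_le_div_of_mapsTo_ball ((hg l).mono h1) (fun z hz => ?_) (half_pos hρ)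
  rw [mem_closedBall, dist_eq_norm]
  linarith [norm_sub_le (g l z) (g l w), hb l z (h1 hz), hb l w (hs hw)]

variable {G : Type} [Group G] [MulAction G Y] (P : PD q Y G)

/-- a section of the period map -/
def sec (l : Rt.per P) : G := (show (l : E q) ∈ range P.lam from l.2).choose

theorem lam_sec (l : Rt.per P) : P.lam (sec P l) = l :=
  (show (l : E q) ∈ range P.lam from l.2).choose_spec

/-- translation by a period -/
def pt (l : Rt.per P) (y : Y) : Q P := pr P (sec P l • y)

theorem pt_cont (l : Rt.per P) : Continuous (pt P l) := (pr_cont P).comp (P.cont _)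

theorem cp_pt (l : Rt.per P) (y : Y) : cp (pt P l y) = cp y + l := by
  rw [pt, cp_pr, P.eqv, lam_sec]

theorem pt_smul (l : Rt.per P) (g : G) (y : Y) :
    pt P l (g • y) = pt P (l + ⟨P.lam g, g, rfl⟩) y := by
  refine (pr_eq P).2 ⟨sec P (l + ⟨P.lam g, g, rfl⟩) * g⁻¹ * (sec P l)⁻¹, ?_, ?_⟩
  · rw [P.lam_mul, P.lam_mul, lam_inv, lam_inv, lam_sec, lam_sec]
    simp
  · simp [mul_smul]

theorem pt_sh (l : Rt.per P) {y : Y} {w : E q} (h : ‖w‖ < dl y) :
    pt P l (sh y w) = sh (pt P l y) w := map_sh' (pt_cont P l) (cp_pt P l) h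

theorem dl_le_pt (l : Rt.per P) (y : Y) : dl y ≤ dl (pt P l y) :=
  dl_le_map (pt_cont P l) (cp_pt P l) y

theorem exists_sep : ∃ c : ℝ, 0 < c ∧ ∀ l l' : Rt.per P, l ≠ l' → c ≤ ‖(l : E q) - l'‖ := by
  obtain ⟨c, hc, h⟩ := P.disc
  refine ⟨c, hc, fun l l' hl => ?_⟩
  have h1 : P.lam (sec P (l - l')) = (l : E q) - l' := lam_sec P _
  rw [← h1]
  exact h _ (by rw [h1, sub_ne_zero]; exact fun h2 => hl (Subtype.ext h2))

variable {Ψ : Y → ℝ} (hW : Wt Ψ)

theorem wq_pt (l : Rt.per P) (y : Y) : wq P hW (pt P l y) = Ψ y := hW.inv _ (P.tr _) y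

theorem levi_pt (l : Rt.per P) (y : Y) (w : E q) : Levi (wq P hW) (pt P l y) w = Levi Ψ y w := by
  rw [← Levi_map (pt_cont P l) (cp_pt P l)]
  simp only [wq_pt]

include hW in
theorem exists_low {m : ℝ} (hm : 0 ≤ m) : ∃ (N : ℕ) (c : ℝ), 0 < c ∧ ∀ (y : Y) (w : E q),
    ‖w‖ ≤ dl y / 2 → c * dl y ^ N ≤ Real.exp (-(m * Ψ (sh y w))) := by
  obtain ⟨K, C, hK⟩ := hW.le
  obtain ⟨N, hN⟩ := exists_nat_ge (m * |K|)
  refine ⟨N, Real.exp (-(m * (|K| * Real.log 2 + C))), Real.exp_pos _, fun y w hw => ?_⟩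
  rw [← exp_neg_psi, ← Real.exp_nat_mul, ← Real.exp_add, Real.exp_le_exp]
  have h1 := mul_le_mul_of_nonneg_right (le_abs_self K) (psi_nonneg (sh y w))
  have h2 := mul_le_mul_of_nonneg_left (psi_sh_le hw) (abs_nonneg K)
  have h3 := mul_le_mul_of_nonneg_left
    (show Ψ (sh y w) ≤ |K| * (psi y + Real.log 2) + C by linarith [hK (sh y w)]) hm
  have h4 := mul_le_mul_of_nonneg_right hN (psi_nonneg y)
  linarith

theorem hol_cont {M : Type} [TopologicalSpace M] [RDom q M] [T2Space M] {F : M → ℂ} (hF : Hol F) :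
    Continuous F := continuous_iff_continuousAt.2 fun y => by
  have h1 : ContinuousAt (fun w => F (sh y w)) (cp y - cp y) := by
    rw [sub_self]
    exact (hol_sh hF y).continuousOn.continuousAt (ball_mem_nhds _ (dl_pos y))
  refine (ContinuousAt.comp (f := fun y' => cp y' - cp y) h1
    ((cp_cont (M := M)).sub continuous_const).continuousAt).congr ?_
  filter_upwards [eventually_eq_sh y] with y' hy'
  exact (congrArg F hy').symm

/-- the estimate for the Poincaré series -/
theorem est [MeasurableSpace (Q P)] [BorelSpace (Q P)] {μ : Measure (Q P)} (hμ : IsLeb μ)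
    {κ : ℝ} (h0 : 0 < κ) (h4 : κ ≤ 1 / 4)
    (hκ : ∀ l l' : Rt.per P, l ≠ l' → 4 * κ < ‖(l : E q) - l'‖) {m : ℝ} (hm : 0 ≤ m)
    {F : Q P → ℂ} (hF : Hol F)
    (hI : ∫⁻ x, ENNReal.ofReal (‖F x‖ ^ 2 * Real.exp (-(m * wq P hW x))) ∂μ ≠ ⊤) :
    ∃ (N : ℕ) (C : ℝ), ∀ y : Y, ∃ u : Rt.per P → ℝ, 0 ≤ u ∧
      (∀ T : Finset (Rt.per P), ∑ l ∈ T, u l ≤ C / dl y ^ N) ∧
      ∀ l w, ‖w‖ ≤ κ * dl y → ‖F (pt P l (sh y w))‖ ^ 2 ≤ u l := by
  obtain ⟨N, c, hc, hlow⟩ := exists_low hW hm
  set W : Q P → ℝ≥0∞ := fun x => ENNReal.ofReal (‖F x‖ ^ 2 * Real.exp (-(m * wq P hW x))) with hWd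
  have hv := v1_pos (q := q)
  refine ⟨2 * q + N, (∫⁻ x, W x ∂μ).toReal / (κ ^ (2 * q) * v1 q * c), fun y => ?_⟩
  have hd := dl_pos y
  set ρ : ℝ := κ * dl y with hρ
  have hρ0 : 0 < ρ := by positivity
  have hρ1 : ρ ≤ dl y / 4 := by nlinarith
  have hρ2 : ρ ≤ κ := mul_le_of_le_one_right h0.le (dl_le_one y)
  set S : Rt.per P → Set (Q P) := fun l => sh (pt P l y) '' closedBall 0 (2 * ρ) with hS
  have hfin : ∀ l, ∫⁻ x in S l, W x ∂μ ≠ ⊤ := fun l =>
    ne_top_of_le_ne_top hI (lintegral_mono' Measure.restrict_le_self le_rfl)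
  refine ⟨fun l => (∫⁻ x in S l, W x ∂μ).toReal / (ρ ^ (2 * q) * v1 q * (c * dl y ^ N)),
    fun l => by positivity, fun T => ?_, fun l w hw => ?_⟩
  · rw [← Finset.sum_div, ← ENNReal.toReal_sum fun l _ => hfin l,
      ← lintegral_biUnion_finset ?_ fun l _ =>
        (isCompact_sh (by linarith [dl_le_pt P l y])).measurableSet, div_div]
    · have h1 : ρ ^ (2 * q) * v1 q * (c * dl y ^ N) =
          κ ^ (2 * q) * v1 q * c * dl y ^ (2 * q + N) := by rw [hρ]; ring
      rw [h1]
      refine div_le_div_of_nonneg_right (ENNReal.toReal_mono hI ?_) (by positivity)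
      exact lintegral_mono' Measure.restrict_le_self le_rfl
    · intro l _ l' _ hl
      rw [Function.onFun, Set.disjoint_left]
      rintro _ ⟨v, hv, rfl⟩ ⟨v', hv', h1⟩
      rw [mem_closedBall_zero_iff] at hv hv'
      have h2 := congrArg cp h1
      rw [cp_sh (by linarith [dl_le_pt P l' y]), cp_sh (by linarith [dl_le_pt P l y]), cp_pt, cp_pt,
        add_assoc, add_assoc, add_right_inj] at h2
      have h3 : (l : E q) - l' = v' - v := by rw [sub_eq_sub_iff_add_eq_add, ← h2, add_comm]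
      have h5 := hκ l l' hl
      rw [h3] at h5
      linarith [norm_sub_le v' v]
  · have h1 := dl_le_pt P l y
    have h2 := dl_sh (y := pt P l y) (w := w) (by linarith)
    have h3 := submean hμ (y := sh (pt P l y) w) (ρ := ρ) (ρ' := 2 * ρ) hρ0.le (by linarith)
      (by linarith) (hol_cont hF) ((hol_sh hF _).mono (ball_subset_ball (by linarith))) (W := W)
      (c := c * dl y ^ N) (S := S l) (by positivity) fun w' hw' => by
        have h5 : ‖w + w'‖ ≤ 2 * ρ := by linarith [norm_add_le w w']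
        rw [sh_sh (by linarith)]
        refine ⟨⟨_, mem_closedBall_zero_iff.2 h5, rfl⟩, ENNReal.ofReal_le_ofReal ?_⟩
        rw [mul_comm]
        refine mul_le_mul_of_nonneg_left ?_ (by positivity)
        rw [← pt_sh P l (by linarith), wq_pt]
        exact hlow y _ (by linarith)
    have h5 := (ENNReal.ofReal_le_iff_le_toReal (hfin l)).1 h3
    rw [pt_sh P l (by linarith), le_div_iff₀ (by positivity)]
    linarith

/-- the `1`-jets -/
def jt (j : Option (Fin q)) (v : E q) : ℂ := j.elim 1 fun i => v i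

end Hr

open Hr in
/-- invariant holomorphic functions with polynomial growth and free `1`-jet -/
theorem PD.jets {G : Type} [Group G] [MulAction G Y] (P : PD q Y G) {Ψ : Y → ℝ} (hW : Wt Ψ)
    (hp : ∀ y, psi y ≤ Ψ y) {y0 : Y} {c : ℝ} (hc : 0 < c)
    (hs : ∀ w, c * nsq w ≤ Levi Ψ y0 w) :
    ∃ H : Option (Fin q) → Y → ℂ, Jets y0 H ∧ ∀ j (g : G) y, H j (g • y) = H j y := by
  classical
  obtain ⟨ρ, hρ, hρc, hρl⟩ := exh P hW hp
  have := secondCountable_of_exh hρc
  borelize (Q P)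
  obtain ⟨μ, hμ⟩ := exists_leb (M := Q P)
  obtain ⟨c0, hc0, hsep⟩ := exists_sep P
  have h1 : ∀ᶠ v in 𝓝 (0 : E q), ∀ w, c / 2 * nsq w ≤ Levi Ψ (sh y0 v) w := by
    have h2 := continuousAt_sh (y := y0) (w := 0) (by simpa using dl_pos y0)
    rw [ContinuousAt, sh_zero] at h2
    exact h2.eventually (levi_near hW.sm hc hs)
  obtain ⟨r1, hr1, h2⟩ := Metric.eventually_nhds_iff.1 h1
  set r : ℝ := min r1 (min (dl y0) (c0 / 2)) with hr
  have hr2 : r ≤ dl y0 := (min_le_right _ _).trans (min_le_left _ _)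
  have hr3 : r ≤ c0 / 2 := (min_le_right _ _).trans (min_le_right _ _)
  have hSh : Shs (fun l => pt P l y0) r :=
    ⟨lt_min hr1 (lt_min (dl_pos _) (by positivity)), fun l => hr2.trans (dl_le_pt P l y0),
      fun l l' hl => by
        rw [cp_pt, cp_pt, add_sub_add_left_eq_sub]
        linarith [hsep l l' hl]⟩
  have key := fun j : Option (Fin q) => solve hμ hρ hρc hρl (sm_wq P hW)
    (fun x => by obtain ⟨y, rfl⟩ := pr_surj P x; exact hW.nonneg y)
    (fun x w => by obtain ⟨y, rfl⟩ := pr_surj P x; rw [levi_wq]; exact hW.lev y w) hSh (half_pos hc)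
    (fun l v hv w => by
      rw [← pt_sh P l (hv.trans_le hr2), levi_pt]
      exact h2 (by simpa using hv.trans_le (min_le_left _ _)) w) 0
    (f := fun l v => if l = 0 then jt j v else 0)
    (fun l => by
      split_ifs
      · cases j <;> simp only [jt, Option.elim] <;> fun_prop
      · exact contDiff_const) (fun l hl v => if_neg hl)
  choose m F hm hF hI hjet using key
  set κ : ℝ := min (1 / 4) (c0 / 5) with hκ
  have hκ0 : 0 < κ := lt_min (by norm_num) (by positivity)
  have hκ1 : κ ≤ 1 / 4 := min_le_left _ _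
  choose N C hest using fun j => est P hW hμ hκ0 hκ1
    (fun l l' hl => by linarith [hsep l l' hl, min_le_right (1 / 4) (c0 / 5)]) (hm j) (hF j) (hI j)
  choose u hu0 hu1 hu2 using hest
  have hb : ∀ j y l w, ‖w‖ ≤ κ * dl y →
      ‖F none (pt P l (sh y w)) * F j (pt P l (sh y w))‖ ≤ u none y l + u j y l := by
    intro j y l w hw
    rw [norm_mul]
    nlinarith [hu2 none y l w hw, hu2 j y l w hw,
      sq_nonneg (‖F none (pt P l (sh y w))‖ - ‖F j (pt P l (sh y w))‖),
      mul_nonneg (norm_nonneg (F none (pt P l (sh y w)))) (norm_nonneg (F j (pt P l (sh y w))))]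
  have hsum : ∀ j y, Summable (u j y) := fun j y => summable_of_sum_le (hu0 j y) (hu1 j y)
  have hκd : ∀ y : Y, κ * dl y ≤ dl y := fun y =>
    mul_le_of_le_one_left (dl_pos y).le (by linarith)
  have hder := fun j y => series (g := fun l w => F none (pt P l (sh y w)) * F j (pt P l (sh y w)))
    (mul_pos hκ0 (dl_pos y)) ((hsum none y).add (hsum j y))
    (fun l => (((hol_sh (hF none) (pt P l y)).mul (hol_sh (hF j) (pt P l y))).mono
      (ball_subset_ball ((hκd y).trans (dl_le_pt P l y)))).congr fun w hw => by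
        rw [pt_sh P l ((mem_ball_zero_iff.1 hw).trans_le (hκd y))]; rfl)
    fun l w hw => hb j y l w (mem_ball_zero_iff.1 hw).le
  have hz : ∀ i l, F (some i) (pt P l y0) = 0 := fun i l => by
    rw [(hjet (some i) l).1]; simp [jt]
  refine ⟨fun j y => ∑' l, F none (pt P l y) * F j (pt P l y),
    ⟨fun j => hol_of_sh fun y => (hder j y).differentiableAt,
      ⟨∑ j, N j, 2 * ∑ j, |C j|, fun j y => ?_⟩, ?_, fun i => ?_, fun i w => ?_⟩,
    fun j g y => ?_⟩
  · have hd := dl_pos y
    have h3 : ∀ j, (∑' l, u j y l) * dl y ^ (∑ j, N j) ≤ ∑ j, |C j| := fun j => by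
      have h4 := Real.tsum_le_of_sum_le (hu0 j y) (hu1 j y)
      rw [le_div_iff₀ (by positivity)] at h4
      refine le_trans (mul_le_mul_of_nonneg_left (pow_le_pow_of_le_one hd.le (dl_le_one y)
        (Finset.single_le_sum (fun _ _ => Nat.zero_le _) (Finset.mem_univ j)))
        (tsum_nonneg (hu0 j y))) (h4.trans ((le_abs_self _).trans ?_))
      exact Finset.single_le_sum (f := fun j => |C j|) (fun _ _ => abs_nonneg _) (Finset.mem_univ j)
    have h4 := tsum_of_norm_bounded ((hsum none y).add (hsum j y)).hasSum fun l =>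
      hb j y l 0 (by simpa using (mul_pos hκ0 hd).le)
    rw [(hsum none y).tsum_add (hsum j y)] at h4
    simp only [sh_zero] at h4
    have h5 := mul_le_mul_of_nonneg_right h4 (pow_pos hd (∑ j, N j)).le
    linarith [h3 none, h3 j]
  · rw [tsum_eq_single 0 fun l hl => by rw [(hjet none l).1, if_neg hl, zero_mul], (hjet none 0).1]
    simp [jt]
  · simp [hz]
  · have h5 : fderiv ℂ (fun v : E q => v i) 0 = ContinuousLinearMap.proj i :=
      (ContinuousLinearMap.proj (R := ℂ) (φ := fun _ : Fin q => ℂ) i).fderiv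
    have h3 : ∀ l, fderiv ℂ (fun w => F none (pt P l (sh y0 w)) * F (some i) (pt P l (sh y0 w))) 0 =
        if l = 0 then ContinuousLinearMap.proj i else 0 := by
      intro l
      have h4 := (hjet none l).2.mul (hjet (some i) l).2
      refine (h4.congr_of_eventuallyEq ?_).fderiv.trans (ContinuousLinearMap.ext fun v => ?_)
      · filter_upwards [ball_mem_nhds (0 : E q) (dl_pos y0)] with w hw
        rw [pt_sh P l (mem_ball_zero_iff.1 hw)]
        rfl
      · by_cases hl : l = 0 <;> simp [sh_zero, hz, (hjet none l).1, hl, jt, h5, (hjet none 0).1]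
    rw [D_sh, ((hder (some i) y0).restrictScalars ℝ).fderiv,
      ContinuousLinearMap.coe_restrictScalars', tsum_eq_single 0 fun l hl => by rw [h3, if_neg hl],
      h3, if_pos rfl]
    rfl
  · simp only [pt_smul]
    exact (Equiv.addRight (⟨P.lam g, g, rfl⟩ : Rt.per P)).tsum_eq
      fun l => F none (pt P l y) * F j (pt P l y)

end Crest.Agent.X261.Fib
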