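import Crest.Agent.X261.Fib.Wt

/-!
# X261 / FIB Hor (helper84), part A: maps over translations, the quotient by the kernel of the
periods, the exhaustion
-/

set_option autoImplicit false
set_option linter.unusedSectionVars false

noncomputable section

open Set Metric Filter Topology

namespace Crest.Agent.X261.Fib.Hr

open Crest.Agent.R271.Ho51 Crest.Agent.R273.Reg_844 Crest.Agent.R281.Thn_280
open Crest.Agent.R276.NL_137
open Crest.Agent.R271.W792 (lev dsq Levi_eq_lev nS nT sm_nS lev_nS)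

variable {q : ℕ} {Y : Type} [TopologicalSpace Y] [RDom q Y]

section Map

variable {Y' : Type} [TopologicalSpace Y'] [RDom q Y'] {f : Y → Y'} {c : E q}
  {V : Type*} [NormedAddCommGroup V] [NormedSpace ℝ V]

theorem germ_map (hf : Continuous f) (h : ∀ y, cp (f y) = cp y + c) (y : Y) :
    ∀ᶠ z in 𝓝 (cp y), f ((ch y).symm z) = (ch (f y)).symm (z + c) := by
  have h0 : (ch y).target ∈ 𝓝 (cp y) := (ch y).open_target.mem_nhds ((isCh_ch y).cp_mem (mem_ch y))
  have h1 : ContinuousAt (fun z => f ((ch y).symm z)) (cp y) :=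
    hf.continuousAt.comp ((ch y).symm.continuousAt ((isCh_ch y).cp_mem (mem_ch y)))
  have h2 : (ch (f y)).source ∈ 𝓝 (f ((ch y).symm (cp y))) := by
    rw [symm_cp]; exact (ch (f y)).open_source.mem_nhds (mem_ch _)
  filter_upwards [h0, h1.preimage_mem_nhds h2] with z hz h3
  have h4 := (isCh_ch (f y)).symm_cp (x := f ((ch y).symm z)) h3
  rw [h, (isCh_ch y).cp_symm hz] at h4
  exact h4.symm

theorem D_map (hf : Continuous f) (h : ∀ y, cp (f y) = cp y + c) (Φ : Y' → V) (y : Y) :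
    D (fun x => Φ (f x)) y = D Φ (f y) := by
  unfold D
  rw [h, ← fderiv_comp_add_right]
  exact Filter.EventuallyEq.fderiv_eq ((germ_map hf h y).mono fun z hz => congrArg Φ hz)

theorem Levi_map (hf : Continuous f) (h : ∀ y, cp (f y) = cp y + c) (Φ : Y' → ℝ) (y : Y)
    (w : E q) : Levi (fun x => Φ (f x)) y w = Levi Φ (f y) w := by
  have h1 : ∀ j k, Lv (fun x => Φ (f x)) y j k = Lv Φ (f y) j k := by
    intro j k
    have h2 : db k (fun x => ((Φ (f x) : ℝ) : ℂ)) = fun x => db k (fun x => ((Φ x : ℝ) : ℂ)) (f x) :=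
      funext fun x => congrArg (wb k) (D_map hf h (fun x => ((Φ x : ℝ) : ℂ)) x)
    rw [Lv, h2]
    exact congrArg (wz j) (D_map hf h _ y)
  simp only [Levi, h1]

theorem sm_of_map (hf : Continuous f) (h : ∀ y, cp (f y) = cp y + c) (hs : Function.Surjective f)
    {Φ : Y' → V} (hΦ : Sm fun x => Φ (f x)) : Sm Φ := by
  intro x
  obtain ⟨y, rfl⟩ := hs x
  have h1 : ContDiffAt ℝ (⊤ : ℕ∞) (fun z => (Φ ∘ (ch (f y)).symm) (z + c)) (cp y) :=
    (hΦ y).congr_of_eventuallyEq ((germ_map hf h y).mono fun z hz => congrArg Φ hz.symm)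
  have h2 : ContDiffAt ℝ (⊤ : ℕ∞) (fun z => (Φ ∘ (ch (f y)).symm) (z - c + c)) (cp y + c) :=
    ContDiffAt.comp (g := fun z => (Φ ∘ (ch (f y)).symm) (z + c)) (f := fun z => z - c) _
      (by simpa using h1) (by fun_prop)
  rw [h]
  simp only [sub_add_cancel] at h2
  exact h2

end Map

variable [T2Space Y]

theorem D_sh {V : Type*} [NormedAddCommGroup V] [NormedSpace ℝ V] (Φ : Y → V) (y : Y) :
    D Φ y = fderiv ℝ (fun w => Φ (sh y w)) 0 := by
  rw [D_eq (isCh_bch y) (mem_bch y)]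
  have := fderiv_comp_add_left (𝕜 := ℝ) (f := Φ ∘ (bch y).symm) (x := 0) (cp y)
  rw [add_zero] at this
  exact this.symm

theorem hol_sh {F : Y → ℂ} (hF : Hol F) (y : Y) :
    DifferentiableOn ℂ (fun w => F (sh y w)) (ball 0 (dl y)) :=
  (hF _ (isCh_bch y)).comp (f := fun w => cp y + w) (by fun_prop) fun w hw =>
    ball_bch y (add_mem_ball (by simpa using hw))

theorem hol_of_sh {F : Y → ℂ} (h : ∀ y, DifferentiableAt ℂ (fun w => F (sh y w)) 0) : Hol F := by
  intro e he z hz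
  set y := e.symm z with hy
  have h1 : cp y = z := he.cp_symm hz
  have h2 : DifferentiableAt ℂ (fun z' => F (sh y (z' - z))) z :=
    DifferentiableAt.comp (g := fun w => F (sh y w)) (f := fun z' => z' - z) z
      (by simpa using h y) (by fun_prop)
  refine (h2.congr_of_eventuallyEq ?_).differentiableWithinAt
  filter_upwards [(e.symm.continuousAt hz).eventually (eventually_eq_sh y),
    e.open_target.mem_nhds hz] with z' h3 h4
  rw [he.cp_symm h4, h1] at h3
  exact congrArg F h3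

theorem isCompact_sh {y : Y} {ρ : ℝ} (h : ρ < dl y) : IsCompact (sh y '' closedBall 0 ρ) :=
  (isCompact_closedBall _ _).image_of_continuousOn
    ((continuousOn_sh y).mono (closedBall_subset_ball h))

theorem isOpen_sh {y : Y} {ρ : ℝ} (h : ρ ≤ dl y) : IsOpen (sh y '' ball 0 ρ) := by
  have h1 := isOpen_image_section (σ := fun z => sh y (z - cp y)) (W := ball (cp y) ρ) isOpen_ball
    ((continuousOn_sh y).comp (by fun_prop) fun z hz => by
      simpa [dist_eq_norm] using (ball_subset_ball h hz))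
    (fun z hz => by
      rw [cp_sh (by simpa [dist_eq_norm] using (ball_subset_ball h hz)), add_sub_cancel])
  convert h1 using 1
  ext x
  constructor
  · rintro ⟨w, hw, rfl⟩
    exact ⟨cp y + w, add_mem_ball (by simpa using hw), by simp⟩
  · rintro ⟨z, hz, rfl⟩
    exact ⟨z - cp y, by simpa [dist_eq_norm] using hz, rfl⟩

/-! ### coordinates -/

/-- coordinate functions centred at `t` -/
def co (t : E q) (j : Fin q) (y : Y) : ℂ := cp y j - t j

theorem D_co (t : E q) (j : Fin q) (y : Y) (w : E q) : D (co t j) y w = w j := by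
  have h1 : HasFDerivAt (fun z : E q => z j - t j)
      (ContinuousLinearMap.proj (R := ℝ) (φ := fun _ : Fin q => ℂ) j) (cp y) :=
    ((ContinuousLinearMap.proj (R := ℝ) (φ := fun _ : Fin q => ℂ) j).hasFDerivAt).sub_const _
  have h2 := D_of_coord (g := fun z : E q => z j - t j) y
  rw [h1.fderiv] at h2
  exact congrArg (fun A => A w) h2

theorem hol_co (t : E q) (j : Fin q) : R271.W792.Hol (co t j : Y → ℂ) where
  sm := Sm.of_coord (g := fun z : E q => z j - t j) (by fun_prop)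
  cl x w := by rw [D_co, D_co]; rfl

theorem nS_co (t : E q) (y : Y) : nS (co t) y = nsq (cp y - t) := rfl

theorem nT_co (t : E q) (y : Y) (w : E q) : nT (co t) y w = nsq w := by
  simp only [nT, D_co]; rfl

/-- the Levi form stays positive near a point -/
theorem levi_near {Ψ : Y → ℝ} (hΨ : Sm Ψ) {y0 : Y} {c : ℝ} (hc : 0 < c)
    (hs : ∀ w, c * nsq w ≤ Levi Ψ y0 w) : ∀ᶠ y in 𝓝 y0, ∀ w, c / 2 * nsq w ≤ Levi Ψ y w := by
  have h1 : Continuous fun y => ∑ j, ∑ k, ‖Lv Ψ y j k - Lv Ψ y0 j k‖ := by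
    refine continuous_finsetSum _ fun j _ => continuous_finsetSum _ fun k _ => ?_
    exact (((hΨ.ofReal.db k).dz j).continuous.sub continuous_const).norm
  filter_upwards [h1.continuousAt.eventually (gt_mem_nhds (a := c / 2) (by simpa using hc))]
    with y hy w
  have h2 : Levi Ψ y0 w - Levi Ψ y w ≤ (∑ j, ∑ k, ‖Lv Ψ y j k - Lv Ψ y0 j k‖) * nsq w := by
    unfold Levi
    rw [← Complex.sub_re, ← Finset.sum_sub_distrib, Finset.sum_mul]
    refine (Complex.re_le_norm _).trans ((norm_sum_le _ _).trans (Finset.sum_le_sum fun j _ => ?_))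
    rw [← Finset.sum_sub_distrib, Finset.sum_mul]
    refine (norm_sum_le _ _).trans (Finset.sum_le_sum fun k _ => ?_)
    rw [← sub_mul, ← sub_mul, norm_mul, norm_mul, norm_sub_rev, RCLike.norm_conj, mul_assoc]
    refine mul_le_mul_of_nonneg_left ?_ (norm_nonneg _)
    have h3 : ∀ j, ‖w j‖ ^ 2 ≤ nsq w := fun j =>
      Finset.single_le_sum (f := fun j => ‖w j‖ ^ 2) (fun _ _ => by positivity) (Finset.mem_univ j)
    nlinarith [h3 j, h3 k, sq_nonneg (‖w j‖ - ‖w k‖)]
  nlinarith [hs w, nsq_nonneg w]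

include q in
theorem secondCountable_of_exh {ρ : Y → ℝ} (h : ∀ c, IsCompact {x | ρ x ≤ c}) :
    SecondCountableTopology Y := by
  have : SigmaCompactSpace Y := SigmaCompactSpace.of_countable
    (range fun n : ℕ => {x | ρ x ≤ n}) (countable_range _) (by rintro _ ⟨n, rfl⟩; exact h n)
    (eq_univ_of_forall fun x => by
      obtain ⟨n, hn⟩ := exists_nat_ge (ρ x)
      exact ⟨_, ⟨n, rfl⟩, hn⟩)
  let _ : ChartedSpace (E q) Y := ⟨range ch, ch, mem_ch, fun x => ⟨x, rfl⟩⟩
  exact ChartedSpace.secondCountable_of_sigmaCompact (E q) Y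

/-! ### the quotient -/

variable {G : Type} [Group G] [MulAction G Y] (P : PD q Y G)

theorem lam_one : P.lam 1 = 0 := by simpa using P.lam_mul 1 1

theorem lam_inv (g : G) : P.lam g⁻¹ = -P.lam g := by
  have h2 := P.lam_mul g⁻¹ g
  rw [inv_mul_cancel, lam_one] at h2
  exact eq_neg_of_add_eq_zero_left h2.symm

/-- orbits of the kernel of the periods -/
def st : Setoid Y where
  r y y' := ∃ g, P.lam g = 0 ∧ g • y = y'
  iseqv :=
    ⟨fun y => ⟨1, lam_one P, one_smul _ y⟩,
     by rintro y _ ⟨g, hg, rfl⟩; exact ⟨g⁻¹, by rw [lam_inv, hg, neg_zero], inv_smul_smul g y⟩,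
     by rintro y _ _ ⟨g, hg, rfl⟩ ⟨h, hh, rfl⟩
        exact ⟨h * g, by rw [P.lam_mul, hg, hh, add_zero], mul_smul h g y⟩⟩

/-- the quotient -/
def Q : Type := Quotient (st P)

instance : TopologicalSpace (Q P) := inferInstanceAs (TopologicalSpace (Quotient (st P)))

/-- the projection -/
def pr (y : Y) : Q P := Quotient.mk (st P) y

theorem pr_eq {y y' : Y} : pr P y = pr P y' ↔ ∃ g, P.lam g = 0 ∧ g • y = y' := Quotient.eq

theorem pr_smul {g : G} (hg : P.lam g = 0) (y : Y) : pr P (g • y) = pr P y :=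
  ((pr_eq P).2 ⟨g, hg, rfl⟩).symm

theorem pr_surj : Function.Surjective (pr P) := Quotient.mk_surjective

theorem pr_cont : Continuous (pr P) := continuous_quotient_mk'

theorem pr_open : IsOpenMap (pr P) := by
  intro U hU
  refine (isQuotientMap_quotient_mk' (s := st P)).isOpen_preimage.1 ?_
  have : pr P ⁻¹' (pr P '' U) = ⋃ g : {g : G // P.lam g = 0}, (fun y => g.1 • y) ⁻¹' U := by
    ext y
    simp only [mem_preimage, mem_image, mem_iUnion]
    constructor
    · rintro ⟨u, hu, h⟩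
      obtain ⟨g, hg, rfl⟩ := (pr_eq P).1 h.symm
      exact ⟨⟨g, hg⟩, hu⟩
    · rintro ⟨g, hg⟩
      exact ⟨_, hg, pr_smul P g.2 y⟩
  change IsOpen (pr P ⁻¹' (pr P '' U))
  rw [this]
  exact isOpen_iUnion fun g => hU.preimage (P.cont g.1)

/-- descent of invariant functions -/
def dn {α : Type*} (Φ : Y → α) (h : ∀ (g : G) y, P.lam g = 0 → Φ (g • y) = Φ y) : Q P → α :=
  Quotient.lift Φ (by rintro y _ ⟨g, hg, rfl⟩; exact (h g y hg).symm)

theorem cp_inv (g : G) (y : Y) (hg : P.lam g = 0) : cp (g • y) = cp y := by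
  rw [P.eqv, hg, add_zero]

theorem cont_dn_cp : Continuous (dn P cp (cp_inv P)) :=
  (cp_cont (M := Y)).quotient_lift _

instance : RDom q (Q P) where
  p := dn P cp (cp_inv P)
  hp := by
    intro x
    obtain ⟨y, rfl⟩ := pr_surj P x
    refine ⟨{ toFun := dn P cp (cp_inv P)
              invFun := fun z => pr P ((ch y).symm z)
              source := pr P '' (ch y).source
              target := (ch y).target
              map_source' := ?_
              map_target' := fun z hz => ⟨_, (ch y).map_target hz, rfl⟩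
              left_inv' := ?_
              right_inv' := fun z hz => (isCh_ch y).cp_symm hz
              open_source := pr_open P _ (ch y).open_source
              open_target := (ch y).open_target
              continuousOn_toFun := (cont_dn_cp P).continuousOn
              continuousOn_invFun := (pr_cont P).comp_continuousOn (ch y).symm.continuousOn },
      ⟨y, mem_ch y, rfl⟩, rfl⟩
    · rintro _ ⟨u, hu, rfl⟩
      exact (isCh_ch y).cp_mem hu
    · rintro _ ⟨u, hu, rfl⟩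
      exact congrArg (pr P) ((isCh_ch y).symm_cp hu)

theorem cp_pr (y : Y) : cp (pr P y) = cp y := rfl

theorem cp_pr' (y : Y) : cp (pr P y) = cp y + 0 := (add_zero _).symm

instance : T2Space (Q P) := by
  refine ⟨fun a b hab => ?_⟩
  obtain ⟨y, rfl⟩ := pr_surj P a
  obtain ⟨y', rfl⟩ := pr_surj P b
  by_cases h : cp y = cp y'
  swap
  · exact separated_by_continuous (cp_cont (M := Q P)) h
  have h0 := dl_pos y
  have h0' := dl_pos y'
  refine ⟨pr P '' (sh y '' ball 0 (dl y / 2)), pr P '' (sh y' '' ball 0 (dl y' / 2)),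
    pr_open P _ (isOpen_sh (by linarith)), pr_open P _ (isOpen_sh (by linarith)),
    ⟨y, ⟨0, mem_ball_self (by linarith), sh_zero y⟩, rfl⟩,
    ⟨y', ⟨0, mem_ball_self (by linarith), sh_zero y'⟩, rfl⟩, ?_⟩
  rw [Set.disjoint_left]
  rintro _ ⟨_, ⟨w, hw, rfl⟩, rfl⟩ ⟨_, ⟨w', hw', rfl⟩, h1⟩
  rw [mem_ball_zero_iff] at hw hw'
  obtain ⟨g, hg, h2⟩ := (pr_eq P).1 h1.symm
  have h3 : w = w' := by
    have h4 := congrArg cp h2
    rwa [cp_inv P _ _ hg, cp_sh (by linarith), cp_sh (by linarith), h, add_right_inj] at h4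
  subst h3
  rw [map_sh' (P.cont g) (P.eqv g) (by linarith)] at h2
  have h5 : sh (sh (g • y) w) (-w) = sh (sh y' w) (-w) := congrArg (fun x => sh x (-w)) h2
  rw [sh_sh_neg (by rw [(P.tr g).dl_eq]; linarith), sh_sh_neg (by linarith)] at h5
  exact hab ((pr_eq P).2 ⟨g, hg, h5⟩)

theorem dl_le_pr (y : Y) : dl y ≤ dl (pr P y) := dl_le_map (pr_cont P) (cp_pr' P) y

theorem pr_sh {y : Y} {w : E q} (h : ‖w‖ < dl y) : pr P (sh y w) = sh (pr P y) w :=
  map_sh' (pr_cont P) (cp_pr' P) h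

/-- compactness of the sublevel sets modulo the kernel -/
theorem exists_compact {d : ℝ} (hd : 0 < d) (R : ℝ) :
    ∃ C : Set (Q P), IsCompact C ∧ ∀ y : Y, d ≤ dl y → ‖cp y‖ ≤ R → pr P y ∈ C := by
  obtain ⟨T, hT, hTf, hcov⟩ := (isCompact_closedBall (0 : E q) R).elim_finite_subcover_image
    (b := P.D0ᶜ) (c := fun s => ball s (d / 4)) (fun _ _ => isOpen_ball) (fun t _ => by
      obtain ⟨s, h1, h2⟩ := Metric.dense_iff.1 P.sth.dense_compl t (d / 4) (by positivity)
      exact mem_iUnion₂.2 ⟨s, h2, mem_ball_comm.1 h1⟩)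
  choose! S hS hS' using P.fin
  refine ⟨⋃ s ∈ T, ⋃ x ∈ {x ∈ S s | d / 2 ≤ dl x}, pr P '' (sh x '' closedBall 0 (d / 4)),
    hTf.isCompact_biUnion fun s hs => ((hS s (hT hs)).subset (sep_subset _ _)).isCompact_biUnion
      fun x hx => (isCompact_sh (by linarith [hx.2])).image (pr_cont P), fun y hy hR => ?_⟩
  obtain ⟨s, hs, h1⟩ := mem_iUnion₂.1 (hcov (mem_closedBall_zero_iff.2 hR))
  rw [mem_ball, dist_eq_norm, norm_sub_rev] at h1
  have h2 : ‖s - cp y‖ < dl y := by linarith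
  obtain ⟨g, hg, h3⟩ := hS' s (hT hs) (sh y (s - cp y)) (by rw [cp_sh h2, add_sub_cancel])
  have h4 := dl_sh h2
  refine mem_iUnion₂.2 ⟨s, hs, mem_iUnion₂.2 ⟨_, ⟨h3, by rw [(P.tr g).dl_eq]; linarith⟩, _,
    ⟨-(s - cp y), by rw [mem_closedBall_zero_iff, norm_neg]; exact h1.le, rfl⟩, ?_⟩⟩
  rw [← map_sh' (P.cont g) (P.eqv g) (by rw [norm_neg]; linarith), pr_smul P hg,
    sh_sh_neg (by linarith)]

variable {Ψ : Y → ℝ} (hW : Wt Ψ)

/-- the weight on the quotient -/
def wq : Q P → ℝ := dn P Ψ fun g y _ => hW.inv _ (P.tr g) y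

theorem wq_pr (y : Y) : wq P hW (pr P y) = Ψ y := rfl

theorem sm_wq : Sm (wq P hW) := sm_of_map (pr_cont P) (cp_pr' P) (pr_surj P) hW.sm

theorem levi_wq (y : Y) (w : E q) : Levi (wq P hW) (pr P y) w = Levi Ψ y w :=
  (Levi_map (pr_cont P) (cp_pr' P) (wq P hW) y w).symm

include hW in
theorem exh (hp : ∀ y, psi y ≤ Ψ y) : ∃ ρ : Q P → ℝ, Sm ρ ∧ (∀ c, IsCompact {x | ρ x ≤ c}) ∧
    ∀ x w, nsq w ≤ Levi ρ x w := by
  have h1 : Sm (nS (co 0) : Q P → ℝ) := sm_nS fun j => (hol_co 0 j).sm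
  refine ⟨fun x => wq P hW x + nS (co 0) x, (sm_wq P hW).add h1, fun c => ?_, fun x w => ?_⟩
  · obtain ⟨C, hC, h⟩ := exists_compact P (Real.exp_pos (-c)) (c + 1)
    refine hC.of_isClosed_subset
      (isClosed_le ((sm_wq P hW).add h1).continuous continuous_const) fun x hx => ?_
    obtain ⟨y, rfl⟩ := pr_surj P x
    have h2 : Ψ y + nsq (cp y - 0) ≤ c := hx
    rw [sub_zero] at h2
    have h3 : ‖cp y‖ ^ 2 ≤ nsq (cp y) := by
      refine (sq_le_sq₀ (norm_nonneg _) (Real.sqrt_nonneg _)).2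
        ((pi_norm_le_iff_of_nonneg (Real.sqrt_nonneg _)).2 fun j => Real.le_sqrt_of_sq_le ?_)
        |>.trans (Real.sq_sqrt (nsq_nonneg _)).le
      exact Finset.single_le_sum (f := fun j => ‖cp y j‖ ^ 2) (fun _ _ => by positivity)
        (Finset.mem_univ j)
    refine h y (psi_le_iff.1 (by linarith [hp y, nsq_nonneg (cp y)])) ?_
    nlinarith [hW.nonneg y, sq_nonneg (‖cp y‖ - 1), sq_nonneg ‖cp y‖]
  · obtain ⟨y, rfl⟩ := pr_surj P x
    rw [Levi_add (sm_wq P hW) h1, levi_wq, Levi_eq_lev h1, lev_nS (hol_co 0), nT_co]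
    linarith [hW.lev y w]

end Crest.Agent.X261.Fib.Hr
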