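import Crest.Agent.X261.Fib.HrA
import Crest.Agent.R271.Engine_51
import Crest.Agent.R271.Montel_297

/-!
# X261 / FIB Hor (helper84), part B: Hörmander's theorem with poles along a separated family
-/

set_option autoImplicit false
set_option linter.unusedSectionVars false

noncomputable section

open Set Metric Filter Topology MeasureTheory ComplexConjugate
open scoped ENNReal

namespace Crest.Agent.X261.Fib.Hr

open Crest.Agent.R271.Ho51 Crest.Agent.R273.Reg_844 Crest.Agent.R276.NL_137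
open Crest.Agent.R271.W792 (lev dsq Levi_eq_lev nS nT nA lg sm_nS lev_nS sm_lg lev_comp
  lev_lg_nonneg dsq_nS nA_le)

variable {q : ℕ} {M : Type} [TopologicalSpace M] [RDom q M] [T2Space M]

/-- volume of the unit polydisc -/
def v1 (q : ℕ) : ℝ := (volume (closedBall (0 : E q) 1)).toReal

theorem v1_pos : 0 < v1 q :=
  ENNReal.toReal_pos (measure_closedBall_pos volume _ one_pos).ne' measure_closedBall_lt_top.ne

theorem vol_closedBall (z : E q) {ρ : ℝ} (h : 0 ≤ ρ) :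
    volume (closedBall z ρ) = ENNReal.ofReal (ρ ^ (2 * q) * v1 q) := by
  have h1 : Module.finrank ℝ (E q) = 2 * q := by
    rw [Module.finrank_pi_fintype]
    simp [Complex.finrank_real_complex, mul_comm]
  rw [Measure.addHaar_closedBall' volume z h, h1, ENNReal.ofReal_mul (by positivity), v1,
    ENNReal.ofReal_toReal measure_closedBall_lt_top.ne]

/-- sub-mean value inequality -/
theorem submean [MeasurableSpace M] [BorelSpace M] {μ : Measure M} (hμ : IsLeb μ) {y : M}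
    {ρ ρ' : ℝ} (h0 : 0 ≤ ρ) (hρ : ρ < ρ') (hρ' : ρ' ≤ dl y) {u : M → ℂ} (huc : Continuous u)
    (hu : DifferentiableOn ℂ (fun w => u (sh y w)) (ball 0 ρ')) {W : M → ℝ≥0∞} {c : ℝ}
    (hc : 0 ≤ c) {S : Set M} (hS : ∀ w, ‖w‖ ≤ ρ → sh y w ∈ S ∧
      ENNReal.ofReal (c * ‖u (sh y w)‖ ^ 2) ≤ W (sh y w)) :
    ENNReal.ofReal (ρ ^ (2 * q) * v1 q * (c * ‖u y‖ ^ 2)) ≤ ∫⁻ x in S, W x ∂μ := by
  set A := sh y '' closedBall 0 ρ with hA
  have hAm : MeasurableSet A := (isCompact_sh (hρ.trans_le hρ')).measurableSet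
  have hf : Measurable fun x => ENNReal.ofReal (c * ‖u x‖ ^ 2) :=
    ENNReal.measurable_ofReal.comp (by fun_prop : Continuous fun x => c * ‖u x‖ ^ 2).measurable
  have he : ∀ a : ℂ, ENNReal.ofReal (c * ‖a‖ ^ 2) = ENNReal.ofReal c * ‖a‖ₑ ^ 2 := fun a => by
    rw [ENNReal.ofReal_mul hc, ENNReal.ofReal_pow (norm_nonneg _), ofReal_norm]
  have h1 := R271.Montel297.volume_mul_enorm_sq_le (f := fun z => u (sh y (z - cp y)))
    (x := cp y) (r := ρ) (D := ball (cp y) ρ') isOpen_ball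
    (hu.comp (f := fun z => z - cp y) (by fun_prop) fun z hz => by simpa [dist_eq_norm] using hz)
    (closedBall_subset_ball hρ)
  simp only [sub_self, sh_zero] at h1
  calc ENNReal.ofReal (ρ ^ (2 * q) * v1 q * (c * ‖u y‖ ^ 2))
      = ENNReal.ofReal c * (volume (closedBall (cp y) ρ) * ‖u y‖ₑ ^ 2) := by
        rw [ENNReal.ofReal_mul (mul_nonneg (by positivity) v1_pos.le), he, vol_closedBall _ h0]
        ring
    _ ≤ ENNReal.ofReal c * ∫⁻ z in closedBall (cp y) ρ, ‖u (sh y (z - cp y))‖ₑ ^ 2 := by gcongr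
    _ = ∫⁻ z in closedBall (cp y) ρ,
          A.indicator (fun x => ENNReal.ofReal (c * ‖u x‖ ^ 2)) ((bch y).symm z) := by
        rw [← lintegral_const_mul' _ _ ENNReal.ofReal_ne_top]
        refine setLIntegral_congr_fun measurableSet_closedBall fun z hz => ?_
        have h2 : (bch y).symm z = sh y (z - cp y) := by rw [sh, add_sub_cancel]
        rw [h2, indicator_of_mem (show sh y (z - cp y) ∈ A from
          ⟨_, by simpa [dist_eq_norm] using hz, rfl⟩), he]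
    _ ≤ ∫⁻ z in (bch y).target,
          A.indicator (fun x => ENNReal.ofReal (c * ‖u x‖ ^ 2)) ((bch y).symm z) :=
        lintegral_mono_set ((closedBall_subset_ball (hρ.trans_le hρ')).trans (ball_bch y))
    _ = ∫⁻ x in (bch y).source, A.indicator (fun x => ENNReal.ofReal (c * ‖u x‖ ^ 2)) x ∂μ :=
        (lintegral_chart hμ (isCh_bch y) (hf.indicator hAm).aemeasurable).symm
    _ ≤ ∫⁻ x, A.indicator (fun x => ENNReal.ofReal (c * ‖u x‖ ^ 2)) x ∂μ :=
        lintegral_mono' Measure.restrict_le_self le_rfl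
    _ = ∫⁻ x in A, ENNReal.ofReal (c * ‖u x‖ ^ 2) ∂μ := lintegral_indicator hAm _
    _ ≤ ∫⁻ x in A, W x ∂μ := setLIntegral_mono' hAm (by
        rintro _ ⟨w, hw, rfl⟩
        exact (hS w (mem_closedBall_zero_iff.1 hw)).2)
    _ ≤ ∫⁻ x in S, W x ∂μ := lintegral_mono_set (by
        rintro _ ⟨w, hw, rfl⟩
        exact (hS w (mem_closedBall_zero_iff.1 hw)).1)

/-! ### separated families of sheets -/

variable {ι : Type}

/-- a separated family of sheets of radius `r` -/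
structure Shs (x : ι → M) (r : ℝ) : Prop where
  pos : 0 < r
  le : ∀ l, r ≤ dl (x l)
  sep : ∀ l l', l ≠ l' → 2 * r ≤ ‖cp (x l) - cp (x l')‖

open Classical in
/-- gluing of functions supported on the sheets -/
def gl {V : Type*} [Zero V] (x : ι → M) (r : ℝ) (p : ι → E q → V) (y : M) : V :=
  if h : ∃ l, y ∈ sh (x l) '' ball 0 r then p h.choose (cp y - cp (x h.choose)) else 0

variable {x : ι → M} {r : ℝ}

theorem Shs.cp_sub (h : Shs x r) (l : ι) {v : E q} (hv : ‖v‖ < r) :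
    cp (sh (x l) v) - cp (x l) = v := by
  rw [cp_sh (hv.trans_le (h.le l)), add_sub_cancel_left]

theorem Shs.eq_of_lt (h : Shs x r) {l l' : ι} {t : E q} (h1 : ‖t - cp (x l)‖ < r)
    (h2 : ‖t - cp (x l')‖ < r) : l = l' := by
  by_contra hne
  have h3 := h.sep l l' hne
  have h4 := norm_sub_le_norm_sub_add_norm_sub (cp (x l)) t (cp (x l'))
  rw [norm_sub_rev (cp (x l)) t] at h4
  linarith

theorem Shs.norm_lt (h : Shs x r) {l : ι} {y : M} (hy : y ∈ sh (x l) '' ball 0 r) :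
    ‖cp y - cp (x l)‖ < r := by
  obtain ⟨v, hv, rfl⟩ := hy
  rw [mem_ball_zero_iff] at hv
  rwa [h.cp_sub l hv]

theorem Shs.gl_of_mem (h : Shs x r) {V : Type*} [Zero V] (p : ι → E q → V) {l : ι} {y : M}
    (hy : y ∈ sh (x l) '' ball 0 r) : gl x r p y = p l (cp y - cp (x l)) := by
  have h1 : ∃ l, y ∈ sh (x l) '' ball 0 r := ⟨l, hy⟩
  rw [gl, dif_pos h1, h.eq_of_lt (h.norm_lt h1.choose_spec) (h.norm_lt hy)]

theorem Shs.gl_sh (h : Shs x r) {V : Type*} [Zero V] (p : ι → E q → V) (l : ι) {v : E q}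
    (hv : ‖v‖ < r) : gl x r p (sh (x l) v) = p l v := by
  rw [h.gl_of_mem p ⟨v, mem_ball_zero_iff.2 hv, rfl⟩, h.cp_sub l hv]

theorem Shs.gl_near (h : Shs x r) {V : Type*} [Zero V] (p : ι → E q → V) {l : ι} {y : M}
    (hy : y ∈ sh (x l) '' ball 0 r) : gl x r p =ᶠ[𝓝 y] fun y' => p l (cp y' - cp (x l)) := by
  filter_upwards [(isOpen_sh (h.le l)).mem_nhds hy] with y' hy'
  exact h.gl_of_mem p hy'

theorem Shs.gl_off (h : Shs x r) {V : Type*} [Zero V] {p : ι → E q → V}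
    (hp : ∀ l v, r / 2 ≤ ‖v‖ → p l v = 0) {y : M} (hy : ∀ l, y ∉ sh (x l) '' ball 0 r) :
    gl x r p =ᶠ[𝓝 y] fun _ => 0 := by
  have hr := h.pos
  have key : ∀ᶠ y' in 𝓝 y, ∀ l, y' ∈ sh (x l) '' ball 0 r → r / 2 ≤ ‖cp y' - cp (x l)‖ := by
    by_cases h1 : ∃ l, ‖cp y - cp (x l)‖ < r
    · obtain ⟨l, hl⟩ := h1
      have h2 : IsClosed (sh (x l) '' closedBall 0 (r / 2)) :=
        (isCompact_sh (by linarith [h.le l])).isClosed
      have h3 : y ∉ sh (x l) '' closedBall 0 (r / 2) := fun h3 =>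
        hy l (image_mono (closedBall_subset_ball (by linarith)) h3)
      have h4 : ∀ᶠ y' in 𝓝 y, ‖cp y' - cp (x l)‖ < r :=
        ((cp_cont (M := M)).sub continuous_const).norm.continuousAt.eventually (gt_mem_nhds hl)
      filter_upwards [h2.isOpen_compl.mem_nhds h3, h4] with y' h5 h6 l' h7
      obtain rfl := h.eq_of_lt h6 (h.norm_lt h7)
      obtain ⟨v, hv, rfl⟩ := h7
      rw [h.cp_sub l (mem_ball_zero_iff.1 hv)]
      by_contra h8
      exact h5 ⟨v, mem_closedBall_zero_iff.2 (not_le.1 h8).le, rfl⟩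
    · push Not at h1
      filter_upwards [eventually_norm_lt y (half_pos hr)] with y' h2 l _
      have h4 := norm_sub_le_norm_sub_add_norm_sub (cp y) (cp y') (cp (x l))
      rw [norm_sub_rev (cp y) (cp y')] at h4
      linarith [h1 l]
  filter_upwards [key] with y' hy'
  by_cases h1 : ∃ l, y' ∈ sh (x l) '' ball 0 r
  · obtain ⟨l, hl⟩ := h1
    rw [h.gl_of_mem p hl, hp l _ (hy' l hl)]
  · rw [gl, dif_neg h1]

theorem Shs.sm_gl (h : Shs x r) {V : Type*} [NormedAddCommGroup V] [NormedSpace ℝ V]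
    {p : ι → E q → V} (hp : ∀ l v, r / 2 ≤ ‖v‖ → p l v = 0)
    (hs : ∀ l, ContDiff ℝ (⊤ : ℕ∞) (p l)) : Sm (gl x r p) := by
  refine Sm.of_locally fun y => ?_
  by_cases h1 : ∃ l, y ∈ sh (x l) '' ball 0 r
  · obtain ⟨l, hl⟩ := h1
    exact ⟨_, Sm.of_coord (g := fun z => p l (z - cp (x l))) ((hs l).comp (by fun_prop)),
      h.gl_near p hl⟩
  · push Not at h1
    exact ⟨_, Sm.const 0, h.gl_off hp h1⟩

/-! ### the pole -/

/-- the truncated logarithmic pole -/
def pk (a ε : ℝ) (v : E q) : ℝ := -SM (a - Real.log (nsq v + ε))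

theorem pk_nonpos (a ε : ℝ) (v : E q) : pk a ε v ≤ 0 := neg_nonpos.2 (SM_nonneg _)

theorem pk_mono (a : ℝ) {ε ε' : ℝ} (h0 : 0 < ε) (h : ε ≤ ε') (v : E q) : pk a ε v ≤ pk a ε' v :=
  neg_le_neg (SM_mono (sub_le_sub_left
    (Real.log_le_log (by linarith [nsq_nonneg v]) (by linarith)) a))

theorem pk_zero {a ε : ℝ} (h0 : 0 < ε) {v : E q} (h : Real.exp (a + 1) ≤ ‖v‖ ^ 2) :
    pk a ε v = 0 := by
  have h1 := Real.log_le_log (Real.exp_pos _)
    (show Real.exp (a + 1) ≤ nsq v + ε by linarith [norm_sq_le_nsq v])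
  rw [Real.log_exp] at h1
  rw [pk, SM_zero (by linarith), neg_zero]

theorem pk_le {a ε s : ℝ} (h0 : 0 < ε) {v : E q} (h : nsq v + ε ≤ s) (hs : s ≤ Real.exp (a - 1)) :
    pk a ε v ≤ Real.log s - a := by
  have h1 : 0 < nsq v + ε := by linarith [nsq_nonneg v]
  have h2 := Real.log_le_log (h1.trans_le h) hs
  rw [Real.log_exp] at h2
  have h3 := Real.log_le_log h1 h
  rw [pk, SM_id (by linarith)]
  linarith

theorem contDiff_pk (a : ℝ) {ε : ℝ} (h0 : 0 < ε) : ContDiff ℝ (⊤ : ℕ∞) (pk a ε : E q → ℝ) := by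
  have h1 : ContDiff ℝ (⊤ : ℕ∞) (nsq : E q → ℝ) :=
    ContDiff.sum fun j _ => ContDiff.norm_sq ℂ (by fun_prop)
  exact (SM_contDiff.comp (contDiff_const.sub ((h1.add contDiff_const).log
    fun v => by linarith [nsq_nonneg v]))).neg

theorem exists_ss : ∃ C : ℝ, 0 ≤ C ∧ ∀ t, deriv ss t ≤ C ∧ (1 < t → deriv ss t = 0) := by
  have hc : Continuous (deriv ss) := ss_contDiff.continuous_deriv (by simp)
  obtain ⟨C, hC⟩ := (isCompact_Icc (a := (-1 : ℝ)) (b := 1)).bddAbove_image hc.continuousOn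
  have h1 : ∀ t, 1 < t → deriv ss t = 0 := fun t ht => by
    have : ss =ᶠ[𝓝 t] fun _ => 1 := (lt_mem_nhds ht).mono fun s hs => ss_one (le_of_lt hs)
    rw [this.deriv_eq, deriv_const]
  have h2 : ∀ t, t < -1 → deriv ss t = 0 := fun t ht => by
    have : ss =ᶠ[𝓝 t] fun _ => 0 := (gt_mem_nhds ht).mono fun s hs => ss_zero (le_of_lt hs)
    rw [this.deriv_eq, deriv_const]
  refine ⟨max C 0, le_max_right _ _, fun t => ⟨?_, h1 t⟩⟩
  by_cases h3 : 1 < t
  · rw [h1 t h3]; exact le_max_right _ _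
  by_cases h4 : t < -1
  · rw [h2 t h4]; exact le_max_right _ _
  exact (hC ⟨t, ⟨not_lt.1 h4, not_lt.1 h3⟩, rfl⟩).trans (le_max_left _ _)

theorem levi_pk (a : ℝ) : ∃ B : ℝ, 0 ≤ B ∧ ∀ ε : ℝ, 0 < ε → ∀ (t : E q) (y : M) (w : E q),
    -(B * nsq w) ≤ Levi (fun y' => pk a ε (cp y' - t)) y w := by
  obtain ⟨C, hC0, hC⟩ := exists_ss
  refine ⟨C * Real.exp (1 - a), by positivity, fun ε hε t y w => ?_⟩
  have hp : ∀ x : M, 0 < nS (co t) x + ε := fun x => by
    rw [nS_co]; linarith [nsq_nonneg (cp x - t)]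
  have hu : Sm (lg (co t) ε : M → ℝ) := sm_lg (fun j => (hol_co t j).sm) hp
  have h1 : Sm fun y' : M => pk a ε (cp y' - t) :=
    Sm.of_coord (g := fun z => pk a ε (z - t)) ((contDiff_pk a hε).comp (by fun_prop))
  have h2 : ∀ s, HasDerivAt (fun s => -SM (a - s)) (ss (a - s)) s := fun s =>
    (((SM_hasDerivAt (a - s)).comp s ((hasDerivAt_id s).const_sub a)).neg).congr_deriv (by ring)
  have h3 : ∀ s, HasDerivAt (fun s => ss (a - s)) (-deriv ss (a - s)) s := fun s =>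
    ((ss_contDiff.differentiable (by simp) (a - s)).hasDerivAt.comp s
      ((hasDerivAt_id s).const_sub a)).congr_deriv (by ring)
  have h4 := lev_comp hu y (Eventually.of_forall h2) (h3 _) w
    (Sm.comp (g := fun s => ss (a - s)) (ss_contDiff.comp (by fun_prop)) hu)
  rw [Levi_eq_lev h1]
  change _ ≤ lev (fun y' => -SM (a - lg (co t) ε y')) y w
  rw [h4]
  have h5 := mul_nonneg (ss_nonneg (a - lg (co t) ε y)) (lev_lg_nonneg (hol_co t) hε.le hp y w)
  have h6 : dsq (lg (co t) ε) y w ≤ nsq w / (nS (co t) y + ε) := by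
    have h7 : ∀ v, D (lg (co t) ε : M → ℝ) y v = (nS (co t) y + ε)⁻¹ * D (nS (co t)) y v :=
      fun v => D_comp_real (g := fun s => Real.log (s + ε)) (sm_nS fun j => (hol_co t j).sm) y
        (by simpa using ((hasDerivAt_id' (nS (co t) y)).add_const ε).log (hp y).ne') v
    have h8 : dsq (lg (co t) ε) y w = (nS (co t) y + ε)⁻¹ ^ 2 * dsq (nS (co t)) y w := by
      unfold dsq
      rw [h7, h7]; ring
    have h9 := nA_le (co t) y w
    rw [nT_co] at h9
    rw [h8, dsq_nS (hol_co t), le_div_iff₀ (hp y)]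
    have h10 := hp y
    have h11 : (nS (co t) y + ε)⁻¹ ^ 2 * ‖nA (co t) y w‖ ^ 2 * (nS (co t) y + ε) =
        ‖nA (co t) y w‖ ^ 2 / (nS (co t) y + ε) := by field_simp
    rw [h11, div_le_iff₀ h10]
    nlinarith [nsq_nonneg w]
  have h7 : deriv ss (a - lg (co t) ε y) * dsq (lg (co t) ε) y w ≤ C * Real.exp (1 - a) * nsq w := by
    by_cases h8 : 1 < a - lg (co t) ε y
    · rw [(hC _).2 h8, zero_mul]
      exact mul_nonneg (by positivity) (nsq_nonneg w)
    · have h9 : (nS (co t) y + ε)⁻¹ ≤ Real.exp (1 - a) := by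
        rw [← Real.exp_log (hp y), ← Real.exp_neg]
        exact Real.exp_le_exp.2 (by unfold lg at h8; linarith)
      rw [mul_assoc]
      refine mul_le_mul (hC _).1 (h6.trans ?_) (R271.W792.dsq_nonneg _ _ _) hC0
      rw [div_eq_inv_mul]
      exact mul_le_mul_of_nonneg_right h9 (nsq_nonneg w)
  linarith

theorem db_eq_zero {F : M → ℂ} {y : M} (h : DifferentiableAt ℂ (fun w => F (sh y w)) 0)
    (j : Fin q) : db j F y = 0 := by
  have e : (Pi.single j Complex.I : E q) = Complex.I • Pi.single j 1 := by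
    rw [← Pi.single_smul', smul_eq_mul, mul_one]
  rw [db, D_sh, h.hasFDerivAt.restrictScalars ℝ |>.fderiv, wb, e]
  simp only [ContinuousLinearMap.coe_restrictScalars', map_smul, smul_eq_mul]
  rw [← mul_assoc, Complex.I_mul_I]
  ring

/-- second order vanishing from the quartic bound -/
theorem jet_zero {u : E q → ℂ} {C ε0 : ℝ} (h0 : 0 < ε0)
    (h : ∀ ε ∈ Ioo 0 ε0, ∀ v, ‖v‖ ≤ ε → ‖u v‖ ^ 2 ≤ C * ε ^ 4) :
    u 0 = 0 ∧ HasFDerivAt u (0 : E q →L[ℂ] ℂ) 0 := by
  have h1 : ∀ ε ∈ Ioo 0 ε0, ∀ v, ‖v‖ ≤ ε → ‖u v‖ ≤ Real.sqrt C * ε ^ 2 := fun ε hε v hv => by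
    refine (Real.le_sqrt_of_sq_le (h ε hε v hv)).trans (le_of_eq ?_)
    rw [Real.sqrt_mul' _ (by positivity), show ε ^ 4 = (ε ^ 2) ^ 2 by ring,
      Real.sqrt_sq (by positivity)]
  have h2 : u 0 = 0 := by
    have h3 : Tendsto (fun ε : ℝ => Real.sqrt C * ε ^ 2) (𝓝[>] 0) (𝓝 0) := by
      refine Tendsto.mono_left ?_ nhdsWithin_le_nhds
      simpa using (by fun_prop : Continuous fun ε : ℝ => Real.sqrt C * ε ^ 2).tendsto 0
    refine norm_le_zero_iff.1 (ge_of_tendsto h3 ?_)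
    filter_upwards [Ioo_mem_nhdsGT h0] with ε hε
    exact h1 ε hε 0 (by simpa using hε.1.le)
  refine ⟨h2, ?_⟩
  rw [hasFDerivAt_iff_isLittleO_nhds_zero]
  refine Asymptotics.IsBigO.trans_isLittleO (g := fun v : E q => ‖v‖ ^ 2) ?_
    (Asymptotics.isLittleO_norm_pow_id one_lt_two)
  refine Asymptotics.IsBigO.of_bound (Real.sqrt C) ?_
  filter_upwards [ball_mem_nhds (0 : E q) h0] with v hv
  simp only [zero_add, h2, sub_zero, _root_.zero_apply, norm_pow, norm_norm]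
  rcases eq_or_ne v 0 with rfl | hv0
  · simp [h2]
  · exact h1 _ ⟨norm_pos_iff.2 hv0, mem_ball_zero_iff.1 hv⟩ v le_rfl

end Crest.Agent.X261.Fib.Hr
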