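import Crest.Agent.X261.Fib.HrB

/-!
# X261 / FIB Hor (helper84), part C: `L²` functions with prescribed `1`-jets along a separated
family of points
-/

set_option autoImplicit false
set_option linter.unusedSectionVars false

noncomputable section

open Set Metric Filter Topology MeasureTheory ComplexConjugate
open scoped ENNReal

namespace Crest.Agent.X261.Fib.Hr

open Crest.Agent.R271.Ho51 Crest.Agent.R273.Reg_844 Crest.Agent.R276.NL_137
open Crest.Agent.R271.W792 (nS sm_nS)

variable {q : ℕ} {M : Type} [TopologicalSpace M] [RDom q M] [T2Space M]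
  [SecondCountableTopology M] [MeasurableSpace M] [BorelSpace M] {ι : Type}

theorem enorm_add_le {a b e : ℝ} {u v : ℂ} (he : 0 ≤ e) (ha : ‖u - v‖ ^ 2 * e ≤ a)
    (hb : ‖v‖ ^ 2 * e ≤ b) :
    ENNReal.ofReal (‖u‖ ^ 2 * e) ≤ 2 * ENNReal.ofReal a + 2 * ENNReal.ofReal b := by
  have h1 := norm_add_sq_le (u - v) v
  rw [sub_add_cancel] at h1
  have ha0 : 0 ≤ a := le_trans (by positivity) ha
  have hb0 : 0 ≤ b := le_trans (by positivity) hb
  rw [← ENNReal.ofReal_ofNat 2, ← ENNReal.ofReal_mul (by norm_num),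
    ← ENNReal.ofReal_mul (by norm_num), ← ENNReal.ofReal_add (by positivity) (by positivity)]
  exact ENNReal.ofReal_le_ofReal (by nlinarith)

theorem solve {μ : Measure M} (hμ : IsLeb μ) {ρ : M → ℝ} (hρ : Sm ρ)
    (hρc : ∀ c, IsCompact {x | ρ x ≤ c}) (hρl : ∀ x w, nsq w ≤ Levi ρ x w) {Ψ : M → ℝ}
    (hΨ : Sm Ψ) (hΨ0 : ∀ y, 0 ≤ Ψ y) (hΨl : ∀ y w, 0 ≤ Levi Ψ y w) {x : ι → M} {r : ℝ}
    (h : Shs x r) {c : ℝ} (hc : 0 < c)
    (hs : ∀ l v, ‖v‖ < r → ∀ w, c * nsq w ≤ Levi Ψ (sh (x l) v) w) (l0 : ι) {f : ι → E q → ℂ}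
    (hf : ∀ l, ContDiff ℂ (⊤ : ℕ∞) (f l)) (hf0 : ∀ l, l ≠ l0 → ∀ v, f l v = 0) :
    ∃ (m : ℝ) (F : M → ℂ), 0 ≤ m ∧ Hol F ∧
      ∫⁻ y, ENNReal.ofReal (‖F y‖ ^ 2 * Real.exp (-(m * Ψ y))) ∂μ ≠ ⊤ ∧
      ∀ l, F (x l) = f l 0 ∧ HasFDerivAt (fun v => F (sh (x l) v)) (fderiv ℂ (f l) 0) 0 := by
  have hr := h.pos
  have := hμ.locallyFinite
  set a : ℝ := Real.log ((r / 4) ^ 2) - 1 with ha
  have ha1 : Real.exp (a + 1) = (r / 4) ^ 2 := by
    rw [ha, sub_add_cancel, Real.exp_log (by positivity)]
  obtain ⟨B, hB0, hB⟩ := levi_pk (M := M) a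
  set A : ℝ := (q : ℝ) + 2 with hA
  have hA0 : 0 ≤ A := by positivity
  set m : ℝ := (A * B + 1) / c with hm
  have hm0 : 0 ≤ m := by positivity
  have hmc : m * c = A * B + 1 := by rw [hm]; field_simp
  set ε : ℕ → ℝ := fun k => 1 / ((k : ℝ) + 1) with hε
  have hε0 : ∀ k, 0 < ε k := fun k => by positivity
  set P : ℕ → M → ℝ := fun k => gl x r fun _ v => pk a (ε k) v with hP
  have hPz : ∀ k (v : E q), r / 4 ≤ ‖v‖ → pk a (ε k) v = 0 := fun k v hv =>
    pk_zero (hε0 k) (by rw [ha1]; gcongr)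
  have hPz' : ∀ k (_ : ι) (v : E q), r / 2 ≤ ‖v‖ → pk a (ε k) v = 0 := fun k _ v hv =>
    hPz k v (by linarith)
  have hPs : ∀ k, Sm (P k) := fun k => h.sm_gl (hPz' k) fun _ => contDiff_pk a (hε0 k)
  have hP0 : ∀ k y, P k y ≤ 0 := fun k y => by
    simp only [hP, gl]
    split_ifs
    · exact pk_nonpos _ _ _
    · exact le_rfl
  set φ : ℕ → M → ℝ := fun k y => m * Ψ y + A * P k y with hφ
  have hφ1 : Sm fun y => m * Ψ y := (Sm.const m).mulR hΨ
  have hφ2 : ∀ k, Sm fun y => A * P k y := fun k => (Sm.const A).mulR (hPs k)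
  have hφl : ∀ k y w, Levi (φ k) y w = m * Levi Ψ y w + A * Levi (P k) y w := fun k y w => by
    rw [hφ]
    simp only
    rw [Levi_add hφ1 (hφ2 k), Levi_const_mul hΨ, Levi_const_mul (hPs k)]
  have hin : ∀ k l, ∀ y ∈ sh (x l) '' ball 0 r, ∀ w, nsq w ≤ Levi (φ k) y w := by
    intro k l y hy w
    rw [hφl, Levi_congr (h.gl_near _ hy)]
    obtain ⟨v, hv, rfl⟩ := hy
    have h1 := mul_le_mul_of_nonneg_left (hs l v (mem_ball_zero_iff.1 hv) w) hm0
    have h2 := mul_le_mul_of_nonneg_left (hB _ (hε0 k) (cp (x l)) (sh (x l) v) w) hA0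
    rw [← mul_assoc, hmc] at h1
    linarith
  have hlev : ∀ k y w, 0 ≤ Levi (φ k) y w := fun k y w => by
    by_cases h1 : ∃ l, y ∈ sh (x l) '' ball 0 r
    · obtain ⟨l, hl⟩ := h1
      exact (nsq_nonneg w).trans (hin k l y hl w)
    · push Not at h1
      rw [hφl, Levi_congr (h.gl_off (hPz' k) h1), Levi_const, mul_zero, add_zero]
      exact mul_nonneg hm0 (hΨl y w)
  let χ : ContDiffBump (0 : E q) := ⟨r / 4, r / 2, by positivity, by linarith⟩
  set g : ι → E q → ℂ := fun l v => (χ v : ℂ) * f l v with hg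
  have hgz : ∀ l v, r / 2 ≤ ‖v‖ → g l v = 0 := fun l v hv => by
    simp only [hg]
    rw [χ.zero_of_le_dist (by simpa using hv)]
    simp
  have hg1 : ∀ l v, ‖v‖ < r / 4 → gl x r g (sh (x l) v) = f l v := fun l v hv => by
    rw [h.gl_sh g l (by linarith)]
    simp only [hg]
    rw [χ.one_of_mem_closedBall (by simpa using hv.le)]
    simp
  have hGs : Sm (gl x r g) := h.sm_gl hgz fun l =>
    (Complex.ofRealCLM.contDiff.comp χ.contDiff).mul ((hf l).restrict_scalars ℝ)
  have hGc : HasCompactSupport (gl x r g) := by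
    refine HasCompactSupport.intro (isCompact_sh (y := x l0) (ρ := r / 2)
      (by linarith [h.le l0])) fun y hy => ?_
    by_cases h1 : ∃ l, y ∈ sh (x l) '' ball 0 r
    · obtain ⟨l, v, hv, rfl⟩ := h1
      rw [h.gl_sh g l (mem_ball_zero_iff.1 hv)]
      by_cases h2 : l = l0
      · subst h2
        refine hgz _ _ (not_lt.1 fun h3 => hy ⟨v, mem_closedBall_zero_iff.2 h3.le, rfl⟩)
      · simp only [hg]
        rw [hf0 l h2, mul_zero]
    · rw [gl, dif_neg h1]
  have hfd : ∀ l, Differentiable ℂ (f l) := fun l => (hf l).differentiable (by simp)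
  -- `G` is holomorphic near the centres
  have hGh : ∀ l v, ‖v‖ < r / 4 → ∀ w, ‖w‖ < r / 4 - ‖v‖ →
      gl x r g (sh (sh (x l) v) w) = f l (v + w) := fun l v hv w hw => by
    rw [sh_sh (by linarith [h.le l]), hg1 l _ (by linarith [norm_add_le v w])]
  set kap : M → ℝ := nS fun j => db j (gl x r g) with hkap
  have hkap0 : ∀ y, 0 ≤ kap y := fun y => R271.W792.nS_nonneg _ y
  have hkc : HasCompactSupport kap := by
    refine HasCompactSupport.intro' (K := tsupport (D (gl x r g))) (hasCompactSupport_D hGc)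
      (isClosed_tsupport _) fun y hy => ?_
    simp [hkap, nS, db, image_eq_zero_of_notMem_tsupport hy, wb]
  have hoff : ∀ y, (∀ l, y ∉ sh (x l) '' ball 0 r) → ∀ j, db j (gl x r g) y = 0 := fun y hy j => by
    rw [db_congr (h.gl_off hgz hy), db_const]
  obtain ⟨F, hF, hI⟩ := engineP q M μ hμ ρ hρ hρc hρl φ (fun k => hφ1.add (hφ2 k))
    (fun y k k' hk => by
      refine add_le_add le_rfl (mul_le_mul_of_nonneg_left ?_ hA0)
      simp only [hP, gl]
      split_ifs
      · exact pk_mono a (hε0 k') (Nat.one_div_le_one_div hk) _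
      · exact le_rfl) hlev (gl x r g) hGs (fun _ => kap)
    (fun k y w => by
      by_cases h1 : ∃ l, y ∈ sh (x l) '' ball 0 r
      · obtain ⟨l, hl⟩ := h1
        refine (norm_sum_mul_sq_le _ _).trans ?_
        rw [nsq_conj]
        exact mul_le_mul_of_nonneg_left (hin k l y hl w) (hkap0 y)
      · push Not at h1
        simp only [hoff y h1, zero_mul, Finset.sum_const_zero, norm_zero]
        simpa using mul_nonneg (hkap0 y) (hlev k y w))
    (∫⁻ y, ENNReal.ofReal (kap y) ∂μ) (fun k => lintegral_mono fun y => by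
      refine ENNReal.ofReal_le_ofReal ?_
      by_cases h1 : P k y = 0
      · refine mul_le_of_le_one_right (hkap0 y) (Real.exp_le_one_iff.2 ?_)
        simp only [hφ, h1, mul_zero, add_zero, neg_nonpos]
        exact mul_nonneg hm0 (hΨ0 y)
      have h2 : kap y = 0 := by
        by_cases h3 : ∃ l, y ∈ sh (x l) '' ball 0 r
        · obtain ⟨l, v, hv, rfl⟩ := h3
          have h4 : ‖v‖ < r / 4 := not_le.1 fun h4 => h1 (by
            simp only [hP]
            rw [h.gl_sh _ l (mem_ball_zero_iff.1 hv), hPz k v h4])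
          have h5 : DifferentiableAt ℂ (fun w => gl x r g (sh (sh (x l) v) w)) 0 := by
            refine (((hfd l).comp (differentiable_id.const_add v)) 0).congr_of_eventuallyEq ?_
            filter_upwards [ball_mem_nhds (0 : E q) (sub_pos.2 h4)] with w hw
            exact hGh l v h4 w (mem_ball_zero_iff.1 hw)
          simp [hkap, nS, db_eq_zero h5]
        · exact (h1 (by simp only [hP, gl]; rw [dif_neg h3])).elim
      rw [h2, zero_mul])
  have hK : 2 * ∫⁻ y, ENNReal.ofReal (kap y) ∂μ ≠ ⊤ :=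
    ENNReal.mul_ne_top (by simp) (((sm_nS fun j => hGs.db j).integrable hμ hkc).lintegral_lt_top).ne
  have hFc : Continuous F := continuous_iff_continuousAt.2 fun y => by
    have h1 : ContinuousAt (fun w => F (sh y w)) (cp y - cp y) := by
      rw [sub_self]
      exact (hol_sh hF y).continuousOn.continuousAt (ball_mem_nhds _ (dl_pos y))
    refine (ContinuousAt.comp (f := fun y' => cp y' - cp y) h1
      ((cp_cont (M := M)).sub continuous_const).continuousAt).congr ?_
    filter_upwards [eventually_eq_sh y] with y' hy'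
    exact (congrArg F hy').symm
  have hW : ∀ k y {s : ℝ} {u : ℂ}, s ≤ Real.exp (-φ k y) → ENNReal.ofReal (s * ‖u‖ ^ 2) ≤
      ENNReal.ofReal (‖u‖ ^ 2) * ⨆ k, ENNReal.ofReal (Real.exp (-φ k y)) := by
    intro k y s u hs
    refine le_trans ?_ (mul_le_mul' le_rfl (le_iSup _ k))
    rw [← ENNReal.ofReal_mul (by positivity), mul_comm]
    exact ENNReal.ofReal_le_ofReal (mul_le_mul_of_nonneg_left hs (by positivity))
  refine ⟨m, F, hm0, hF, ?_, fun l => ?_⟩
  · have h1 : ∫⁻ y, ENNReal.ofReal (‖gl x r g y‖ ^ 2) ∂μ ≠ ⊤ :=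
      ((R271.W792.Hol.sm_normSq hGs).integrable hμ
        (hGc.comp_left (g := fun z : ℂ => ‖z‖ ^ 2) (by simp))).lintegral_lt_top.ne
    have h2 : Measurable fun y => 2 * ENNReal.ofReal (‖gl x r g y‖ ^ 2) :=
      (ENNReal.measurable_ofReal.comp
        (R271.W792.Hol.sm_normSq hGs).continuous.measurable).const_mul 2
    refine ne_top_of_le_ne_top ?_ (lintegral_mono (g := fun y =>
      2 * (ENNReal.ofReal (‖F y - gl x r g y‖ ^ 2) * ⨆ k, ENNReal.ofReal (Real.exp (-φ k y))) +
        2 * ENNReal.ofReal (‖gl x r g y‖ ^ 2)) fun y => ?_)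
    · rw [lintegral_add_right _ h2, lintegral_const_mul' _ _ (by simp),
        lintegral_const_mul' _ _ (by simp)]
      exact ENNReal.add_ne_top.2 ⟨ENNReal.mul_ne_top (by simp) (ne_top_of_le_ne_top hK hI),
        ENNReal.mul_ne_top (by simp) h1⟩
    · refine (enorm_add_le (v := gl x r g y) (Real.exp_pos _).le (mul_comm _ _).le
        (mul_le_of_le_one_right (by positivity) (Real.exp_le_one_iff.2
          (neg_nonpos.2 (mul_nonneg hm0 (hΨ0 y)))))).trans ?_
      refine add_le_add (mul_le_mul' le_rfl (hW 0 y (Real.exp_le_exp.2 ?_))) le_rfl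
      simp only [hφ]
      linarith [mul_nonneg hA0 (neg_nonneg.2 (hP0 0 y))]
  · obtain ⟨B', hB'⟩ := (isCompact_sh (y := x l) (ρ := r / 4)
      (by linarith [h.le l])).bddAbove_image hΨ.continuous.continuousOn
    have hq : (0 : ℝ) < 4 * q + 1 := by positivity
    set c1 : ℝ := Real.exp (A * a - m * B') / (4 * q + 1) ^ (q + 2) with hc1
    have hc10 : 0 < c1 := by positivity
    have hv1 := v1_pos (q := q)
    have key := jet_zero (u := fun v => F (sh (x l) v) - gl x r g (sh (x l) v))
      (C := (2 * ∫⁻ y, ENNReal.ofReal (kap y) ∂μ).toReal / (v1 q * c1))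
      (ε0 := min (r / 16) (min 1 (Real.exp (a - 1) / (4 * q + 1)))) (by positivity)
      (fun e he v hv => by
        have he0 := he.1
        have he1 : e < r / 16 := he.2.trans_le (min_le_left _ _)
        have he2 : e < 1 := he.2.trans_le ((min_le_right _ _).trans (min_le_left _ _))
        have he3 : e * (4 * q + 1) < Real.exp (a - 1) :=
          (lt_div_iff₀ hq).1 (he.2.trans_le ((min_le_right _ _).trans (min_le_right _ _)))
        obtain ⟨k, hk⟩ := exists_nat_one_div_lt (K := ℝ) (ε := e ^ 2) (by positivity)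
        have hdl := dl_sh (y := x l) (w := v) (by linarith [h.le l])
        have h1 := submean hμ (y := sh (x l) v) (ρ := e) (ρ' := 2 * e) he0.le (by linarith)
          (by linarith [h.le l]) (u := fun y => F y - gl x r g y) (hFc.sub hGs.continuous)
          (((hol_sh hF _).mono (ball_subset_ball (by linarith [h.le l]))).sub
            (((hfd l).comp (differentiable_id.const_add v)).differentiableOn.congr
              fun w hw => hGh l v (by linarith) w (by linarith [mem_ball_zero_iff.1 hw])))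
          (W := fun y => ENNReal.ofReal (‖F y - gl x r g y‖ ^ 2) *
            ⨆ k, ENNReal.ofReal (Real.exp (-φ k y))) (c := c1 / (e ^ 2) ^ (q + 2)) (S := univ)
          (by positivity) fun w hw => ⟨mem_univ _, hW k _ (by
            have h2 : ‖v + w‖ ≤ 2 * e := by linarith [norm_add_le v w]
            rw [sh_sh (by linarith [h.le l])]
            have h3 : Ψ (sh (x l) (v + w)) ≤ B' :=
              hB' ⟨_, ⟨_, mem_closedBall_zero_iff.2 (by linarith), rfl⟩, rfl⟩
            have h4 : P k (sh (x l) (v + w)) ≤ Real.log ((4 * q + 1) * e ^ 2) - a := by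
              simp only [hP]
              rw [h.gl_sh _ l (by linarith)]
              refine pk_le (hε0 k) ?_ (by
                have h8 := mul_le_mul_of_nonneg_left he2.le (mul_pos he0 hq).le
                linarith)
              have h5 : ‖v + w‖ ^ 2 ≤ (2 * e) ^ 2 := by gcongr
              have h6 := mul_le_mul_of_nonneg_left h5 (Nat.cast_nonneg (α := ℝ) q)
              have h7 : ε k < e ^ 2 := hk
              linarith [nsq_le_norm_sq (v + w)]
            have h5 : c1 / (e ^ 2) ^ (q + 2) =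
                Real.exp (A * a - m * B' - A * Real.log ((4 * q + 1) * e ^ 2)) := by
              rw [Real.exp_sub (A * a - m * B'), hc1, div_div, ← mul_pow]
              congr 1
              rw [hA, show (q : ℝ) + 2 = ((q + 2 : ℕ) : ℝ) by push_cast; ring, Real.exp_nat_mul,
                Real.exp_log (by positivity)]
            rw [h5, Real.exp_le_exp]
            simp only [hφ]
            nlinarith [mul_le_mul_of_nonneg_left h3 hm0, mul_le_mul_of_nonneg_left h4 hA0])⟩
        rw [Measure.restrict_univ] at h1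
        have h2 := (ENNReal.ofReal_le_iff_le_toReal hK).1 (h1.trans hI)
        rw [div_mul_eq_mul_div, le_div_iff₀ (by positivity)]
        have h3 : e ^ (2 * q) * v1 q * (c1 / (e ^ 2) ^ (q + 2) *
            ‖F (sh (x l) v) - gl x r g (sh (x l) v)‖ ^ 2) * e ^ 4 =
            ‖F (sh (x l) v) - gl x r g (sh (x l) v)‖ ^ 2 * (v1 q * c1) := by
          field_simp
          ring
        rw [← h3]
        exact mul_le_mul_of_nonneg_right h2 (by positivity))
    have h1 := hg1 l 0 (by simpa using hr)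
    refine ⟨?_, ?_⟩
    · have h2 := key.1
      simp only [h1] at h2
      rw [sh_zero] at h2
      exact sub_eq_zero.1 h2
    · have h2 := key.2.add (hfd l 0).hasFDerivAt
      rw [zero_add] at h2
      refine h2.congr_of_eventuallyEq ?_
      filter_upwards [ball_mem_nhds (0 : E q) (show 0 < r / 4 by positivity)] with v hv
      simp only [Pi.add_apply]
      rw [hg1 l v (mem_ball_zero_iff.1 hv), sub_add_cancel]

end Crest.Agent.X261.Fib.Hr
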