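import Crest.Agent.X261.Fib.Et

/-!
# X261 / FIB (helper16), file Om: the envelope of a system

`Sys.exists_env` : a connected pseudoconvex Riemann domain `Y` with a `G`-action and an equivariant
map `π : U → Y` over `a`, through which all functions in `HF` factor.
-/

set_option autoImplicit false
set_option linter.unusedSectionVars false

noncomputable section

open Set Metric Filter Topology

namespace Crest.Agent.X261.Fib

open Crest.Agent.R271.Ho51 Crest.Agent.R273.Reg_844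
open Crest.Agent.R266.SCV (analyticOnNhd_of_differentiableOn)

variable {q : ℕ} {M : Type} [TopologicalSpace M] {G : Type} [Group G] [MulAction G M]

/-- the envelope -/
structure Env (S : Sys q M G) (Y : Type) [TopologicalSpace Y] [RDom q Y] [T2Space Y]
    [MulAction G Y] where
  π : M → Y
  cont : ContinuousOn π S.U
  cp_eq : ∀ x ∈ S.U, cp (π x) = S.a x
  gcont : ∀ g : G, Continuous fun y : Y => g • y
  geqv : ∀ (g : G) (y : Y), cp (g • y) = S.L g (cp y) + S.lam g
  smul : ∀ (g : G), ∀ x ∈ S.U, π (g • x) = g • π x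
  psh : PSH (psi : Y → ℝ)
  val : ∀ h, S.HF h → ∃ F : Y → ℂ, ∀ x ∈ S.U, h x = F (π x)

namespace Sys

variable (S : Sys q M G)

/-- local sections of `a` with values in `U` -/
structure Sc (τ : E q → M) (W : Set (E q)) : Prop where
  op : IsOpen W
  cont : ContinuousOn τ W
  mem : ∀ t ∈ W, τ t ∈ S.U
  eq : ∀ t ∈ W, S.a (τ t) = t

open Classical in
/-- the chosen section through `x` -/
def σ (x : M) : E q → M := if h : x ∈ S.U then (S.sec x h).2.choose else fun _ => x

variable {S}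

theorem rho_pos {x : M} (hx : x ∈ S.U) : 0 < S.rho x := (S.sec x hx).1

theorem mem_ball_rho {x : M} (hx : x ∈ S.U) : S.a x ∈ ball (S.a x) (S.rho x) :=
  mem_ball_self (rho_pos hx)

theorem sc_σ {x : M} (hx : x ∈ S.U) : S.Sc (S.σ x) (ball (S.a x) (S.rho x)) := by
  obtain ⟨h1, -, h3⟩ := (S.sec x hx).2.choose_spec
  unfold σ
  rw [dif_pos hx]
  exact ⟨isOpen_ball, h1, fun t ht => (h3 t ht).1, fun t ht => (h3 t ht).2⟩

theorem σ_a {x : M} (hx : x ∈ S.U) : S.σ x (S.a x) = x := by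
  unfold σ
  rw [dif_pos hx]
  exact (S.sec x hx).2.choose_spec.2.1

theorem Sc.germ {τ : E q → M} {W : Set (E q)} (hτ : S.Sc τ W) {t : E q} (ht : t ∈ W) {h : M → ℂ}
    {F : E q → ℂ} (hF : ∀ᶠ y in 𝓝 (τ t), h y = F (S.a y)) : (fun s => h (τ s)) =ᶠ[𝓝 t] F := by
  filter_upwards [(hτ.cont.continuousAt (hτ.op.mem_nhds ht)).eventually hF, hτ.op.mem_nhds ht]
    with s h1 h2
  rw [h1, hτ.eq s h2]

theorem germ_σ {x : M} (hx : x ∈ S.U) {h : M → ℂ} {F : E q → ℂ}
    (hF : ∀ᶠ y in 𝓝 x, h y = F (S.a y)) : (fun s => h (S.σ x s)) =ᶠ[𝓝 (S.a x)] F :=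
  (sc_σ hx).germ (mem_ball_rho hx) (by rwa [σ_a hx])

theorem Sc.diff {τ : E q → M} {W : Set (E q)} (hτ : S.Sc τ W) {h : M → ℂ} (hh : S.HF h) :
    DifferentiableOn ℂ (fun s => h (τ s)) W := by
  intro t ht
  obtain ⟨F, hF, h1⟩ := hh _ (hτ.mem t ht)
  rw [hτ.eq t ht] at hF
  exact (hF.differentiableAt.congr_of_eventuallyEq (hτ.germ ht h1)).differentiableWithinAt

/-- identity principle -/
theorem zero_of_closure {x : M} (hx : x ∈ S.U) {h : M → ℂ} {F : E q → ℂ} (hF : S.Fac h x F)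
    (hc : x ∈ closure {y | ∀ᶠ z in 𝓝 y, h z = 0}) : ∀ᶠ z in 𝓝 x, h z = 0 := by
  obtain ⟨r, hr, hb⟩ := Metric.eventually_nhds_iff_ball.1 hF.1.eventually_analyticAt
  have h1 : ∀ᶠ y in 𝓝 x, S.a y ∈ ball (S.a x) r :=
    S.cont_a.continuousAt.eventually (ball_mem_nhds _ hr)
  obtain ⟨y, h2, h3, h4, h5⟩ := ((mem_closure_iff_frequently.1 hc).and_eventually
    (h1.and ((eventually_eventually_nhds.2 hF.2).and (S.op.mem_nhds hx)))).exists
  have h6 : F =ᶠ[𝓝 (S.a y)] 0 := (germ_σ h5 h4).symm.trans (germ_σ (F := 0) h5 h2)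
  have h7 : EqOn F 0 (ball (S.a x) r) :=
    AnalyticOnNhd.eqOn_zero_of_preconnected_of_eventuallyEq_zero hb
      (convex_ball _ _).isPreconnected h3 h6
  filter_upwards [h1, hF.2] with z h8 h9
  rw [h9, h7 h8, Pi.zero_apply]

/-- all functions in `HF` factor on a common neighbourhood -/
theorem unif_loc [LocallyConnectedSpace M] {x : M} (hx : x ∈ S.U) :
    ∀ᶠ y in 𝓝 x, ∀ h, S.HF h → ∀ᶠ z in 𝓝 y, h z = h (S.σ x (S.a z)) := by
  have hN : IsOpen (S.U ∩ S.a ⁻¹' ball (S.a x) (S.rho x)) :=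
    S.op.inter (isOpen_ball.preimage S.cont_a)
  have hxN : x ∈ S.U ∩ S.a ⁻¹' ball (S.a x) (S.rho x) := ⟨hx, mem_ball_rho hx⟩
  filter_upwards [connectedComponentIn_mem_nhds (hN.mem_nhds hxN)] with y hy h hh
  have h1 := (isPreconnected_connectedComponentIn (F := S.U ∩ S.a ⁻¹' ball (S.a x) (S.rho x))
    (x := x)).subset_of_closure_inter_subset
    (u := {y | ∀ᶠ z in 𝓝 y, h z - h (S.σ x (S.a z)) = 0}) isOpen_setOf_eventually_nhds
    ⟨x, mem_connectedComponentIn hxN, by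
      obtain ⟨F, -, h2⟩ := hh x hx
      filter_upwards [h2, S.cont_a.continuousAt.eventually (germ_σ hx h2)] with z h3 h4
      rw [h3, h4, sub_self]⟩
    (by
      rintro y ⟨h2, h3⟩
      obtain ⟨h4, h5⟩ := connectedComponentIn_subset _ _ h3
      obtain ⟨F, hF, h6⟩ := hh y h4
      refine zero_of_closure h4 (F := fun t => F t - h (S.σ x t)) ⟨hF.sub
        (analyticOnNhd_of_differentiableOn isOpen_ball ((sc_σ hx).diff hh) _ h5), ?_⟩ h2
      filter_upwards [h6] with z hz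
      rw [hz])
  filter_upwards [h1 hy] with z hz
  exact sub_eq_zero.1 hz

variable (S)

/-- the index set -/
abbrev Ix : Type := {h : M → ℂ // S.HF h}

/-- the family of all functions along a section -/
def fam (τ : E q → M) : S.Ix → E q → ℂ := fun i t => i.1 (τ t)

/-- the map to the étale space -/
def pi (x : M) : Et q S.Ix := Et.sec (S.fam (S.σ x)) (S.a x)

/-- the action on the indices -/
def tau (g : G) (i : S.Ix) : S.Ix :=
  ⟨fun x => i.1 (g • x), fun x hx => by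
    obtain ⟨F, hF, h1⟩ := i.2 _ (S.inv g x hx)
    refine ⟨fun t => F (S.L g t + S.lam g), AnalyticAt.comp (g := F) (by rwa [← S.eqv])
      (((S.L g : E q →L[ℂ] E q).analyticAt _).add analyticAt_const), ?_⟩
    filter_upwards [(S.cont g).continuousAt.eventually h1] with y hy
    rw [hy, S.eqv]⟩

/-- the action on the étale space -/
def act (g : G) : Et q S.Ix → Et q S.Ix := Et.map (S.L g) (S.lam g) (S.tau g)

theorem aff_ext {f f' : E q → E q} (hf : AnalyticOnNhd ℂ f univ) (hf' : AnalyticOnNhd ℂ f' univ)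
    (h : ∀ x, f (S.a x) = f' (S.a x)) : f = f' := by
  obtain ⟨x, hx⟩ := S.ne
  refine hf.eq_of_eventuallyEq hf' (z₀ := S.a x) ?_
  filter_upwards [ball_mem_nhds _ (rho_pos hx)] with t ht
  rw [← (sc_σ hx).eq t ht, h]

theorem an_aff (g : G) : AnalyticOnNhd ℂ (fun t => S.L g t + S.lam g) univ := fun _ _ =>
  ((S.L g : E q →L[ℂ] E q).analyticAt _).add analyticAt_const

theorem aff_one (z : E q) : S.L 1 z + S.lam 1 = z :=
  congrFun (S.aff_ext (S.an_aff 1) analyticOnNhd_id fun x => by rw [← S.eqv, one_smul]) z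

theorem aff_mul (g h : G) (z : E q) :
    S.L (g * h) z + S.lam (g * h) = S.L g (S.L h z + S.lam h) + S.lam g :=
  congrFun (S.aff_ext (S.an_aff (g * h)) ((S.an_aff g).comp (S.an_aff h) (mapsTo_univ _ _))
    fun x => by rw [Function.comp_apply, ← S.eqv, ← S.eqv, ← S.eqv, mul_smul]) z

theorem act_one (p : Et q S.Ix) : S.act 1 p = p :=
  Et.map_id _ _ _ S.aff_one (fun i => Subtype.ext (funext fun x => by simp [tau])) p

theorem act_mul (g h : G) (p : Et q S.Ix) : S.act (g * h) p = S.act g (S.act h p) :=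
  Et.map_map _ _ _ _ _ _ _ _ _ (S.aff_mul g h)
    (fun i => Subtype.ext (funext fun x => by simp [tau, mul_smul])) p

variable {S}

theorem Sc.holF {τ : E q → M} {W : Set (E q)} (hτ : S.Sc τ W) : HolF (S.fam τ) W :=
  fun i => hτ.diff i.2

theorem pi_eq {y : M} (hy : y ∈ S.U) {F : S.Ix → E q → ℂ} {W : Set (E q)} (hF : HolF F W)
    (hW : W ∈ 𝓝 (S.a y)) (h : ∀ i : S.Ix, ∀ᶠ z in 𝓝 y, i.1 z = F i (S.a z)) :
    S.pi y = Et.sec F (S.a y) :=
  (Et.sec_eq_iff (sc_σ hy).holF hF (ball_mem_nhds _ (rho_pos hy)) hW).2 fun i => germ_σ hy (h i)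

theorem Sc.pi {τ : E q → M} {W : Set (E q)} (hτ : S.Sc τ W) {t : E q} (ht : t ∈ W) :
    S.pi (τ t) = Et.sec (S.fam τ) t := by
  have hy := hτ.mem t ht
  have h1 := hτ.eq t ht
  unfold Sys.pi
  have h2 := (sc_σ hy).holF
  have h3 := ball_mem_nhds (S.a (τ t)) (rho_pos hy)
  rw [h1] at h2 h3 ⊢
  rw [Et.sec_eq_iff h2 hτ.holF h3 (hτ.op.mem_nhds ht)]
  intro i
  obtain ⟨F, -, h4⟩ := i.2 _ hy
  exact (h1 ▸ germ_σ hy h4).trans (hτ.germ ht h4).symm

theorem continuousOn_pi [LocallyConnectedSpace M] : ContinuousOn S.pi S.U := by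
  intro x hx
  have hb := ball_mem_nhds (S.a x) (rho_pos hx)
  have h1 : ContinuousAt (fun y => Et.sec (S.fam (S.σ x)) (S.a y)) x :=
    ContinuousAt.comp (g := Et.sec (S.fam (S.σ x)))
      ((Et.continuousOn_sec isOpen_ball (sc_σ hx).holF).continuousAt hb) S.cont_a.continuousAt
  refine (h1.congr ?_).continuousWithinAt
  filter_upwards [unif_loc hx, S.op.mem_nhds hx, S.cont_a.continuousAt.eventually hb]
    with y h2 h3 h4
  exact (pi_eq h3 (sc_σ hx).holF (isOpen_ball.mem_nhds h4) fun i => h2 i.1 i.2).symm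

theorem act_pi (g : G) {x : M} (hx : x ∈ S.U) : S.pi (g • x) = S.act g (S.pi x) := by
  have h1 : S.Sc (fun t => g • S.σ x ((S.L g).symm (t - S.lam g)))
      ((fun t => (S.L g).symm (t - S.lam g)) ⁻¹' ball (S.a x) (S.rho x)) :=
    ⟨isOpen_ball.preimage (by fun_prop),
      (S.cont g).comp_continuousOn ((sc_σ hx).cont.comp (by fun_prop) fun _ h => h),
      fun t ht => S.inv g _ ((sc_σ hx).mem _ ht), fun t ht => by
        rw [S.eqv, (sc_σ hx).eq _ ht]
        simp⟩
  have h2 := h1.pi (t := S.L g (S.a x) + S.lam g) (by simpa using rho_pos hx)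
  simp only [add_sub_cancel_right, ContinuousLinearEquiv.symm_apply_apply, σ_a hx] at h2
  rw [h2, act, Sys.pi, Et.map_sec _ _ _ (sc_σ hx).holF (ball_mem_nhds _ (rho_pos hx))]
  rfl

theorem val_pi {x : M} (hx : x ∈ S.U) (i : S.Ix) : Et.val i (S.pi x) = i.1 x := by
  rw [Sys.pi, Et.val_sec (sc_σ hx).holF (ball_mem_nhds _ (rho_pos hx)), fam, σ_a hx]

variable (S)

/-- the envelope exists -/
theorem exists_env [LocallyConnectedSpace M] :
    ∃ (Y : Type) (_ : TopologicalSpace Y) (_ : RDom q Y) (_ : T2Space Y) (_ : MulAction G Y),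
      PreconnectedSpace Y ∧ Nonempty (Env S Y) := by
  classical
  obtain ⟨x0, hx0⟩ := S.ne
  have h1 : ∀ x ∈ S.U, S.pi x ∈ connectedComponent (S.pi x0) := fun x hx =>
    (S.pre.image _ continuousOn_pi).subset_connectedComponent ⟨x0, hx0, rfl⟩ ⟨x, hx, rfl⟩
  have h2 : ∀ (g : G), ∀ p ∈ connectedComponent (S.pi x0),
      S.act g p ∈ connectedComponent (S.pi x0) := fun g p hp => by
    have h3 := (Et.continuous_map (S.L g) (S.lam g) (S.tau g)).image_connectedComponent_subset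
      (S.pi x0) ⟨p, hp, rfl⟩
    rw [connectedComponent_eq (h1 _ (S.inv g x0 hx0)), act_pi g hx0]
    exact h3
  let _ : MulAction G (Cmp (S.pi x0)) :=
    { smul := fun g p => ⟨S.act g p.1, h2 g p.1 p.2⟩
      one_smul := fun p => Subtype.ext (S.act_one p.1)
      mul_smul := fun g h p => Subtype.ext (S.act_mul g h p.1) }
  set π : M → Cmp (S.pi x0) := fun x =>
    if h : S.pi x ∈ connectedComponent (S.pi x0) then ⟨_, h⟩ else ⟨_, h1 x0 hx0⟩ with hπ
  have h4 : ∀ x ∈ S.U, (π x).1 = S.pi x := fun x hx => by simp only [hπ, dif_pos (h1 x hx)]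
  refine ⟨Cmp (S.pi x0), inferInstance, inferInstance, inferInstance, inferInstance,
    inferInstance, ⟨⟨π, ?_, fun x hx => ?_, fun g => ?_, fun g y => ?_, fun g x hx => ?_,
      psh_cmp Et.psh, fun h hh => ⟨fun y => Et.val ⟨h, hh⟩ y.1, fun x hx => ?_⟩⟩⟩⟩
  · exact IsInducing.subtypeVal.continuousOn_iff.2 (continuousOn_pi.congr h4)
  · rw [cp_cmp, h4 x hx]
    exact Et.cp_sec _ _
  · exact ((Et.continuous_map (S.L g) (S.lam g) (S.tau g)).comp continuous_subtype_val).subtype_mk _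
  · exact Et.cp_map (S.L g) (S.lam g) (S.tau g) y.1
  · refine Subtype.ext ?_
    change _ = S.act g (π x).1
    rw [h4 _ (S.inv g x hx), h4 x hx, act_pi g hx]
  · simp only [h4 x hx, val_pi hx]

end Sys

end Crest.Agent.X261.Fib
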