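import Crest.Agent.R273.RegC_844

/-!
# X261 / FIB (helper16), file RD: boundary distance and translations on a Riemann domain

* `chart_of_section` : a continuous section of `cp` over an open set is the inverse of a chart;
* `dl y` : boundary distance (sup norm) capped by `1`; `sh y w` : the translate `y + w`;
* `psi y = - log (dl y)`.
-/

set_option autoImplicit false
set_option linter.unusedSectionVars false

noncomputable section

open Set Metric Filter Topology

namespace Crest.Agent.X261.Fib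

open Crest.Agent.R271.Ho51 Crest.Agent.R273.Reg_844

/-- the base space -/
abbrev E (q : ℕ) : Type := Fin q → ℂ

/-- a locally constant function on a preconnected set is constant -/
theorem const_of_loc {T α : Type*} [TopologicalSpace T] {s : Set T} (hs : IsPreconnected s)
    {f : T → α} (h : ∀ t ∈ s, ∀ᶠ u in 𝓝[s] t, f u = f t) {x y : T} (hx : x ∈ s) (hy : y ∈ s) :
    f x = f y := by
  let _ : TopologicalSpace α := ⊥
  have : DiscreteTopology α := ⟨rfl⟩
  refine hs.constant (fun t ht => ?_) hx hy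
  rw [ContinuousWithinAt, nhds_discrete α, tendsto_pure]
  exact h t ht

variable {q : ℕ} {Y : Type} [TopologicalSpace Y] [RDom q Y]

theorem section_nhds {σ : E q → Y} {z : E q} (hc : ContinuousAt σ z)
    (hs : ∀ᶠ w in 𝓝 z, cp (σ w) = w) {e : OpenPartialHomeomorph Y (E q)} (he : IsCh e)
    (hx : σ z ∈ e.source) : ∀ᶠ w in 𝓝 z, σ w = e.symm w := by
  filter_upwards [hs, hc.preimage_mem_nhds (e.open_source.mem_nhds hx)] with w h1 h2
  rw [← he.symm_cp h2, h1]

theorem isOpen_image_section {σ : E q → Y} {W : Set (E q)} (hW : IsOpen W)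
    (hc : ContinuousOn σ W) (hs : ∀ w ∈ W, cp (σ w) = w) : IsOpen (σ '' W) := by
  rw [isOpen_iff_mem_nhds]
  rintro _ ⟨z, hz, rfl⟩
  have hzW : W ∈ 𝓝 z := hW.mem_nhds hz
  have h1 := section_nhds (hc.continuousAt hzW) (mem_of_superset hzW hs) (isCh_ch (σ z))
    (mem_ch _)
  have h2 : ∀ᶠ y in 𝓝 (σ z), cp y ∈ W ∧ σ (cp y) = (ch (σ z)).symm (cp y) := by
    have h3 : Tendsto (cp : Y → E q) (𝓝 (σ z)) (𝓝 z) := by
      have := (cp_cont (M := Y)).tendsto (σ z)
      rwa [hs z hz] at this
    exact h3.eventually ((show ∀ᶠ w in 𝓝 z, w ∈ W from hzW).and h1)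
  filter_upwards [h2, (ch (σ z)).open_source.mem_nhds (mem_ch _)] with y h4 h5
  exact ⟨cp y, h4.1, by rw [h4.2, (isCh_ch _).symm_cp h5]⟩

/-- a continuous section over an open set is the inverse of a chart -/
theorem chart_of_section {σ : E q → Y} {W : Set (E q)} (hW : IsOpen W)
    (hc : ContinuousOn σ W) (hs : ∀ w ∈ W, cp (σ w) = w) :
    ∃ e : OpenPartialHomeomorph Y (E q), IsCh e ∧ e.target = W ∧ e.source = σ '' W ∧
      ∀ w, e.symm w = σ w :=
  ⟨{ toFun := cp
     invFun := σ
     source := σ '' W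
     target := W
     map_source' := by rintro _ ⟨z, hz, rfl⟩; rwa [hs z hz]
     map_target' := fun z hz => ⟨z, hz, rfl⟩
     left_inv' := by rintro _ ⟨z, hz, rfl⟩; rw [hs z hz]
     right_inv' := hs
     open_source := isOpen_image_section hW hc hs
     open_target := hW
     continuousOn_toFun := cp_cont.continuousOn
     continuousOn_invFun := hc }, rfl, rfl, rfl, fun _ => rfl⟩

theorem adm_of_section {σ : E q → Y} {z : E q} {r : ℝ} (hr : 0 < r)
    (hc : ContinuousOn σ (ball z r)) (hs : ∀ w ∈ ball z r, cp (σ w) = w) : Adm r (σ z) := by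
  obtain ⟨e, he, ht, -, hsy⟩ := chart_of_section isOpen_ball hc hs
  rw [← hsy z]
  exact Adm.shift he (ht ▸ mem_ball_self hr) (by rw [ht])

/-- boundary distance, capped by `1` -/
def dl (y : Y) : ℝ := sSup {r | r ≤ 1 ∧ Adm r y}

theorem bdd_adm (y : Y) : BddAbove {r | r ≤ 1 ∧ Adm r y} := ⟨1, fun _ h => h.1⟩

theorem le_dl {y : Y} {r : ℝ} (h1 : r ≤ 1) (h : Adm r y) : r ≤ dl y :=
  le_csSup (bdd_adm y) ⟨h1, h⟩

theorem min_le_dl {y : Y} {r : ℝ} (h : Adm r y) : min r 1 ≤ dl y :=
  le_dl (min_le_right _ _) (h.mono (min_le_left _ _))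

theorem exists_adm_pos (y : Y) : ∃ r : ℝ, 0 < r ∧ Adm r y := by
  obtain ⟨r, hr, hb⟩ := exists_adm_one y
  exact ⟨r, hr, ch y, isCh_ch y, mem_ch y, hb⟩

theorem dl_pos (y : Y) : 0 < dl y := by
  obtain ⟨r, hr, h⟩ := exists_adm_pos y
  exact (lt_min hr one_pos).trans_le (min_le_dl h)

theorem ne_adm (y : Y) : {r | r ≤ 1 ∧ Adm r y}.Nonempty := by
  obtain ⟨r, -, h⟩ := exists_adm_pos y
  exact ⟨min r 1, min_le_right _ _, h.mono (min_le_left _ _)⟩

theorem dl_le_one (y : Y) : dl y ≤ 1 := csSup_le (ne_adm y) fun _ h => h.1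

theorem adm_of_lt {y : Y} {r : ℝ} (h : r < dl y) : Adm r y := by
  obtain ⟨s, hs, hrs⟩ := exists_lt_of_lt_csSup (ne_adm y) h
  exact hs.2.mono hrs.le

variable [T2Space Y]

theorem adm_dl (y : Y) : Adm (dl y) y := by
  have h1 : ∀ z ∈ ball (cp y) (dl y), ∃ r, dist z (cp y) < r ∧ r < dl y := fun z hz =>
    exists_between hz
  have h2 : ∀ r : ℝ, r < dl y → ∃ e : OpenPartialHomeomorph Y (E q), IsCh e ∧ y ∈ e.source ∧
      ball (cp y) r ⊆ e.target := fun r hr => adm_of_lt hr
  have : Nonempty (OpenPartialHomeomorph Y (E q)) := ⟨ch y⟩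
  choose! e he hy hb using h2
  choose! r hr1 hr2 using h1
  have key : ∀ s, s < dl y → ∀ z ∈ ball (cp y) s, (e (r z)).symm z = (e s).symm z := by
    intro s hs z hz
    have hz' : z ∈ ball (cp y) (dl y) := ball_subset_ball hs.le hz
    have hpos : 0 < min (r z) s := lt_min (dist_nonneg.trans_lt (hr1 z hz'))
      (dist_nonneg.trans_lt hz)
    refine symm_eqOn (he _ (hr2 z hz')) (he s hs) (convex_ball (cp y) (min (r z) s)).isPreconnected
      ((ball_subset_ball (min_le_left _ _)).trans (hb _ (hr2 z hz')))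
      ((ball_subset_ball (min_le_right _ _)).trans (hb s hs)) (mem_ball_self hpos) ?_ ?_
    · rw [(he _ (hr2 z hz')).symm_cp (hy _ (hr2 z hz')), (he s hs).symm_cp (hy s hs)]
    · exact lt_min (hr1 z hz') hz
  have hc : ContinuousOn (fun z => (e (r z)).symm z) (ball (cp y) (dl y)) := by
    intro z hz
    have h3 : ball (cp y) (r z) ∈ 𝓝 z := isOpen_ball.mem_nhds (hr1 z hz)
    have h4 : ContinuousAt (e (r z)).symm z :=
      (e (r z)).symm.continuousAt (hb _ (hr2 z hz) (hr1 z hz))
    refine (h4.congr ?_).continuousWithinAt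
    filter_upwards [h3] with w hw
    exact (key _ (hr2 z hz) w hw).symm
  have h5 := adm_of_section (dl_pos y) hc fun w hw =>
    (he _ (hr2 w hw)).cp_symm (hb _ (hr2 w hw) (hr1 w hw))
  have h6 := hr2 _ (mem_ball_self (dl_pos y) : cp y ∈ _)
  simpa only [(he _ h6).symm_cp (hy _ h6)] using h5

/-- the chart of radius `dl y` at `y` -/
def bch (y : Y) : OpenPartialHomeomorph Y (E q) := (adm_dl y).choose

theorem isCh_bch (y : Y) : IsCh (bch y) := (adm_dl y).choose_spec.1
theorem mem_bch (y : Y) : y ∈ (bch y).source := (adm_dl y).choose_spec.2.1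
theorem ball_bch (y : Y) : ball (cp y) (dl y) ⊆ (bch y).target := (adm_dl y).choose_spec.2.2

theorem add_mem_ball {z w : E q} {r : ℝ} (h : ‖w‖ < r) : z + w ∈ ball z r := by
  rwa [mem_ball, dist_eq_norm, add_sub_cancel_left]

/-- the translate `y + w` (meaningful for `‖w‖ < dl y`) -/
def sh (y : Y) (w : E q) : Y := (bch y).symm (cp y + w)

theorem sh_zero (y : Y) : sh y 0 = y := by
  rw [sh, add_zero, (isCh_bch y).symm_cp (mem_bch y)]

theorem cp_sh {y : Y} {w : E q} (h : ‖w‖ < dl y) : cp (sh y w) = cp y + w :=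
  (isCh_bch y).cp_symm (ball_bch y (add_mem_ball h))

theorem sh_eq {y : Y} {w : E q} {e : OpenPartialHomeomorph Y (E q)} (he : IsCh e)
    (hy : y ∈ e.source) {r : ℝ} (hb : ball (cp y) r ⊆ e.target) (hr : ‖w‖ < r)
    (h : ‖w‖ < dl y) : sh y w = e.symm (cp y + w) := by
  have hpos : 0 < min r (dl y) := lt_min ((norm_nonneg _).trans_lt hr) (dl_pos y)
  refine symm_eqOn (isCh_bch y) he (convex_ball (cp y) (min r (dl y))).isPreconnected
    ((ball_subset_ball (min_le_right _ _)).trans (ball_bch y))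
    ((ball_subset_ball (min_le_left _ _)).trans hb) (mem_ball_self hpos) ?_
    (add_mem_ball (lt_min hr h))
  rw [(isCh_bch y).symm_cp (mem_bch y), he.symm_cp hy]

/-- version with the radius only -/
theorem sh_eq' {y : Y} {w : E q} {e : OpenPartialHomeomorph Y (E q)} (he : IsCh e)
    (hy : y ∈ e.source) {r : ℝ} (hb : ball (cp y) r ⊆ e.target) (hr : ‖w‖ < r) (h1 : r ≤ 1) :
    sh y w = e.symm (cp y + w) :=
  sh_eq he hy hb hr (hr.trans_le (le_dl h1 ⟨e, he, hy, hb⟩))

theorem ball_sub_ball {z w : E q} {r : ℝ} : ball (z + w) (r - ‖w‖) ⊆ ball z r := by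
  apply ball_subset_ball'
  rw [dist_eq_norm, add_sub_cancel_left]
  linarith

theorem sh_mem_bch {y : Y} {w : E q} (h : ‖w‖ < dl y) : sh y w ∈ (bch y).source :=
  (bch y).map_target (ball_bch y (add_mem_ball h))

theorem dl_sh {y : Y} {w : E q} (h : ‖w‖ < dl y) : dl y - ‖w‖ ≤ dl (sh y w) := by
  refine le_dl (by linarith [dl_le_one y, norm_nonneg w]) ?_
  exact Adm.shift (isCh_bch y) (ball_bch y (add_mem_ball h)) (ball_sub_ball.trans (ball_bch y))

theorem sh_sh {y : Y} {w w' : E q} (h : ‖w‖ + ‖w'‖ < dl y) : sh (sh y w) w' = sh y (w + w') := by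
  have hw : ‖w‖ < dl y := by linarith [norm_nonneg w']
  have h1 : ‖w'‖ < dl y - ‖w‖ := by linarith
  rw [sh_eq (isCh_bch y) (sh_mem_bch hw) (r := dl y - ‖w‖)
    (by rw [cp_sh hw]; exact ball_sub_ball.trans (ball_bch y)) h1 (h1.trans_le (dl_sh hw)),
    cp_sh hw, add_assoc]
  rfl

theorem sh_sh_neg {y : Y} {w : E q} (h : 2 * ‖w‖ < dl y) : sh (sh y w) (-w) = y := by
  rw [sh_sh (by rw [norm_neg]; linarith), add_neg_cancel, sh_zero]

theorem dl_sh_le {y : Y} {w : E q} (h : ‖w‖ < dl y) : dl (sh y w) ≤ dl y + ‖w‖ := by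
  by_contra hlt
  rw [not_le] at hlt
  have h0 := dl_pos y
  have hw : ‖-w‖ < dl (sh y w) := by rw [norm_neg]; linarith
  have h1 : sh (sh y w) (-w) = y := by
    -- both are lifts of the segment
    have h2 : sh (sh y w) (-w) = (bch (sh y w)).symm (cp y) := by
      rw [sh, cp_sh h, add_neg_cancel_right]
    rw [h2]
    have h3 : EqOn (bch (sh y w)).symm (bch y).symm (segment ℝ (cp y) (cp y + w)) := by
      refine symm_eqOn (isCh_bch _) (isCh_bch _) (convex_segment _ _).isPreconnected ?_ ?_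
        (right_mem_segment _ _ _) ?_
      · refine Subset.trans ?_ (ball_bch _)
        refine (convex_ball _ _).segment_subset ?_ ?_
        · rw [cp_sh h, mem_ball, dist_eq_norm, sub_add_cancel_left]; exact hw
        · rw [cp_sh h]; exact mem_ball_self (dl_pos _)
      · refine Subset.trans ?_ (ball_bch _)
        exact (convex_ball _ _).segment_subset (mem_ball_self h0) (add_mem_ball h)
      · rw [← cp_sh h, (isCh_bch _).symm_cp (mem_bch _), (isCh_bch y).symm_cp (sh_mem_bch h)]
    rw [h3 (left_mem_segment _ _ _), (isCh_bch y).symm_cp (mem_bch y)]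
  have h4 := dl_sh hw
  rw [h1, norm_neg] at h4
  linarith

theorem abs_dl_sh {y : Y} {w : E q} (h : ‖w‖ < dl y) : |dl (sh y w) - dl y| ≤ ‖w‖ :=
  abs_le.2 ⟨by linarith [dl_sh h], by linarith [dl_sh_le h]⟩

/-- points near `y` are translates of `y` -/
theorem eventually_eq_sh (y : Y) : ∀ᶠ y' in 𝓝 y, y' = sh y (cp y' - cp y) := by
  filter_upwards [(bch y).open_source.mem_nhds (mem_bch y)] with y' h
  rw [sh, add_sub_cancel, (isCh_bch y).symm_cp h]

theorem tendsto_cp_sub (y : Y) : Tendsto (fun y' : Y => cp y' - cp y) (𝓝 y) (𝓝 0) := by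
  have := ((cp_cont (M := Y)).tendsto y).sub_const (cp y)
  rwa [sub_self] at this

theorem eventually_norm_lt (y : Y) {r : ℝ} (hr : 0 < r) : ∀ᶠ y' in 𝓝 y, ‖cp y' - cp y‖ < r := by
  have := (tendsto_cp_sub y).norm
  rw [norm_zero] at this
  exact this.eventually (gt_mem_nhds hr)

theorem continuous_dl : Continuous (dl : Y → ℝ) := by
  rw [continuous_iff_continuousAt]
  intro y
  rw [ContinuousAt, Metric.tendsto_nhds]
  intro ε hε
  filter_upwards [eventually_eq_sh y, eventually_norm_lt y (dl_pos y), eventually_norm_lt y hε]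
    with y' h1 h2 h3
  rw [Real.dist_eq, h1]
  exact (abs_dl_sh h2).trans_lt h3

theorem continuousOn_sh (y : Y) : ContinuousOn (sh y) (ball 0 (dl y)) := by
  refine (bch y).symm.continuousOn.comp (f := fun w => cp y + w) (by fun_prop) fun w hw => ?_
  exact ball_bch y (add_mem_ball (by simpa using hw))

theorem continuousAt_sh {y : Y} {w : E q} (h : ‖w‖ < dl y) : ContinuousAt (sh y) w :=
  (continuousOn_sh y).continuousAt (isOpen_ball.mem_nhds (by simpa using h))

/-- joint continuity -/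
theorem continuousAt_sh₂ {y : Y} {w : E q} (h : ‖w‖ < dl y) :
    ContinuousAt (fun p : Y × E q => sh p.1 p.2) (y, w) := by
  have h1 : ContinuousAt (fun p : Y × E q => sh y (cp p.1 - cp y + p.2)) (y, w) := by
    have h2 : ContinuousAt (fun p : Y × E q => cp p.1 - cp y + p.2) (y, w) :=
      ((cp_cont.comp continuous_fst).sub continuous_const).add continuous_snd |>.continuousAt
    refine ContinuousAt.comp (g := sh y) ?_ h2
    simp only [sub_self, zero_add]
    exact continuousAt_sh h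
  refine h1.congr ?_
  have h3 : ∀ᶠ p : Y × E q in 𝓝 (y, w), ‖cp p.1 - cp y‖ + ‖p.2‖ < dl y := by
    have h4 : ContinuousAt (fun p : Y × E q => ‖cp p.1 - cp y‖ + ‖p.2‖) (y, w) :=
      (((cp_cont.comp continuous_fst).sub continuous_const).norm.add
        continuous_snd.norm).continuousAt
    exact h4.eventually (gt_mem_nhds (by simpa using h))
  have h5 : ∀ᶠ p : Y × E q in 𝓝 (y, w), p.1 = sh y (cp p.1 - cp y) :=
    (continuousAt_fst (p := (y, w))).eventually (eventually_eq_sh y)
  filter_upwards [h3, h5] with p h6 h7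
  rw [← sh_sh h6, ← h7]

/-- uniqueness of lifts -/
theorem lift_unique {T : Type*} [TopologicalSpace T] {s : Set T} (hs : IsPreconnected s)
    {f g : T → Y} (hf : ContinuousOn f s) (hg : ContinuousOn g s)
    (h : ∀ t ∈ s, cp (f t) = cp (g t)) {t0 : T} (ht0 : t0 ∈ s) (h0 : f t0 = g t0) :
    EqOn f g s :=
  (T2Space.isSeparatedMap (cp : Y → E q)).eqOn_of_comp_eqOn
    (cp_lh (M := Y)).isLocallyInjective hs hf hg h ht0 h0

/-- a continuous section over a ball is given by `sh` -/
theorem section_eq_sh {σ : E q → Y} {z : E q} {r : ℝ} (hc : ContinuousOn σ (ball z r))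
    (hs : ∀ w ∈ ball z r, cp (σ w) = w) {w : E q} (hw : ‖w‖ < r) (hw' : ‖w‖ < dl (σ z)) :
    σ (z + w) = sh (σ z) w := by
  have hr : 0 < r := (norm_nonneg _).trans_lt hw
  obtain ⟨e, he, ht, hso, hsy⟩ := chart_of_section isOpen_ball hc hs
  have h1 : cp (σ z) = z := hs z (mem_ball_self hr)
  rw [sh_eq he (hso ▸ ⟨z, mem_ball_self hr, rfl⟩) (r := r) (by rw [h1, ht]) hw hw', hsy, h1]

section Map

variable {q' : ℕ} {Y' : Type} [TopologicalSpace Y'] [RDom q Y'] [T2Space Y']

/-- a continuous map over an affine isomorphism commutes with the translations -/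
theorem map_sh {f : Y → Y'} (hf : Continuous f) {L : E q →L[ℂ] E q} {c : E q}
    (h : ∀ y, cp (f y) = L (cp y) + c) {y : Y} {w : E q} (hw : ‖w‖ < dl y)
    (hw' : ‖L w‖ < dl (f y)) : f (sh y w) = sh (f y) (L w) := by
  have hI : ∀ t ∈ Icc (0 : ℝ) 1, ∀ v : E q, ‖(t : ℂ) • v‖ ≤ ‖v‖ := by
    intro t ht v
    rw [norm_smul, Complex.norm_real, Real.norm_of_nonneg ht.1]
    exact mul_le_of_le_one_left (norm_nonneg _) ht.2
  have h1 := lift_unique (isPreconnected_Icc (a := (0 : ℝ)) (b := 1))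
    (f := fun t : ℝ => f (sh y ((t : ℂ) • w))) (g := fun t : ℝ => sh (f y) ((t : ℂ) • L w))
    (fun t ht => (hf.continuousAt.comp (ContinuousAt.comp (f := fun t : ℝ => (t : ℂ) • w)
      (continuousAt_sh ((hI t ht w).trans_lt hw)) (by fun_prop))).continuousWithinAt)
    (fun t ht => (ContinuousAt.comp (f := fun t : ℝ => (t : ℂ) • L w)
      (continuousAt_sh ((hI t ht _).trans_lt hw')) (by fun_prop)).continuousWithinAt)
    (fun t ht => by
      rw [h, cp_sh ((hI t ht w).trans_lt hw), cp_sh ((hI t ht _).trans_lt hw'), h, map_add,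
        map_smul]
      abel)
    (t0 := 0) ⟨le_rfl, zero_le_one⟩ (by simp [sh_zero])
  simpa using h1 (⟨zero_le_one, le_rfl⟩ : (1 : ℝ) ∈ Icc (0 : ℝ) 1)

/-- a continuous map over a translation does not decrease `dl` -/
theorem dl_le_map {f : Y → Y'} (hf : Continuous f) {c : E q}
    (h : ∀ y, cp (f y) = cp y + c) (y : Y) : dl y ≤ dl (f y) := by
  have h1 := adm_of_section (σ := fun z => f (sh y (z - (cp y + c)))) (z := cp y + c) (dl_pos y)
    (hf.comp_continuousOn ((continuousOn_sh y).comp (by fun_prop) fun z hz => by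
      simpa [dist_eq_norm] using hz))
    (fun w hw => by
      rw [h, cp_sh (by simpa [dist_eq_norm] using hw)]
      abel)
  simp only [sub_self, sh_zero] at h1
  exact le_dl (dl_le_one y) h1

theorem map_sh' {f : Y → Y'} (hf : Continuous f) {c : E q}
    (h : ∀ y, cp (f y) = cp y + c) {y : Y} {w : E q} (hw : ‖w‖ < dl y) :
    f (sh y w) = sh (f y) w :=
  map_sh hf (L := ContinuousLinearMap.id ℂ (E q)) h hw (hw.trans_le (dl_le_map hf h y))

end Map

/-- `- log` of the boundary distance -/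
def psi (y : Y) : ℝ := -Real.log (dl y)

theorem psi_nonneg (y : Y) : 0 ≤ psi y :=
  neg_nonneg.2 (Real.log_nonpos (dl_pos y).le (dl_le_one y))

theorem continuous_psi : Continuous (psi : Y → ℝ) :=
  (continuous_dl.log fun y => (dl_pos y).ne').neg

theorem exp_neg_psi (y : Y) : Real.exp (-psi y) = dl y := by
  rw [psi, neg_neg, Real.exp_log (dl_pos y)]

theorem psi_le_iff {y : Y} {c : ℝ} : psi y ≤ c ↔ Real.exp (-c) ≤ dl y := by
  rw [← exp_neg_psi, Real.exp_le_exp, neg_le_neg_iff]

theorem psi_sh_le {y : Y} {w : E q} (h : ‖w‖ ≤ dl y / 2) : psi (sh y w) ≤ psi y + Real.log 2 := by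
  have h0 := dl_pos y
  have h1 : dl y / 2 ≤ dl (sh y w) := by linarith [dl_sh (y := y) (w := w) (by linarith)]
  have h2 := Real.log_le_log (by positivity) h1
  rw [Real.log_div h0.ne' two_ne_zero] at h2
  unfold psi
  linarith

end Crest.Agent.X261.Fib
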