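import Crest.Agent.X261.Fib.Defs

/-!
# X261 / FIB Rat (helper84), part A: flat lemmas

* `convexOn_of_av` : sub-mean value property for the sine law implies convexity;
* `exists_dir` : a non closed-discrete subgroup contains a limit direction;
* `dense_line` : generic real lines with fixed direction miss a `σ`-thin set;
* `recur` : recurrence of a linear flow on a torus.
-/

set_option autoImplicit false
set_option linter.unusedSectionVars false

noncomputable section

open Set Metric Filter Topology MeasureTheory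

namespace Crest.Agent.X261.Fib.Rt

open Crest.Agent.R275.FL606 (circ ang)
open Crest.Agent.R281.Thn_280

theorem integral_circ (f : ℝ → ℝ) :
    ∫ θ, f θ ∂circ = (2 * Real.pi)⁻¹ * ∫ θ in (0 : ℝ)..(2 * Real.pi), f θ := by
  have hp : (0 : ℝ) < 2 * Real.pi := by positivity
  rw [circ, integral_smul_measure, intervalIntegral.integral_of_le hp.le, ENNReal.toReal_inv,
    ENNReal.toReal_ofReal hp.le, smul_eq_mul]

theorem integral_sin_circ : ∫ θ, Real.sin θ ∂circ = 0 := by
  rw [integral_circ, integral_sin]; simp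

theorem integral_sin_sq_circ : ∫ θ, Real.sin θ ^ 2 ∂circ = 1 / 2 := by
  rw [integral_circ, integral_sin_sq]
  have := Real.pi_pos
  simp only [Real.sin_zero, zero_mul, Real.sin_two_pi, sub_zero, zero_add]
  field_simp

theorem integrable_of_cont {f : ℝ → ℝ} (hf : Continuous f) : Integrable f circ := by
  have hp : (0 : ℝ) < 2 * Real.pi := by positivity
  refine Integrable.smul_measure ?_ (ENNReal.inv_ne_top.2 (by simpa using Real.pi_pos))
  exact (hf.continuousOn.integrableOn_Icc).mono_set Ioc_subset_Icc_self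

/-- maximum principle -/
theorem le_of_av {a c : ℝ} {h : ℝ → ℝ} (hc : ContinuousOn h (Icc a c))
    (hs : ∀ x ∈ Ioo a c, ∃ r0 : ℝ, 0 < r0 ∧ ∀ r ∈ Ioo 0 r0,
      h x ≤ ∫ θ, h (x + r * Real.sin θ) ∂circ)
    (ha : h a ≤ 0) (hb : h c ≤ 0) {x : ℝ} (hx : x ∈ Icc a c) : h x ≤ 0 := by
  have key : ∀ ε : ℝ, 0 < ε → h x ≤ ε * (c - a) ^ 2 := by
    intro ε hε
    have hc' : ContinuousOn (fun x => h x + ε * (x - a) ^ 2) (Icc a c) := hc.add (by fun_prop)
    obtain ⟨x0, hx0, hmax⟩ := isCompact_Icc.exists_isMaxOn ⟨x, hx⟩ hc'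
    have h1 : h x + ε * (x - a) ^ 2 ≤ h x0 + ε * (x0 - a) ^ 2 := hmax hx
    have h0 : 0 ≤ ε * (x - a) ^ 2 := by positivity
    have h00 : 0 ≤ ε * (c - a) ^ 2 := by positivity
    rcases hx0.1.eq_or_lt with h2 | h2
    · rw [← h2] at h1; simp at h1; linarith
    rcases hx0.2.eq_or_lt with h3 | h3
    · rw [h3] at h1; linarith
    exfalso
    obtain ⟨r0, hr0, hr⟩ := hs x0 ⟨h2, h3⟩
    set r : ℝ := min (r0 / 2) (min (x0 - a) (c - x0)) with hrdef
    have hrp : 0 < r := lt_min (by positivity) (lt_min (by linarith) (by linarith))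
    have hr1 : r < r0 := (min_le_left _ _).trans_lt (by linarith)
    have hr2 : r ≤ x0 - a := (min_le_right _ _).trans (min_le_left _ _)
    have hr3 : r ≤ c - x0 := (min_le_right _ _).trans (min_le_right _ _)
    have hm : ∀ θ, x0 + r * Real.sin θ ∈ Icc a c := fun θ =>
      ⟨by nlinarith [Real.neg_one_le_sin θ], by nlinarith [Real.sin_le_one θ]⟩
    have hcont : Continuous fun θ => h (x0 + r * Real.sin θ) :=
      hc.comp_continuous (by fun_prop) hm
    have h4 := hr r ⟨hrp, hr1⟩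
    have h5 : ∫ θ, h (x0 + r * Real.sin θ) ∂circ ≤
        ∫ θ, (h x0 - 2 * ε * (x0 - a) * r * Real.sin θ - ε * r ^ 2 * Real.sin θ ^ 2) ∂circ := by
      refine integral_mono (integrable_of_cont hcont) (integrable_of_cont (by fun_prop)) fun θ => ?_
      have h6 : h (x0 + r * Real.sin θ) + ε * (x0 + r * Real.sin θ - a) ^ 2 ≤
        h x0 + ε * (x0 - a) ^ 2 := hmax (hm θ)
      simp only
      nlinarith
    rw [integral_sub (integrable_of_cont (by fun_prop)) (integrable_of_cont (by fun_prop)),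
      integral_sub (integrable_of_cont (by fun_prop)) (integrable_of_cont (by fun_prop)),
      integral_const_mul, integral_const_mul, integral_sin_circ, integral_sin_sq_circ] at h5
    simp only [integral_const, probReal_univ, smul_eq_mul, one_mul, mul_zero, sub_zero] at h5
    have : 0 < ε * r ^ 2 := by positivity
    linarith
  refine le_of_forall_pos_le_add fun δ hδ => ?_
  have h1 := key (δ / ((c - a) ^ 2 + 1)) (by positivity)
  have h2 : δ / ((c - a) ^ 2 + 1) * (c - a) ^ 2 ≤ δ := by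
    rw [div_mul_eq_mul_div, div_le_iff₀ (by positivity)]
    nlinarith
  linarith

/-- sub-mean value property for the sine law implies convexity -/
theorem convexOn_of_av {s : Set ℝ} (hs : Convex ℝ s) {f : ℝ → ℝ} (hc : ContinuousOn f s)
    (h : ∀ x ∈ s, ∃ r0 : ℝ, 0 < r0 ∧ ∀ r ∈ Ioo 0 r0, (∀ θ, x + r * Real.sin θ ∈ s) ∧
      f x ≤ ∫ θ, f (x + r * Real.sin θ) ∂circ) : ConvexOn ℝ s f := by
  refine LinearOrder.convexOn_of_lt hs fun x hx y hy hxy a b ha hb hab => ?_
  have hsub : Icc x y ⊆ s := by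
    rw [← segment_eq_Icc hxy.le]; exact hs.segment_subset hx hy
  have hd : 0 < y - x := sub_pos.2 hxy
  set m : ℝ := (f y - f x) / (y - x) with hm
  have hm' : m * (y - x) = f y - f x := by rw [hm]; field_simp
  have h1 := le_of_av (a := x) (c := y) (h := fun z => f z - (f x + m * (z - x)))
    ((hc.mono hsub).sub (by fun_prop)) (fun z hz => by
      obtain ⟨r0, hr0, hr⟩ := h z (hsub (Ioo_subset_Icc_self hz))
      refine ⟨r0, hr0, fun r hr' => ?_⟩
      obtain ⟨h2, h3⟩ := hr r hr'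
      have hcont : Continuous fun θ => f (z + r * Real.sin θ) :=
        hc.comp_continuous (by fun_prop) h2
      have h4 : (fun θ => f (z + r * Real.sin θ) - (f x + m * (z + r * Real.sin θ - x))) =
          fun θ => f (z + r * Real.sin θ) - (f x + m * (z - x)) - m * r * Real.sin θ := by
        funext θ; ring
      have hcont' : Continuous fun θ => f (z + r * Real.sin θ) - (f x + m * (z - x)) :=
        hcont.sub continuous_const
      rw [h4, integral_sub (integrable_of_cont hcont') (integrable_of_cont (by fun_prop)),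
        integral_sub (integrable_of_cont hcont) (integrable_of_cont (by fun_prop)),
        integral_const_mul, integral_sin_circ]
      simp only [integral_const, probReal_univ, smul_eq_mul, one_mul, mul_zero, sub_zero]
      linarith) (by simp) (by linarith) (x := a * x + b * y)
    ⟨by rw [eq_sub_of_add_eq hab]; nlinarith, by rw [eq_sub_of_add_eq' hab]; nlinarith⟩
  simp only [smul_eq_mul] at h1 ⊢
  have h2 : a * x + b * y - x = b * (y - x) := by
    have : a = 1 - b := by linarith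
    rw [this]; ring
  rw [h2] at h1
  have h3 : m * (b * (y - x)) = b * (f y - f x) := by rw [← hm']; ring
  have h4 : a = 1 - b := by linarith
  rw [h3] at h1
  rw [h4] at h1 ⊢
  linarith

variable {q : ℕ}

/-- limit direction -/
theorem exists_dir (V : Submodule ℂ (E q)) (A : AddSubgroup (E q)) (hVA : ∀ v ∈ V, v ∈ A)
    (h : ∀ c : ℝ, 0 < c → ∃ a ∈ A, ‖a‖ < c ∧ a ∉ V) :
    ∃ w, w ∉ V ∧ ∀ s : ℝ, (s : ℂ) • w ∈ closure (A : Set (E q)) := by
  obtain ⟨W, hW⟩ := V.exists_isCompl
  set P : E q →L[ℂ] E q := LinearMap.toContinuousLinearMap (W.projection V hW.symm) with hP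
  have hPW : ∀ x, P x ∈ W := fun x => Submodule.projection_apply_mem hW.symm x
  have hPV : ∀ x, x - P x ∈ V := fun x => by
    have h1 := Submodule.projection_add_projection_eq_self hW x
    have h2 : x - P x = V.projection W hW x := by
      rw [sub_eq_iff_eq_add]; exact h1.symm
    rw [h2]; exact Submodule.projection_apply_mem hW x
  choose a ha1 ha2 ha3 using fun n : ℕ => h (1 / ((n : ℝ) + 1)) (by positivity)
  have hpA : ∀ n, P (a n) ∈ A := fun n => by
    have := A.sub_mem (ha1 n) (hVA _ (hPV (a n)))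
    simpa using this
  have hp0 : ∀ n, P (a n) ≠ 0 := fun n h0 => ha3 n (by simpa [h0] using hPV (a n))
  have hn0 : ∀ n, 0 < ‖P (a n)‖ := fun n => norm_pos_iff.2 (hp0 n)
  have hlim : Tendsto (fun n => ‖P (a n)‖) atTop (𝓝 0) := by
    have h1 : Tendsto a atTop (𝓝 0) :=
      squeeze_zero_norm (fun n => (ha2 n).le) tendsto_one_div_add_atTop_nhds_zero_nat
    simpa using ((P.continuous.tendsto 0).comp h1).norm
  obtain ⟨w, hw, φ, hφ, hwl⟩ := (isCompact_sphere (0 : E q) 1).tendsto_subseq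
    (x := fun n => ((‖P (a n)‖⁻¹ : ℝ) : ℂ) • P (a n)) (fun n => by
      rw [mem_sphere_zero_iff_norm, norm_smul, Complex.norm_real, norm_inv, norm_norm,
        inv_mul_cancel₀ (hn0 n).ne'])
  have hwW : w ∈ W := W.closed_of_finiteDimensional.mem_of_tendsto hwl
    (Eventually.of_forall fun n => W.smul_mem _ (hPW _))
  refine ⟨w, fun hV => ?_, fun s => ?_⟩
  · have : w = 0 := (Submodule.disjoint_def.1 hW.disjoint) w hV hwW
    rw [this] at hw; simp at hw
  · have h1 : Tendsto (fun n => (⌊s / ‖P (a (φ n))‖⌋ : ℝ) * ‖P (a (φ n))‖) atTop (𝓝 s) := by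
      have h2 := hlim.comp hφ.tendsto_atTop
      refine tendsto_of_tendsto_of_tendsto_of_le_of_le (g := fun n => s - ‖P (a (φ n))‖)
        (h := fun _ => s) (by simpa using h2.const_sub s) tendsto_const_nhds
        (fun n => ?_) (fun n => ?_)
      · have h3 := (Int.sub_one_lt_floor (s / ‖P (a (φ n))‖)).le
        have h4 := mul_le_mul_of_nonneg_right h3 (hn0 (φ n)).le
        rwa [sub_mul, div_mul_cancel₀ _ (hn0 _).ne', one_mul] at h4
      · have h4 := mul_le_mul_of_nonneg_right (Int.floor_le (s / ‖P (a (φ n))‖)) (hn0 (φ n)).le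
        rwa [div_mul_cancel₀ _ (hn0 _).ne'] at h4
    have h2 := ((Complex.continuous_ofReal.tendsto s).comp h1).smul hwl
    refine mem_closure_of_tendsto h2 (Eventually.of_forall fun n => ?_)
    have h3 : ((((⌊s / ‖P (a (φ n))‖⌋ : ℝ) * ‖P (a (φ n))‖ : ℝ)) : ℂ) •
        (((‖P (a (φ n))‖⁻¹ : ℝ) : ℂ) • P (a (φ n))) = ⌊s / ‖P (a (φ n))‖⌋ • P (a (φ n)) := by
      rw [smul_smul, ← Complex.ofReal_mul, mul_assoc, mul_inv_cancel₀ (hn0 _).ne', mul_one,
        Complex.ofReal_intCast, Int.cast_smul_eq_zsmul]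
    simp only [Function.comp_apply]
    rw [h3]
    exact A.zsmul_mem (hpA _) _

theorem piece_line_null {U : Set (E q)} (hU : IsOpen U) {g : E q → ℂ}
    (hg : AnalyticOnNhd ℂ g U) (u : E q) :
    volume {t | ∃ x : ℝ, t + (x : ℂ) • u ∈ {z | z ∈ U ∧ g z = 0 ∧ fderiv ℂ g z ≠ 0}} = 0 := by
  set Z : Set (E q) := {z | z ∈ U ∧ g z = 0 ∧ fderiv ℂ g z ≠ 0} with hZ
  have key : ∀ z₀ ∈ Z, ∃ N ∈ 𝓝[Z] z₀, volume {t | ∃ x : ℝ, t + (x : ℂ) • u ∈ N} = 0 := by
    rintro z₀ ⟨hzU, hgz, hdg⟩
    set L : E q →L[ℂ] ℂ := fderiv ℂ g z₀ with hL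
    obtain ⟨v, hv⟩ : ∃ v, L v ≠ 0 := by
      by_contra hcon
      push Not at hcon
      exact hdg (ContinuousLinearMap.ext hcon)
    set A : ℂ →L[ℂ] E q := (ContinuousLinearMap.id ℂ ℂ).smulRight ((L v)⁻¹ • v) with hA
    have hLA : ∀ x, L (A x) = x := by
      intro x
      simp [hA, hv]
    obtain ⟨O, O', G, hOo, hO'o, hzO, hON, hGa, s1, s2⟩ :=
      straighten (F := g) (hU.mem_nhds hzU) hg L hL A hLA
    refine ⟨Z ∩ O, inter_mem_nhdsWithin _ (hOo.mem_nhds hzO), ?_⟩
    set K : Submodule ℝ (E q) :=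
      LinearMap.ker (Complex.imLm.comp ((L : E q →ₗ[ℂ] ℂ).restrictScalars ℝ)) with hK
    have hKne : K ≠ ⊤ := by
      intro h
      have h1 : A Complex.I ∈ K := by rw [h]; trivial
      have h2 : (L (A Complex.I)).im = 0 := h1
      rw [hLA] at h2
      simp at h2
    have hK0 : volume (K : Set (E q)) = 0 := Measure.addHaar_submodule volume K hKne
    have hsub : {t | ∃ x : ℝ, t + (x : ℂ) • u ∈ Z ∩ O} ⊆
        (fun z => G (z - A (L z)) - L z • u) '' ((K : Set (E q)) ∩ {z | z - A (L z) ∈ O'}) := by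
      rintro t ⟨x, ⟨hz1, hz2, hz3⟩, hz4⟩
      obtain ⟨t1, t2, t3⟩ := s1 _ hz4
      set k := t + (x : ℂ) • u + A (g (t + (x : ℂ) • u) - L (t + (x : ℂ) • u)) with hk
      rw [hz2] at t3
      have h1 : L (k + A x) = x := by rw [map_add, t3, hLA, zero_add]
      refine ⟨k + A x, ⟨?_, ?_⟩, ?_⟩
      · change (L (k + A x)).im = 0
        rw [h1, Complex.ofReal_im]
      · change k + A x - A (L (k + A x)) ∈ O'
        rwa [h1, add_sub_cancel_right]
      · simp only
        rw [h1, add_sub_cancel_right, t2, add_sub_cancel_right]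
    refine measure_mono_null hsub ?_
    refine addHaar_image_eq_zero_of_differentiableOn_of_addHaar_eq_zero volume ?_
      (measure_mono_null inter_subset_left hK0)
    intro w hw
    have h1 : DifferentiableAt ℂ (fun z => G (z - A (L z)) - L z • u) w := by
      refine DifferentiableAt.sub ?_ (by fun_prop)
      exact DifferentiableAt.comp w (g := G) (hGa _ hw.2).differentiableAt (by fun_prop)
    exact (h1.restrictScalars ℝ).differentiableWithinAt
  choose! N hN hN0 using key
  obtain ⟨T, hTZ, hTc, hcov⟩ := TopologicalSpace.countable_cover_nhdsWithin hN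
  refine measure_mono_null (t := ⋃ z ∈ T, {t | ∃ x : ℝ, t + (x : ℂ) • u ∈ N z}) ?_
    ((measure_biUnion_null_iff hTc).2 fun z hz => hN0 z (hTZ hz))
  rintro t ⟨x, hx⟩
  obtain ⟨z, hz, h1⟩ := mem_iUnion₂.1 (hcov hx)
  exact mem_iUnion₂.2 ⟨z, hz, x, h1⟩

/-- generic real lines with a fixed direction miss a `σ`-thin set -/
theorem dense_line {D0 : Set (E q)} (h : STh D0) (u : E q) :
    Dense {t | ∀ x : ℝ, t + (x : ℂ) • u ∉ D0} := by
  obtain ⟨U, g, h1, h2⟩ := h
  refine Measure.dense_of_ae (μ := volume) ?_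
  have h3 := measure_iUnion_null fun j => piece_line_null (h1 j).1 (h1 j).2 u
  filter_upwards [measure_eq_zero_iff_ae_notMem.1 h3] with t ht x hx
  obtain ⟨j, hj⟩ := h2 _ hx
  exact ht (mem_iUnion.2 ⟨j, x, hj⟩)

/-- recurrence -/
theorem recur (A : AddSubgroup (E q)) {R : ℝ} (hR : ∀ t, ∃ a ∈ A, ‖t - a‖ ≤ R) (u : E q)
    {ε : ℝ} (hε : 0 < ε) (B : ℝ) : ∃ b : ℝ, B ≤ b ∧ ∃ a ∈ A, ‖(b : ℂ) • u - a‖ < ε := by
  choose a ha1 ha2 using fun k : ℕ => hR ((((k : ℝ) * |B| : ℝ) : ℂ) • u)
  obtain ⟨w, -, φ, hφ, hw⟩ := (isCompact_closedBall (0 : E q) R).tendsto_subseq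
    (x := fun k : ℕ => (((k : ℝ) * |B| : ℝ) : ℂ) • u - a k) (fun k => by simpa using ha2 k)
  obtain ⟨N, hN⟩ := Metric.cauchySeq_iff'.1 hw.cauchySeq ε hε
  have h1 := hN (N + 1) (Nat.le_succ N)
  have h2 : (φ N : ℝ) + 1 ≤ φ (N + 1) := by exact_mod_cast hφ (Nat.lt_succ_self N)
  refine ⟨(φ (N + 1) - φ N : ℝ) * |B|, ?_, a (φ (N + 1)) - a (φ N), A.sub_mem (ha1 _) (ha1 _), ?_⟩
  · nlinarith [le_abs_self B, abs_nonneg B]
  · rw [dist_eq_norm] at h1
    simp only [Function.comp_apply] at h1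
    refine lt_of_eq_of_lt (congrArg norm ?_) h1
    push_cast
    rw [sub_mul, sub_smul]
    abel

end Crest.Agent.X261.Fib.Rt
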