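import Crest.Agent.R266.Osgood

/-!
# X261 / FIB, Sec (helper89), part A: a quantitative inverse function theorem

* `sec_of_approx` : a continuous section of a map which approximates an invertible linear map;
* `quant_section` : a holomorphic map has a section of radius `c |minor|²`, uniformly on compacts.
-/

set_option autoImplicit false

noncomputable section

open Set Metric Filter Topology Matrix
open scoped NNReal

namespace Crest.Agent.X261.Fib.Sec

theorem sec_of_approx {V W : Type*} [NormedAddCommGroup V] [NormedSpace ℂ V] [CompleteSpace V]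
    [NormedAddCommGroup W] [NormedSpace ℂ W] {g : V → W} {T : V →L[ℂ] W} {R : W → V} {N s : ℝ}
    (hN : 0 < N) (hs : 0 ≤ s) (hR : ∀ y, ‖R y‖ ≤ N * ‖y‖) (hTR : ∀ y, T (R y) = y)
    (hT : ∀ w, ‖w‖ ≤ N * ‖T w‖)
    (hg : ∀ x ∈ closedBall (0 : V) s, ∀ y ∈ closedBall (0 : V) s,
      ‖g x - g y - T (x - y)‖ ≤ (2 * N)⁻¹ * ‖x - y‖) :
    ∃ σ : W → V, ContinuousOn σ (closedBall (g 0) ((2 * N)⁻¹ * s)) ∧ σ (g 0) = 0 ∧
      ∀ t ∈ closedBall (g 0) ((2 * N)⁻¹ * s), σ t ∈ closedBall (0 : V) s ∧ g (σ t) = t := by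
  classical
  have h1 : ApproximatesLinearOn g T (closedBall 0 s) ⟨(2 * N)⁻¹, by positivity⟩ := hg
  have h2 := h1.surjOn_closedBall_of_nonlinearRightInverse ⟨R, ⟨N, hN.le⟩, hR, hTR⟩ hs Subset.rfl
  have h3 : ((N : ℝ)⁻¹ - (2 * N)⁻¹) = (2 * N)⁻¹ := by
    field_simp
    ring
  have h4 : ∀ t, ∃ w, t ∈ closedBall (g 0) ((2 * N)⁻¹ * s) →
      w ∈ closedBall (0 : V) s ∧ g w = t := fun t => by
    by_cases h : t ∈ closedBall (g 0) ((2 * N)⁻¹ * s)
    · obtain ⟨w, hw, h5⟩ := h2 (h3 ▸ h :)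
      exact ⟨w, fun _ => ⟨hw, h5⟩⟩
    · exact ⟨0, fun h' => absurd h' h⟩
  choose σ hσ using h4
  have h5 : ∀ x ∈ closedBall (0 : V) s, ∀ y ∈ closedBall (0 : V) s,
      ‖x - y‖ ≤ 2 * N * ‖g x - g y‖ := fun x hx y hy => by
    have h6 := hT (x - y)
    have h7 : ‖T (x - y)‖ ≤ ‖g x - g y‖ + (2 * N)⁻¹ * ‖x - y‖ := by
      have := norm_sub_le (g x - g y) (g x - g y - T (x - y))
      rw [sub_sub_cancel] at this
      linarith [hg x hx y hy]
    have h8 := mul_le_mul_of_nonneg_left h7 hN.le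
    have h9 : N * ((2 * N)⁻¹ * ‖x - y‖) = ‖x - y‖ / 2 := by field_simp
    rw [mul_add, h9] at h8
    linarith
  have h0 : g 0 ∈ closedBall (g 0) ((2 * N)⁻¹ * s) := mem_closedBall_self (by positivity)
  refine ⟨σ, (LipschitzOnWith.of_dist_le_mul (K := ⟨2 * N, by positivity⟩)
    fun t ht t' ht' => ?_).continuousOn, ?_, hσ⟩
  · have := h5 _ (hσ t ht).1 _ (hσ t' ht').1
    rwa [(hσ t ht).2, (hσ t' ht').2, ← dist_eq_norm, ← dist_eq_norm] at this
  · have := h5 _ (hσ _ h0).1 0 (mem_closedBall_self hs)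
    rwa [(hσ _ h0).2, sub_self, norm_zero, mul_zero, sub_zero, norm_le_zero_iff] at this

/-- determinants and adjugates of matrices with bounded entries -/
theorem exists_adj_bound (q : ℕ) (M : ℝ) : ∃ C : ℝ, 1 ≤ C ∧ ∀ A : Matrix (Fin q) (Fin q) ℂ,
    (∀ k l, ‖A k l‖ ≤ M) → ‖A.det‖ ≤ C ∧ ∀ v, ‖A.adjugate *ᵥ v‖ ≤ C * ‖v‖ := by
  have hK : IsCompact (closedBall (0 : Fin q → Fin q → ℂ) (max M 0)) := isCompact_closedBall _ _
  have hc : Continuous fun A : Fin q → Fin q → ℂ => Matrix.of A := continuous_id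
  obtain ⟨C₁, h1⟩ := hK.exists_bound_of_continuousOn hc.matrix_det.continuousOn
  obtain ⟨C₂, h2⟩ := hK.exists_bound_of_continuousOn
    (f := fun A : Fin q → Fin q → ℂ => fun k l => (Matrix.of A).adjugate k l)
    hc.matrix_adjugate.continuousOn
  refine ⟨max 1 (max C₁ (q * C₂)), le_max_left _ _, fun A hA => ?_⟩
  have h3 : (fun k l => A k l) ∈ closedBall (0 : Fin q → Fin q → ℂ) (max M 0) := by
    rw [mem_closedBall_zero_iff, pi_norm_le_iff_of_nonneg (le_max_right _ _)]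
    exact fun k => (pi_norm_le_iff_of_nonneg (le_max_right _ _)).2 fun l =>
      (hA k l).trans (le_max_left _ _)
  refine ⟨(h1 _ h3).trans ((le_max_left _ _).trans (le_max_right _ _)), fun v => ?_⟩
  refine (pi_norm_le_iff_of_nonneg (by positivity)).2 fun k => ?_
  have h4 : ∀ l, ‖A.adjugate k l * v l‖ ≤ C₂ * ‖v‖ := fun l => by
    rw [norm_mul]
    exact mul_le_mul (((norm_le_pi_norm _ l).trans (norm_le_pi_norm _ k)).trans (h2 _ h3))
      (norm_le_pi_norm v l) (norm_nonneg _) ((norm_nonneg _).trans (h2 _ h3))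
  calc ‖(A.adjugate *ᵥ v) k‖ ≤ ∑ l, ‖A.adjugate k l * v l‖ :=
        norm_sum_le Finset.univ fun l => A.adjugate k l * v l
    _ ≤ ∑ _l : Fin q, C₂ * ‖v‖ := Finset.sum_le_sum fun l _ => h4 l
    _ = q * C₂ * ‖v‖ := by simp [mul_assoc]
    _ ≤ _ := mul_le_mul_of_nonneg_right ((le_max_right _ _).trans (le_max_right _ _))
        (norm_nonneg _)

variable {V : Type*} [NormedAddCommGroup V] [NormedSpace ℂ V] {q : ℕ}

/-- the plane spanned by `u` -/
def pl (u : Fin q → V) : (Fin q → ℂ) →L[ℂ] V :=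
  ∑ l, (ContinuousLinearMap.proj l : (Fin q → ℂ) →L[ℂ] ℂ).smulRight (u l)

theorem pl_apply (u : Fin q → V) (w : Fin q → ℂ) : pl u w = ∑ l, w l • u l := by
  simp [pl]

theorem norm_pl_le {u : Fin q → V} (hu : ∀ l, ‖u l‖ ≤ 1) (w : Fin q → ℂ) :
    ‖pl u w‖ ≤ (q + 1) * ‖w‖ := by
  rw [pl_apply]
  calc _ ≤ ∑ l, ‖w l • u l‖ := norm_sum_le _ _
    _ ≤ ∑ _l : Fin q, ‖w‖ := Finset.sum_le_sum fun l _ => by
        rw [norm_smul]
        exact (mul_le_of_le_one_right (norm_nonneg _) (hu l)).trans (norm_le_pi_norm w l)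
    _ = q * ‖w‖ := by simp
    _ ≤ _ := mul_le_mul_of_nonneg_right (by linarith) (norm_nonneg _)

/-- the minor of `T` along `u` -/
def mnr (T : V →L[ℂ] (Fin q → ℂ)) (u : Fin q → V) : Matrix (Fin q) (Fin q) ℂ :=
  Matrix.of fun k l => T (u l) k

theorem mnr_mulVec (T : V →L[ℂ] (Fin q → ℂ)) (u : Fin q → V) (w : Fin q → ℂ) :
    mnr T u *ᵥ w = T (pl u w) := by
  funext k
  simp [pl_apply, mnr, mulVec, dotProduct, mul_comm]

/-- **quantitative inverse function theorem** -/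
theorem quant_section [FiniteDimensional ℂ V] {f : V → Fin q → ℂ} {O K : Set V} (hO : IsOpen O)
    (hf : DifferentiableOn ℂ f O) (hK : IsCompact K) (hKO : K ⊆ O) :
    ∃ c : ℝ, 0 < c ∧ ∀ z ∈ K, ∀ u : Fin q → V, (∀ l, ‖u l‖ ≤ 1) →
      c * ‖(mnr (fderiv ℂ f z) u).det‖ ^ 2 ≤ 1 ∧ ((mnr (fderiv ℂ f z) u).det ≠ 0 →
        ∃ σ : (Fin q → ℂ) → V,
          ContinuousOn σ (closedBall (f z) (c * ‖(mnr (fderiv ℂ f z) u).det‖ ^ 2)) ∧
          σ (f z) = z ∧ ∀ t ∈ closedBall (f z) (c * ‖(mnr (fderiv ℂ f z) u).det‖ ^ 2),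
            σ t ∈ O ∧ f (σ t) = t ∧ Function.Surjective (fderiv ℂ f (σ t))) := by
  have : ProperSpace V := FiniteDimensional.proper ℂ V
  have ha := (R266.SCV.analyticOnNhd_of_differentiableOn hO hf).fderiv
  obtain ⟨δ, hδ, hδO⟩ := hK.exists_cthickening_subset_open hO hKO
  have hK' : IsCompact (cthickening δ K) := hK.cthickening
  obtain ⟨M₁, hM₁⟩ := hK.exists_bound_of_continuousOn (ha.continuousOn.mono hKO)
  obtain ⟨M₂, hM₂⟩ := hK'.exists_bound_of_continuousOn (ha.fderiv.continuousOn.mono hδO)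
  obtain ⟨C, hC, hadj⟩ := exists_adj_bound q M₁
  have hC0 : 0 < C := by linarith
  set M := max M₂ 1 with hM
  have hM0 : 0 < M := lt_max_of_lt_right one_pos
  set κ := min (δ / ((q + 1) * C)) (2 * C * M * (q + 1) ^ 2)⁻¹ with hκ
  have hκ0 : 0 < κ := lt_min (by positivity) (by positivity)
  refine ⟨min (κ / (2 * C)) (C ^ 2)⁻¹, lt_min (by positivity) (by positivity), fun z hz u hu => ?_⟩
  obtain ⟨h1, h2⟩ := hadj (mnr (fderiv ℂ f z) u) fun k l =>
    (norm_le_pi_norm _ k).trans (((fderiv ℂ f z).le_opNorm _).trans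
      ((mul_le_of_le_one_right (norm_nonneg _) (hu l)).trans (hM₁ z hz)))
  set d := (mnr (fderiv ℂ f z) u).det with hd
  refine ⟨?_, fun hd0 => ?_⟩
  · calc _ ≤ (C ^ 2)⁻¹ * C ^ 2 := mul_le_mul (min_le_right _ _)
          (pow_le_pow_left₀ (norm_nonneg _) h1 2) (by positivity) (by positivity)
      _ = 1 := inv_mul_cancel₀ (by positivity)
  have hd1 : 0 < ‖d‖ := norm_pos_iff.2 hd0
  have hmem : ∀ w ∈ closedBall (0 : Fin q → ℂ) (κ * ‖d‖), z + pl u w ∈ closedBall z δ := by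
    intro w hw
    rw [mem_closedBall_zero_iff] at hw
    rw [mem_closedBall, dist_eq_norm, add_sub_cancel_left]
    calc _ ≤ (q + 1) * ‖w‖ := norm_pl_le hu w
      _ ≤ (q + 1) * (δ / ((q + 1) * C) * C) := mul_le_mul_of_nonneg_left
          (hw.trans (mul_le_mul (min_le_left _ _) h1 hd1.le (by positivity))) (by positivity)
      _ = δ := by field_simp
  have hsub : closedBall z δ ⊆ O := (closedBall_subset_cthickening hz δ).trans hδO
  have hder : ∀ w ∈ closedBall (0 : Fin q → ℂ) (κ * ‖d‖), HasFDerivAt (fun w => f (z + pl u w))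
      ((fderiv ℂ f (z + pl u w)).comp (pl u)) w := fun w hw =>
    (hf.differentiableAt (hO.mem_nhds (hsub (hmem w hw)))).hasFDerivAt.comp w
      ((pl u).hasFDerivAt.const_add z)
  have hclose : ∀ w ∈ closedBall (0 : Fin q → ℂ) (κ * ‖d‖),
      ‖(fderiv ℂ f (z + pl u w)).comp (pl u) - (fderiv ℂ f z).comp (pl u)‖ ≤
        (2 * (C / ‖d‖))⁻¹ := by
    intro w hw
    have h3 := (convex_closedBall z δ).norm_image_sub_le_of_norm_fderiv_le (𝕜 := ℂ) (C := M)
      (f := fderiv ℂ f) (fun x hx => (ha x (hsub hx)).differentiableAt)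
      (fun x hx => (hM₂ x (closedBall_subset_cthickening hz δ hx)).trans (le_max_left _ _))
      (mem_closedBall_self hδ.le) (hmem w hw)
    rw [add_sub_cancel_left] at h3
    rw [mem_closedBall_zero_iff] at hw
    rw [← ContinuousLinearMap.sub_comp]
    calc _ ≤ _ := ContinuousLinearMap.opNorm_comp_le _ _
      _ ≤ M * ((q + 1) * ((2 * C * M * (q + 1) ^ 2)⁻¹ * ‖d‖)) * (q + 1) := by
        refine mul_le_mul (h3.trans (mul_le_mul_of_nonneg_left ((norm_pl_le hu w).trans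
          (mul_le_mul_of_nonneg_left (hw.trans (mul_le_mul_of_nonneg_right (min_le_right _ _)
            hd1.le)) (by positivity))) hM0.le))
          ((pl u).opNorm_le_bound (by positivity) (norm_pl_le hu)) (norm_nonneg _) (by positivity)
      _ = _ := by field_simp
  have hT : ∀ w, ‖w‖ ≤ C / ‖d‖ * ‖(fderiv ℂ f z).comp (pl u) w‖ := fun w => by
    have h3 := h2 (mnr (fderiv ℂ f z) u *ᵥ w)
    rw [mulVec_mulVec, adjugate_mul, smul_mulVec, one_mulVec, norm_smul, mnr_mulVec] at h3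
    rw [div_mul_eq_mul_div, le_div_iff₀ hd1, mul_comm]
    exact h3
  obtain ⟨σ, h3, h4, h5⟩ := sec_of_approx (g := fun w => f (z + pl u w))
    (T := (fderiv ℂ f z).comp (pl u)) (R := fun y => d⁻¹ • (mnr (fderiv ℂ f z) u).adjugate *ᵥ y)
    (N := C / ‖d‖) (s := κ * ‖d‖) (by positivity) (by positivity)
    (fun y => by
      rw [norm_smul, norm_inv, div_mul_eq_mul_div, div_eq_inv_mul]
      exact mul_le_mul_of_nonneg_left (h2 y) (by positivity))
    (fun y => by
      rw [ContinuousLinearMap.comp_apply, ← mnr_mulVec, mulVec_smul, mulVec_mulVec, mul_adjugate,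
        smul_mulVec, one_mulVec, inv_smul_smul₀ hd0])
    hT (fun x hx y hy => (convex_closedBall _ _).norm_image_sub_le_of_norm_hasFDerivWithin_le'
      (fun w hw => (hder w hw).hasFDerivWithinAt) hclose hy hx)
  simp only [map_zero, add_zero] at h3 h4 h5
  have h6 : closedBall (f z) (min (κ / (2 * C)) (C ^ 2)⁻¹ * ‖d‖ ^ 2) ⊆
      closedBall (f z) ((2 * (C / ‖d‖))⁻¹ * (κ * ‖d‖)) := closedBall_subset_closedBall
    ((mul_le_mul_of_nonneg_right (min_le_left _ _) (by positivity)).trans_eq (by field_simp))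
  refine ⟨fun t => z + pl u (σ t), continuousOn_const.add
    ((pl u).continuous.comp_continuousOn (h3.mono h6)), by simp [h4], fun t ht => ?_⟩
  obtain ⟨h7, h8⟩ := h5 t (h6 ht)
  refine ⟨hsub (hmem _ h7), h8, ?_⟩
  have h9 : Function.Injective ((fderiv ℂ f (z + pl u (σ t))).comp (pl u)) := by
    refine (injective_iff_map_eq_zero _).2 fun w hw => ?_
    have h10 := ((fderiv ℂ f (z + pl u (σ t))).comp (pl u) - (fderiv ℂ f z).comp (pl u)).le_opNorm w
    rw [_root_.sub_apply, hw, zero_sub, norm_neg] at h10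
    have h11 := (hT w).trans (mul_le_mul_of_nonneg_left
      (h10.trans (mul_le_mul_of_nonneg_right (hclose _ h7) (norm_nonneg w))) (by positivity))
    have h12 : C / ‖d‖ * ((2 * (C / ‖d‖))⁻¹ * ‖w‖) = ‖w‖ / 2 := by field_simp
    rw [h12] at h11
    exact norm_le_zero_iff.1 (by linarith)
  have h10 := LinearMap.surjective_of_injective
    (f := ((fderiv ℂ f (z + pl u (σ t))).comp (pl u)).toLinearMap) h9
  exact Function.Surjective.of_comp (g := pl u) h10

end Crest.Agent.X261.Fib.Sec
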