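import Crest.Agent.X261.Fib.Defs
import Crest.Agent.X261.Fib.SecA
import Crest.Agent.X261.Cov.A
import Crest.Agent.X261.Uen.Sub
import Crest.Agent.R281.Pri2_989

/-!
# X261 / FIB, Sec (helper89), part B: the data `Sys` of an equivariant holomorphic map

`exists_sys` : an equivariant holomorphic map `a` of a covering of a compact manifold with discrete
periods and one regular point gives a system `Sys`; the radius `rho` is bounded below by the
squares of the minors of `d a`.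
-/

set_option autoImplicit false
set_option linter.unusedSectionVars false

noncomputable section

open Set Metric Filter Topology

namespace Crest.Agent.X261.Fib.Sec

open Crest.Agent.R275.Geo Crest.Agent.R273.UCov_914 Crest.Agent.R281.ThnM_280
open Crest.Agent.R281.Thn_280

/-! ### topological part -/

section top

variable {q : ℕ} {M : Type} [TopologicalSpace M] {G : Type} [Group G] [MulAction G M]
  [ContinuousConstSMul G M] {a : M → E q} {H : Subgroup G} {lam : G → E q}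

theorem lam_mul [Nonempty M] (he : ∀ g ∈ H, ∀ x, a (g • x) = a x + lam g) {g h : G} (hg : g ∈ H)
    (hh : h ∈ H) : lam (g * h) = lam g + lam h := by
  obtain ⟨x⟩ := ‹Nonempty M›
  have h1 := he _ (H.mul_mem hg hh) x
  rw [mul_smul, he g hg, he h hh, add_assoc, add_right_inj] at h1
  rw [← h1, add_comm]

theorem lam_inv (he : ∀ g ∈ H, ∀ x, a (g • x) = a x + lam g) [Nonempty M] {g : G} (hg : g ∈ H) :
    lam g⁻¹ = -lam g := by
  obtain ⟨x⟩ := ‹Nonempty M›
  have h1 := he _ (H.inv_mem hg) (g • x)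
  rw [inv_smul_smul, he g hg, add_assoc, left_eq_add] at h1
  exact eq_neg_of_add_eq_zero_right h1

/-- a compact set meeting all orbits of a subgroup of finite index -/
theorem exists_fund_sub [H.FiniteIndex] {C : Set M} (hC : IsCompact C)
    (h : ∀ x, ∃ g : G, g • x ∈ C) : ∃ C' : Set M, IsCompact C' ∧ ∀ x, ∃ g ∈ H, g • x ∈ C' := by
  refine ⟨⋃ v : G ⧸ H, (fun x => v.out⁻¹ • x) '' C,
    isCompact_iUnion fun v => hC.image (continuous_const_smul _), fun x => ?_⟩
  obtain ⟨g, hg⟩ := h x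
  refine ⟨(g : G ⧸ H).out⁻¹ * g, ?_, mem_iUnion.2 ⟨g, _, hg, (mul_smul _ _ _).symm⟩⟩
  rw [← QuotientGroup.eq, QuotientGroup.out_eq']

theorem prop_of [Nonempty M] (ha : Continuous a) (he : ∀ g ∈ H, ∀ x, a (g • x) = a x + lam g)
    (hd : ∃ c : ℝ, 0 < c ∧ ∀ g ∈ H, lam g ≠ 0 → c ≤ ‖lam g‖) {C : Set M} (hC : IsCompact C)
    (hf : ∀ x, ∃ g ∈ H, g • x ∈ C) {K : Set (E q)} (hK : IsCompact K) :
    ∃ C' : Set M, IsCompact C' ∧ ∀ x, a x ∈ K → ∃ g ∈ H, lam g = 0 ∧ g • x ∈ C' := by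
  obtain ⟨c, hc, hd⟩ := hd
  obtain ⟨R₁, h₁⟩ := (hC.image ha).isBounded.exists_norm_le
  obtain ⟨R₂, h₂⟩ := hK.isBounded.exists_norm_le
  have hfin : {l : E q | ‖l‖ ≤ R₁ + R₂ ∧ ∃ g ∈ H, lam g = l}.Finite := by
    refine Uen.Sub.finite_of_sep hc (fun l hl => hl.1) ?_
    rintro _ ⟨-, g, hg, rfl⟩ _ ⟨-, h, hh, rfl⟩ hl
    by_contra hne
    have h3 : lam (g * h⁻¹) = lam g - lam h := by
      rw [lam_mul he hg (H.inv_mem hh), lam_inv he hh, sub_eq_add_neg]
    have h4 := hd _ (H.mul_mem hg (H.inv_mem hh)) (by rw [h3]; exact sub_ne_zero.2 hne)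
    rw [h3] at h4
    exact absurd hl (not_lt.2 h4)
  have := hfin.to_subtype
  choose r hr hr' using fun l : {l : E q | ‖l‖ ≤ R₁ + R₂ ∧ ∃ g ∈ H, lam g = l} => l.2.2
  refine ⟨⋃ l, (fun x => (r l)⁻¹ • x) '' C,
    isCompact_iUnion fun l => hC.image (continuous_const_smul _), fun x hx => ?_⟩
  obtain ⟨g, hg, hgx⟩ := hf x
  have h3 : ‖lam g‖ ≤ R₁ + R₂ := by
    rw [show lam g = a (g • x) - a x by rw [he g hg, add_sub_cancel_left]]
    exact (norm_sub_le _ _).trans (add_le_add (h₁ _ ⟨_, hgx, rfl⟩) (h₂ _ hx))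
  refine ⟨(r ⟨_, h3, g, hg, rfl⟩)⁻¹ * g, H.mul_mem (H.inv_mem (hr _)) hg, ?_,
    mem_iUnion.2 ⟨_, _, hgx, (mul_smul _ _ _).symm⟩⟩
  rw [lam_mul he (H.inv_mem (hr _)) hg, lam_inv he (hr _), hr']
  exact neg_add_cancel _

theorem closed_image (ha : Continuous a) (he : ∀ g ∈ H, ∀ x, a (g • x) = a x + lam g)
    (hp : ∀ K : Set (E q), IsCompact K →
      ∃ C : Set M, IsCompact C ∧ ∀ x, a x ∈ K → ∃ g ∈ H, lam g = 0 ∧ g • x ∈ C)
    {Z : Set M} (hZ : IsClosed Z) (hi : ∀ g ∈ H, ∀ x ∈ Z, g • x ∈ Z) : IsClosed (a '' Z) := by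
  refine isClosed_of_closure_subset fun t ht => ?_
  obtain ⟨C, hC, h⟩ := hp _ (isCompact_closedBall t 1)
  have h1 : t ∈ closure (a '' (C ∩ Z)) := by
    refine closure_mono ?_ (isOpen_ball.inter_closure ⟨mem_ball_self one_pos, ht⟩)
    rintro _ ⟨h2, x, hx, rfl⟩
    obtain ⟨g, hg, h0, h3⟩ := h x (ball_subset_closedBall h2)
    exact ⟨g • x, ⟨h3, hi g hg x hx⟩, by rw [he g hg, h0, add_zero]⟩
  rw [((hC.inter_right hZ).image ha).isClosed.closure_eq] at h1
  exact image_mono inter_subset_right h1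

/-- a closed set which is open off a thin set -/
theorem eq_univ_of_sth {S D0 : Set (E q)} (hS : IsClosed S) (hD : STh D0)
    (ho : ∀ t ∈ S, t ∉ D0 → S ∈ 𝓝 t) {t0 : E q} (h0 : S ∈ 𝓝 t0) : S = univ := by
  obtain ⟨x, hxD, hx⟩ := hD.dense_compl.inter_nhds_nonempty h0
  have h1 : ∀ v : E q, {t : ℂ | x + t • v ∈ D0}.Countable → x + v ∈ S := by
    intro v hv
    have hc : Continuous fun t : ℂ => x + t • v := by fun_prop
    have h2 : IsPreconnected {t : ℂ | x + t • v ∈ D0}ᶜ :=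
      (hv.isPathConnected_compl_of_one_lt_rank (by simp)).isConnected.isPreconnected
    have h3 : _ ⊆ (fun t : ℂ => x + t • v) ⁻¹' interior S :=
      h2.subset_of_closure_inter_subset (isOpen_interior.preimage hc)
        ⟨0, by simpa using hxD, by simpa using mem_interior_iff_mem_nhds.2 (ho x hx hxD)⟩
        fun t ht => (mem_interior_iff_mem_nhds (s := S)).2 (ho _ (closure_minimal
          (preimage_mono interior_subset) (hS.preimage hc) ht.1) ht.2)
    have h4 := closure_minimal (h3.trans (preimage_mono interior_subset)) (hS.preimage hc)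
      (hv.dense_compl ℂ 1)
    simpa using h4
  refine eq_univ_of_forall fun y => ?_
  have h5 := closure_minimal (s := {v : E q | {t : ℂ | x + t • v ∈ D0}.Countable})
    (t := (fun v => x + v) ⁻¹' S) h1 (hS.preimage (by fun_prop)) (hD.dense_line x (y - x))
  simpa using h5

/-- radii of continuous sections of `a` with values in `U` -/
def Rs (a : M → E q) (U : Set M) (x : M) : Set ℝ :=
  {r | r ≤ 1 ∧ ∃ σ : E q → M, ContinuousOn σ (ball (a x) r) ∧ σ (a x) = x ∧
    ∀ t ∈ ball (a x) r, σ t ∈ U ∧ a (σ t) = t}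

/-- half of the largest radius -/
def rh (a : M → E q) (U : Set M) (x : M) : ℝ := sSup (Rs a U x) / 2

theorem zero_mem_Rs (U : Set M) (x : M) : 0 ∈ Rs a U x :=
  ⟨zero_le_one, fun _ => x, continuousOn_const, rfl, by simp⟩

theorem le_rh {U : Set M} {x : M} {r : ℝ} (h : r ∈ Rs a U x) : r / 2 ≤ rh a U x :=
  div_le_div_of_nonneg_right (le_csSup ⟨1, fun _ h => h.1⟩ h) two_pos.le

theorem sec_rh {U : Set M} {x : M} (h : 0 < rh a U x) :
    ∃ σ : E q → M, ContinuousOn σ (ball (a x) (rh a U x)) ∧ σ (a x) = x ∧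
      ∀ t ∈ ball (a x) (rh a U x), σ t ∈ U ∧ a (σ t) = t := by
  obtain ⟨r, ⟨-, σ, h1, h2, h3⟩, hr⟩ := exists_lt_of_lt_csSup ⟨0, zero_mem_Rs (a := a) U x⟩
    (show rh a U x < sSup (Rs a U x) by unfold rh at h ⊢; linarith)
  exact ⟨σ, h1.mono (ball_subset_ball hr.le), h2, fun t ht => h3 t (ball_subset_ball hr.le ht)⟩

theorem Rs_smul {U : Set M} {g : G} {c : E q} (he : ∀ x, a (g • x) = a x + c)
    (hU : ∀ x ∈ U, g • x ∈ U) (x : M) : Rs a U x ⊆ Rs a U (g • x) := by
  rintro r ⟨hr, σ, h1, h2, h3⟩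
  have h4 : ∀ t ∈ ball (a (g • x)) r, t - c ∈ ball (a x) r := fun t ht => by
    rw [mem_ball_iff_norm] at ht ⊢
    rwa [he, ← sub_sub, sub_right_comm] at ht
  refine ⟨hr, fun t => g • σ (t - c), (h1.comp (by fun_prop) h4).const_smul g, ?_, fun t ht => ?_⟩
  · simp only [he, add_sub_cancel_right, h2]
  · exact ⟨hU _ (h3 _ (h4 t ht)).1, by rw [he, (h3 _ (h4 t ht)).2, sub_add_cancel]⟩

theorem rh_smul {U : Set M} {g : G} {c : E q} (he : ∀ x, a (g • x) = a x + c)
    (hU : ∀ x ∈ U, g • x ∈ U) (hU' : ∀ x ∈ U, g⁻¹ • x ∈ U) (x : M) :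
    rh a U (g • x) = rh a U x := by
  have h := Rs_smul (a := a) (g := g⁻¹) (c := -c) (fun y => by
    rw [eq_add_neg_iff_add_eq, ← he, smul_inv_smul]) hU' (g • x)
  rw [inv_smul_smul] at h
  rw [rh, rh, (Rs_smul he hU x).antisymm h]

end top

/-! ### linear algebra -/

theorem surj_equiv {V W W' : Type*} [NormedAddCommGroup V] [NormedSpace ℂ V]
    [NormedAddCommGroup W] [NormedSpace ℂ W] [NormedAddCommGroup W'] [NormedSpace ℂ W']
    (T : W ≃L[ℂ] W') (c : W') (f : V → W) (z : V) :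
    Function.Surjective (fderiv ℂ (fun z => T (f z) + c) z) ↔
      Function.Surjective (fderiv ℂ f z) := by
  rw [fderiv_add_const, show (fun z => T (f z)) = T ∘ f from rfl, T.comp_fderiv]
  exact Function.Surjective.of_comp_iff' T.bijective _

theorem surj_ofLp {V : Type*} [NormedAddCommGroup V] [NormedSpace ℂ V] {q : ℕ} (f : V → Cn q)
    (z : V) : Function.Surjective (fderiv ℂ (fun z => (f z).ofLp) z) ↔
      Function.Surjective (fderiv ℂ f z) := by
  have h := surj_equiv (EuclideanSpace.equiv (Fin q) ℂ) 0 f z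
  simp only [add_zero] at h
  exact h

theorem exists_mnr {V : Type*} [NormedAddCommGroup V] [NormedSpace ℂ V] {q : ℕ}
    {T : V →L[ℂ] (Fin q → ℂ)} (hT : Function.Surjective T) :
    ∃ u : Fin q → V, (∀ l, ‖u l‖ ≤ 1) ∧ (mnr T u).det ≠ 0 := by
  choose w hw using fun l : Fin q => hT (Pi.single l 1)
  have h0 : ∀ l, (0 : ℝ) < ‖w l‖ + 1 := fun l => by positivity
  refine ⟨fun l => ((‖w l‖ + 1 : ℝ) : ℂ)⁻¹ • w l, fun l => ?_, ?_⟩
  · rw [norm_smul, norm_inv, Complex.norm_real, Real.norm_of_nonneg (h0 l).le,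
      inv_mul_le_iff₀ (h0 l)]
    linarith
  · have : mnr T (fun l => ((‖w l‖ + 1 : ℝ) : ℂ)⁻¹ • w l) =
        Matrix.diagonal fun l => ((‖w l‖ + 1 : ℝ) : ℂ)⁻¹ := by
      ext k l
      by_cases h : k = l
      · subst h
        simp [mnr, hw]
      · simp [mnr, hw, h]
    rw [this, Matrix.det_diagonal]
    exact Finset.prod_ne_zero_iff.2 fun l _ => inv_ne_zero (by exact_mod_cast (h0 l).ne')

/-! ### manifolds -/

section man

variable {n q : ℕ} {M : Type} [TopologicalSpace M] {B : Atl n M} {a : M → Cn q}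

theorem hol_univ (ha : ∀ p, DifferentiableOn ℂ (fun z => a ((B.e p).symm z)) (B.e p).target)
    (p : B.ι) : DifferentiableOn ℂ (fun z => a ((B.e p).symm z))
      ((B.e p).target ∩ (B.e p).symm ⁻¹' univ) := (ha p).mono inter_subset_left

theorem cont_of_hol (ha : ∀ p, DifferentiableOn ℂ (fun z => a ((B.e p).symm z)) (B.e p).target) :
    Continuous a := by
  refine continuous_iff_continuousAt.2 fun x => ?_
  obtain ⟨p, hp⟩ := B.cover x
  have h1 := ((ha p).continuousOn.comp (B.e p).continuousOn (B.e p).mapsTo).congr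
    (g := a) fun y hy => by simp [(B.e p).left_inv hy]
  exact h1.continuousAt ((B.e p).open_source.mem_nhds hp)

theorem quant_rh (ha : ∀ p, DifferentiableOn ℂ (fun z => a ((B.e p).symm z)) (B.e p).target)
    (p : B.ι) {K : Set (Cn n)} (hK : IsCompact K) (hKO : K ⊆ (B.e p).target) :
    ∃ c : ℝ, 0 < c ∧ ∀ z ∈ K, ∀ u : Fin q → Cn n, (∀ l, ‖u l‖ ≤ 1) →
      c * ‖(mnr (fderiv ℂ (fun z => (a ((B.e p).symm z)).ofLp) z) u).det‖ ^ 2 ≤
        min (rh (fun x => (a x).ofLp) (Crit B univ a)ᶜ ((B.e p).symm z)) 1 := by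
  obtain ⟨c, hc, h⟩ := quant_section (f := fun z => (a ((B.e p).symm z)).ofLp)
    (B.e p).open_target
    ((EuclideanSpace.equiv (Fin q) ℂ).differentiable.comp_differentiableOn (ha p)) hK hKO
  refine ⟨c / 2, half_pos hc, fun z hz u hu => ?_⟩
  obtain ⟨h1, h2⟩ := h z hz u hu
  set d := (mnr (fderiv ℂ (fun z => (a ((B.e p).symm z)).ofLp) z) u).det
  have h3 : c * ‖d‖ ^ 2 ∈ Rs (fun x => (a x).ofLp) (Crit B univ a)ᶜ ((B.e p).symm z) := by
    by_cases hd : d = 0
    · simpa [hd] using zero_mem_Rs _ _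
    obtain ⟨σ, h4, h5, h6⟩ := h2 hd
    refine ⟨h1, fun t => (B.e p).symm (σ t), (B.e p).continuousOn_symm.comp
      (h4.mono ball_subset_closedBall) fun t ht => (h6 t (ball_subset_closedBall ht)).1,
      by simp only [h5], fun t ht => ?_⟩
    obtain ⟨h7, h8, h9⟩ := h6 t (ball_subset_closedBall ht)
    refine ⟨?_, h8⟩
    rintro ⟨-, j, hj, hn⟩
    refine hn (surj_iff isOpen_univ (hol_univ ha) (mem_univ _) ((B.e p).map_target h7) hj ?_)
    rw [(B.e p).right_inv h7]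
    exact (surj_ofLp _ _).1 h9
  have h0 : 0 ≤ c * ‖d‖ ^ 2 := by positivity
  exact le_min (by have := le_rh h3; linarith) (by linarith)

theorem rh_pos (ha : ∀ p, DifferentiableOn ℂ (fun z => a ((B.e p).symm z)) (B.e p).target)
    {x : M} (hx : x ∉ Crit B univ a) : 0 < rh (fun x => (a x).ofLp) (Crit B univ a)ᶜ x := by
  obtain ⟨p, hp⟩ := B.cover x
  obtain ⟨c, hc, h⟩ := quant_rh ha p (isCompact_singleton (x := B.e p x))
    (singleton_subset_iff.2 ((B.e p).map_source hp))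
  obtain ⟨u, hu, hd⟩ := exists_mnr ((surj_ofLp _ _).2 (surj_of_not_crit (mem_univ x) hx hp))
  have h1 := (le_min_iff.1 (h _ rfl u hu)).1
  rw [(B.e p).left_inv hp] at h1
  exact lt_of_lt_of_le (mul_pos hc (pow_pos (norm_pos_iff.2 hd) 2)) h1

theorem sth_ofLp {S : Set (Cn q)} (h : STh S) : STh ((fun w : Cn q => w.ofLp) '' S) := by
  have h1 := h.preimage isOpen_univ (F := (EuclideanSpace.equiv (Fin q) ℂ).symm)
    (fun z _ => (EuclideanSpace.equiv (Fin q) ℂ).symm.analyticAt z) fun z _ => by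
      rw [ContinuousLinearEquiv.fderiv]
      exact (EuclideanSpace.equiv (Fin q) ℂ).symm.surjective
  refine h1.mono ?_
  rintro _ ⟨w, hw, rfl⟩
  exact ⟨trivial, hw⟩

end man

section cov

variable {n q : ℕ} {X : Type} [TopologicalSpace X] {A : Atl n X} {G : Type} [Group G]
  (D : MonD A G) {a : D.cov G → Cn q} {L : G → E q ≃L[ℂ] E q} {lam : G → E q}

/-- the chart expressions of `a` on two sheets -/
theorem read_deck (he : ∀ (g : G) e, (a (g • e)).ofLp = L g (a e).ofLp + lam g) (g : G) (i : A.ι)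
    (v : G) : (fun z => (a (((D.atl G).e (i, v)).symm z)).ofLp) =
      fun z => L g (a (((D.atl G).e (i, v * g)).symm z)).ofLp + lam g := by
  funext z
  rw [← he]
  change (a (D.pt i v _)).ofLp = (a (g • D.pt i (v * g) _)).ofLp
  rw [D.deck_pt, mul_inv_cancel_right]

theorem not_crit_deck (he : ∀ (g : G) e, (a (g • e)).ofLp = L g (a e).ofLp + lam g) (g : G)
    {x : D.cov G} (hx : x ∉ Crit (D.atl G) univ a) : g • x ∉ Crit (D.atl G) univ a := by
  rintro ⟨-, ⟨i, v⟩, hp, hn⟩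
  have h1 := surj_of_not_crit (mem_univ x) hx (i := (i, v * g)) (D.deck_mem_sheet.1 hp)
  refine hn ((surj_ofLp _ _).1 ?_)
  rw [read_deck D he g, surj_equiv]
  exact (surj_ofLp _ _).2 h1

/-- **FIB / Sec** -/
theorem exists_sys [CompactSpace X] [T2Space X] [Finite A.ι] [PreconnectedSpace (D.cov G)]
    (ha : ∀ p, DifferentiableOn ℂ (fun z => a (((D.atl G).e p).symm z)) ((D.atl G).e p).target)
    (he : ∀ (g : G) e, (a (g • e)).ofLp = L g (a e).ofLp + lam g)
    (H : Subgroup G) [H.FiniteIndex] (hL : ∀ g ∈ H, ∀ v, L g v = v)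
    (hd : ∃ c : ℝ, 0 < c ∧ ∀ g ∈ H, lam g ≠ 0 → c ≤ ‖lam g‖)
    (hr : ∃ x, x ∉ Crit (D.atl G) univ a) :
    ∃ S : Sys q (D.cov G) G, S.a = (fun x => (a x).ofLp) ∧ S.L = L ∧ S.lam = lam ∧ S.H = H ∧
      S.U = (Crit (D.atl G) univ a)ᶜ ∧ S.D0 = S.a '' Crit (D.atl G) univ a ∧
      Function.Surjective S.a ∧ (∀ g ∈ H, ∀ x, S.rho (g • x) = S.rho x) ∧
      ∀ p, ∀ K : Set (Cn n), IsCompact K → K ⊆ ((D.atl G).e p).target →
        ∃ c : ℝ, 0 < c ∧ ∀ z ∈ K, ∀ u : Fin q → Cn n, (∀ l, ‖u l‖ ≤ 1) →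
          c * ‖(mnr (fderiv ℂ (fun z => S.a (((D.atl G).e p).symm z)) z) u).det‖ ^ 2 ≤
            min (S.rho (((D.atl G).e p).symm z)) 1 := by
  obtain ⟨x0, hx0⟩ := hr
  have : Nonempty (D.cov G) := ⟨x0⟩
  have : ConnectedSpace (D.cov G) := ⟨‹_›⟩
  have := Cov.A.countable D
  have := D.secondCountable (F := G)
  have hc : Continuous fun x => (a x).ofLp :=
    (EuclideanSpace.equiv (Fin q) ℂ).continuous.comp (cont_of_hol ha)
  have heH : ∀ g ∈ H, ∀ x : D.cov G, (a (g • x)).ofLp = (a x).ofLp + lam g := fun g hg x => by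
    rw [he, hL g hg]
  have hop : IsOpen (Crit (D.atl G) univ a)ᶜ := by
    rw [compl_eq_univ_sdiff]
    exact isOpen_regular isOpen_univ (hol_univ ha)
  obtain ⟨C0, hC0, hf0⟩ := D.exists_fund
  obtain ⟨C, hC, hf⟩ := exists_fund_sub (H := H) hC0 hf0
  have hp := fun K hK => prop_of (K := K) hc heH hd hC hf hK
  have hsth : STh ((fun x => (a x).ofLp) '' Crit (D.atl G) univ a) := by
    rw [← image_image (fun w : Cn q => w.ofLp) a]
    exact sth_ofLp (sth_critval isOpen_univ (hol_univ ha))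
  have hn : ∀ x, x ∉ Crit (D.atl G) univ a →
      (fun x => (a x).ofLp) '' univ ∈ 𝓝 (a x).ofLp := fun x hx => by
    obtain ⟨σ, -, -, h⟩ := sec_rh (rh_pos ha hx)
    exact mem_of_superset (ball_mem_nhds _ (rh_pos ha hx)) fun t ht => ⟨σ t, trivial, (h t ht).2⟩
  have hs : (fun x => (a x).ofLp) '' univ = univ :=
    eq_univ_of_sth (closed_image hc heH hp isClosed_univ fun _ _ _ _ => trivial) hsth
      (by rintro _ ⟨x, -, rfl⟩ hx; exact hn x fun h => hx ⟨x, h, rfl⟩) (hn x0 hx0)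
  have hs' : Function.Surjective fun x => (a x).ofLp := fun t => by
    obtain ⟨x, -, hx⟩ := hs.symm.subset (mem_univ t)
    exact ⟨x, hx⟩
  have hcl : IsClosed ((fun x => (a x).ofLp) '' Crit (D.atl G) univ a) :=
    closed_image hc heH hp (isOpen_compl_iff.1 hop) fun g _ x hx => by
      by_contra h
      exact not_crit_deck D he g⁻¹ h (by rwa [inv_smul_smul])
  have hpre : IsPreconnected (Crit (D.atl G) univ a)ᶜ :=
    R281.Pri2_989.preconn_compl (sthM_crit isOpen_univ isPreconnected_univ (hol_univ ha)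
      ⟨x0, trivial, hx0⟩) hop (compl_compl _).subset
  have hcoc : ∃ R : ℝ, ∀ t : E q, ∃ g ∈ H, ‖t - lam g‖ ≤ R := by
    obtain ⟨R, hR⟩ := (hC.image hc).isBounded.exists_norm_le
    refine ⟨R, fun t => ?_⟩
    obtain ⟨x, rfl⟩ := hs' t
    obtain ⟨g, hg, hx⟩ := hf x
    refine ⟨g⁻¹, H.inv_mem hg, ?_⟩
    rw [lam_inv (a := fun x => (a x).ofLp) heH hg, sub_neg_eq_add, ← heH g hg]
    exact hR _ ⟨_, hx, rfl⟩
  have hinv : ∀ g ∈ H, ∀ x : D.cov G,
      rh (fun x => (a x).ofLp) (Crit (D.atl G) univ a)ᶜ (g • x) =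
        rh (fun x => (a x).ofLp) (Crit (D.atl G) univ a)ᶜ x := fun g hg x =>
    rh_smul (a := fun x => (a x).ofLp) (U := (Crit (D.atl G) univ a)ᶜ) (heH g hg)
      (fun x hx => not_crit_deck D he g hx) (fun x hx => not_crit_deck D he g⁻¹ hx) x
  have hsec := fun x (hx : x ∈ (Crit (D.atl G) univ a)ᶜ) =>
    And.intro (rh_pos ha hx) (sec_rh (rh_pos ha hx))
  let S : Sys q (D.cov G) G :=
    { a := fun x => (a x).ofLp
      cont_a := hc
      cont := fun g => continuous_const_smul g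
      L := L
      lam := lam
      eqv := he
      H := H
      LH := hL
      U := (Crit (D.atl G) univ a)ᶜ
      op := hop
      inv := fun g x hx => not_crit_deck D he g hx
      pre := hpre
      ne := ⟨x0, hx0⟩
      rho := rh (fun x => (a x).ofLp) (Crit (D.atl G) univ a)ᶜ
      sec := hsec
      D0 := (fun x => (a x).ofLp) '' Crit (D.atl G) univ a
      closed := hcl
      sth := hsth
      reg := fun x hx h => hx ⟨x, h, rfl⟩
      disc := hd
      coc := hcoc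
      prop := hp }
  refine ⟨S, rfl, rfl, rfl, rfl, rfl, rfl, hs', hinv, fun p K hK hKO => ?_⟩
  exact quant_rh ha p hK hKO

end cov

end Crest.Agent.X261.Fib.Sec
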