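import Crest.Agent.X261.Fib.Defs
import Crest.Agent.R276.SMax_137

/-!
# X261 / FIB (helper16), file Wt: a smooth invariant psh weight comparable to `psi`

* `Gd v y` : `v` is smooth and psh near `y`;
* `exists_wt0 : PSH psi → ∃ Ψ, Wt Ψ ∧ psi ≤ Ψ`;
* `glue` : gluing a local weight into a global one.
-/

set_option autoImplicit false
set_option linter.unusedSectionVars false

noncomputable section

open Set Metric Filter Topology MeasureTheory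
open scoped ContDiff

namespace Crest.Agent.X261.Fib

open Crest.Agent.R271.Ho51 Crest.Agent.R273.Reg_844 Crest.Agent.R276.NL_137
open Crest.Agent.R271.W792 (lev dsq Levi_eq_lev)
open Crest.Agent.R275.FL606 (Ker)

variable {q : ℕ} {Y : Type} [TopologicalSpace Y] [RDom q Y] [T2Space Y]

theorem lev_congr {φ χ : Y → ℝ} {x : Y} (h : φ =ᶠ[𝓝 x] χ) (w : E q) : lev φ x w = lev χ x w := by
  have h1 : ∀ v : E q, (fun y => D φ y v) =ᶠ[𝓝 x] fun y => D χ y v := fun v => by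
    filter_upwards [eventually_eventually_nhds.2 h] with y hy
    rw [D_congr hy]
  unfold lev
  rw [D_congr (h1 _), D_congr (h1 _)]

theorem tendsto_ch (x : Y) : Tendsto (ch x).symm (𝓝 (cp x)) (𝓝 x) := by
  have := (ch x).symm.continuousAt (x := cp x) (by simpa using (isCh_ch x).cp_mem (mem_ch x))
  rwa [ContinuousAt, (isCh_ch x).symm_cp (mem_ch x)] at this

theorem exists_sm {v : Y → ℝ} {y : Y}
    (h : ∀ᶠ y' in 𝓝 y, ContDiffAt ℝ (⊤ : ℕ∞) (v ∘ (ch y').symm) (cp y')) :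
    ∃ g, Sm g ∧ v =ᶠ[𝓝 y] g := by
  obtain ⟨b, hb, -, hs, -, -, h1⟩ := exists_bump y h
  refine ⟨fun x => b x * v x, fun x => ?_, h1.mono fun x hx => by simp [hx]⟩
  by_cases hx : x ∈ tsupport b
  · exact (hb x).mul (hs hx).2
  · have h2 : b =ᶠ[𝓝 x] 0 := notMem_tsupport_iff_eventuallyEq.1 hx
    refine (contDiffAt_const (c := (0 : ℝ))).congr_of_eventuallyEq ?_
    filter_upwards [(tendsto_ch x).eventually h2] with z hz
    simp [hz]

/-- smooth and psh near `y` -/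
def Gd (v : Y → ℝ) (y : Y) : Prop := ∃ g, Sm g ∧ v =ᶠ[𝓝 y] g ∧ ∀ w, 0 ≤ Levi g y w

theorem Gd.of {v : Y → ℝ} {y : Y}
    (h : ∀ᶠ y' in 𝓝 y, ContDiffAt ℝ (⊤ : ℕ∞) (v ∘ (ch y').symm) (cp y'))
    (hl : ∀ w, 0 ≤ lev v y w) : Gd v y := by
  obtain ⟨g, hg, hv⟩ := exists_sm h
  exact ⟨g, hg, hv, fun w => by rw [Levi_eq_lev hg, ← lev_congr hv]; exact hl w⟩

theorem Gd.congr {v v' : Y → ℝ} {y : Y} (h : Gd v y) (h' : v' =ᶠ[𝓝 y] v) : Gd v' y := by
  obtain ⟨g, hg, hv, hl⟩ := h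
  exact ⟨g, hg, h'.trans hv, hl⟩

theorem Gd.aff {v : Y → ℝ} {y : Y} (h : Gd v y) {a : ℝ} (ha : 0 ≤ a) (c : ℝ) :
    Gd (fun x => a * v x + c) y := by
  obtain ⟨g, hg, hv, hl⟩ := h
  refine ⟨fun x => a * g x + c, ((Sm.const a).mulR hg).add (Sm.const c),
    hv.mono fun x hx => by simp only [hx], fun w => ?_⟩
  rw [Levi_add ((Sm.const a).mulR hg) (Sm.const c), Levi_const, Levi_const_mul hg, add_zero]
  exact mul_nonneg ha (hl w)

theorem Gd.smax {a b : Y → ℝ} {y : Y} (ha : Gd a y) (hb : Gd b y) :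
    Gd (fun x => b x + SM (a x - b x)) y := by
  obtain ⟨g, hg, hv, hl⟩ := ha
  obtain ⟨g', hg', hv', hl'⟩ := hb
  refine ⟨fun x => g' x + SM (g x - g' x), hg'.add (Sm.comp SM_contDiff (hg.sub hg')), ?_,
    fun w => Levi_smax_nonneg hg hg' (hl w) (hl' w)⟩
  filter_upwards [hv, hv'] with x h1 h2
  simp only [h1, h2]

theorem Levi_exp {g : Y → ℝ} (hg : Sm g) (y : Y) (w : E q) :
    Levi (fun x => Real.exp (g x)) y w = Real.exp (g y) * dsq g y w + Real.exp (g y) * lev g y w := by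
  have h1 : Sm (fun x => Real.exp (g x)) := Sm.comp Real.contDiff_exp hg
  rw [Levi_eq_lev h1]
  exact Crest.Agent.R271.W792.lev_comp hg y
    (Eventually.of_forall fun t => Real.hasDerivAt_exp t) (Real.hasDerivAt_exp _) w h1

theorem Gd.exp {v : Y → ℝ} {y : Y} (h : Gd v y) : Gd (fun x => Real.exp (v x)) y := by
  obtain ⟨g, hg, hv, hl⟩ := h
  refine ⟨fun x => Real.exp (g x), Sm.comp Real.contDiff_exp hg,
    hv.mono fun x hx => by simp only [hx], fun w => ?_⟩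
  rw [Levi_exp hg, ← Levi_eq_lev hg]
  have := Crest.Agent.R271.W792.dsq_nonneg g y w
  have := hl w
  positivity

theorem Wt.gd {Ψ : Y → ℝ} (h : Wt Ψ) (y : Y) : Gd Ψ y := ⟨Ψ, h.sm, EventuallyEq.rfl, h.lev y⟩

theorem sm_of_gd {v : Y → ℝ} (h : ∀ y, Gd v y) : Sm v :=
  Sm.of_locally fun y => (h y).imp fun _ hg => ⟨hg.1, hg.2.1⟩

theorem Gd.levi {v : Y → ℝ} {y : Y} (h : Gd v y) (w : E q) : 0 ≤ Levi v y w := by
  obtain ⟨g, -, hv, hl⟩ := h
  rw [Levi_congr hv]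
  exact hl w

/-- scaled smooth maximum -/
def mx (δ a b : ℝ) : ℝ := δ * (δ⁻¹ * b + SM (δ⁻¹ * a - δ⁻¹ * b))

theorem mx_right {δ a b : ℝ} (hδ : 0 < δ) (h : a - b ≤ -δ) : mx δ a b = b := by
  rw [mx, SM_zero, add_zero, mul_inv_cancel_left₀ hδ.ne']
  rw [← mul_sub, inv_mul_le_iff₀ hδ]
  linarith

theorem mx_left {δ a b : ℝ} (hδ : 0 < δ) (h : δ ≤ a - b) : mx δ a b = a := by
  rw [mx, SM_id, add_sub_cancel, mul_inv_cancel_left₀ hδ.ne']
  rw [← mul_sub, le_inv_mul_iff₀ hδ]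
  linarith

theorem le_mx {δ : ℝ} (hδ : 0 < δ) (a b : ℝ) : b ≤ mx δ a b := by
  rw [mx, mul_add, mul_inv_cancel_left₀ hδ.ne']
  have := mul_nonneg hδ.le (SM_nonneg (δ⁻¹ * a - δ⁻¹ * b))
  linarith

theorem mx_le {δ a b c : ℝ} (hδ : 0 < δ) (ha : a ≤ c) (hb : b ≤ c) : mx δ a b ≤ c + δ := by
  rw [mx, mul_add, mul_inv_cancel_left₀ hδ.ne']
  have h1 := mul_le_mul_of_nonneg_left (SM_le (δ⁻¹ * a - δ⁻¹ * b)) hδ.le
  rw [mul_add, mul_one, mul_max_of_nonneg _ _ hδ.le, mul_zero, mul_sub,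
    mul_inv_cancel_left₀ hδ.ne', mul_inv_cancel_left₀ hδ.ne'] at h1
  have h2 : max (a - b) 0 ≤ c - b := max_le (by linarith) (by linarith)
  linarith

theorem Gd.mx {a b : Y → ℝ} {y : Y} (ha : Gd a y) (hb : Gd b y) {δ : ℝ} (hδ : 0 < δ) :
    Gd (fun x => mx δ (a x) (b x)) y := by
  have h := ((ha.aff (inv_pos.2 hδ).le 0).smax (hb.aff (inv_pos.2 hδ).le 0)).aff hδ.le 0
  simp only [add_zero] at h
  exact h

/-! ### the regularisation of `psi` -/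

variable {κ : E q → ℝ}

theorem norm_ker {ε : ℝ} (hκ : Ker volume κ) (hε : 0 < ε) {v : E q} (hv : κ v ≠ 0) :
    ‖(ε : ℂ) • v‖ < ε := by
  simpa using Ker.mem_ball hκ hv hε (0 : E q)

theorem reg_sh (hκ : Ker volume κ) {ε : ℝ} (hε : 0 < ε) (ψ : Y → ℝ) {y : Y} (h : ε ≤ dl y) :
    reg κ ε ψ y = ∫ v, κ v * ψ (sh y ((ε : ℂ) • v)) :=
  reg_eq hκ hε ψ (isCh_bch y) (mem_bch y) ((ball_subset_ball h).trans (ball_bch y))

theorem Tr.psi_eq {f : Y → Y} (hf : Tr f) (y : Y) : psi (f y) = psi y := by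
  rw [psi, hf.dl_eq, psi]

theorem reg_inv (hκ : Ker volume κ) {ε : ℝ} (hε : 0 < ε) {f : Y → Y} (hf : Tr f) {y : Y}
    (h : ε ≤ dl y) : reg κ ε psi (f y) = reg κ ε psi y := by
  rw [reg_sh hκ hε psi h, reg_sh hκ hε psi (by rwa [hf.dl_eq])]
  obtain ⟨c, hc⟩ := hf.eqv
  congr 1
  funext v
  by_cases hv : κ v = 0
  · simp [hv]
  · rw [← map_sh' hf.cont hc ((norm_ker hκ hε hv).trans_le h), hf.psi_eq]

theorem reg_le (hκ : Ker volume κ) {ε : ℝ} (hε : 0 < ε) {y : Y} (h : ε < dl y) :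
    reg κ ε psi y ≤ -Real.log (dl y - ε) := by
  rw [reg_sh hκ hε psi h.le]
  calc ∫ v, κ v * psi (sh y ((ε : ℂ) • v)) ≤ ∫ v, κ v * -Real.log (dl y - ε) := by
        refine integral_mono_of_nonneg (Eventually.of_forall fun v =>
          mul_nonneg (hκ.nonneg v) (psi_nonneg _)) ((hκ.integrable volume).mul_const _)
          (Eventually.of_forall fun v => ?_)
        by_cases hv : κ v = 0
        · simp [hv]
        · refine mul_le_mul_of_nonneg_left (neg_le_neg (Real.log_le_log (by linarith) ?_))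
            (hκ.nonneg v)
          have h1 := norm_ker hκ hε hv
          linarith [dl_sh (h1.trans h)]
    _ = _ := by rw [integral_mul_const, hκ.int, one_mul]

theorem gd_reg (hp : PSH (psi : Y → ℝ)) (hκ : Ker volume κ) (hs : ContDiff ℝ ∞ κ) {ε : ℝ}
    (hε : 0 < ε) {y : Y} (h : ε < dl y) : Gd (reg κ ε psi) y := by
  refine Gd.of ?_ (hp.lev_reg_nonneg hκ hs hε h (adm_dl y))
  filter_upwards [continuous_dl.continuousAt.eventually (lt_mem_nhds h)] with y' hy'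
  exact hp.contDiffAt_reg hκ hs hε hy' (adm_dl y')

/-- the radius of convolution adapted to the level `c` and the error `η` -/
def rad (η c : ℝ) : ℝ := (1 - Real.exp (-η)) * Real.exp (-c)

theorem rad_pos {η : ℝ} (hη : 0 < η) (c : ℝ) : 0 < rad η c :=
  mul_pos (sub_pos.2 (Real.exp_lt_one_iff.2 (neg_lt_zero.2 hη))) (Real.exp_pos _)

theorem rad_lt (η : ℝ) {c : ℝ} {y : Y} (h : psi y ≤ c) : rad η c < dl y := by
  refine lt_of_lt_of_le ?_ (psi_le_iff.1 h)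
  exact mul_lt_of_lt_one_left (Real.exp_pos _) (by linarith [Real.exp_pos (-η)])

theorem reg_rad_le (hκ : Ker volume κ) {η c : ℝ} (hη : 0 < η) {y : Y} (h : psi y ≤ c) :
    reg κ (rad η c) psi y ≤ psi y + η := by
  refine (reg_le hκ (rad_pos hη c) (rad_lt η h)).trans ?_
  have h1 : Real.exp (-η) * dl y ≤ dl y - rad η c := by
    have h2 := mul_le_mul_of_nonneg_left (psi_le_iff.1 h)
      (sub_pos.2 (Real.exp_lt_one_iff.2 (neg_lt_zero.2 hη))).le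
    unfold rad
    linarith
  have h3 := Real.log_le_log (mul_pos (Real.exp_pos _) (dl_pos y)) h1
  rw [Real.log_mul (Real.exp_pos _).ne' (dl_pos y).ne', Real.log_exp] at h3
  unfold psi
  linarith

/-- a global weight -/
theorem exists_wt0 (hp : PSH (psi : Y → ℝ)) : ∃ Ψ : Y → ℝ, Wt Ψ ∧ ∀ y, psi y ≤ Ψ y := by
  obtain ⟨κ, hκ, hs⟩ := exists_ker_pi q
  obtain ⟨δ, hδ⟩ : ∃ δ : ℕ → ℝ, ∀ j, δ j = (1 / 2) ^ j := ⟨_, fun _ => rfl⟩
  have hδ0 : ∀ j, 0 < δ j := fun j => by rw [hδ]; positivity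
  have hδ1 : ∀ j, δ j ≤ 1 := fun j => by rw [hδ]; exact pow_le_one₀ (by norm_num) (by norm_num)
  have hδ2 : ∀ j, δ (j + 1) = δ j / 2 := fun j => by rw [hδ, hδ, pow_succ]; ring
  obtain ⟨v, hv⟩ : ∃ v : ℕ → Y → ℝ, ∀ j, v j = reg κ (rad (δ j / 34) (j + 2)) psi :=
    ⟨_, fun _ => rfl⟩
  have hη : ∀ j, 0 < δ j / 34 := fun j => by have := hδ0 j; positivity
  have hv1 : ∀ (j : ℕ) (y : Y), psi y ≤ j + 2 → psi y ≤ v j y := fun j y h => by
    rw [hv]; exact hp.le_reg hκ (rad_pos (hη j) _) (rad_lt _ h) (adm_dl y)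
  have hv2 : ∀ (j : ℕ) (y : Y), psi y ≤ j + 2 → v j y ≤ psi y + δ j / 34 := fun j y h => by
    rw [hv]; exact reg_rad_le hκ (hη j) h
  obtain ⟨w, hw⟩ : ∃ w : ℕ → Y → ℝ,
      ∀ j y, w j y = (17 - 16 * δ j) * v j y + 8 * δ j * (2 * j + 3) := ⟨_, fun _ _ => rfl⟩
  have hwg : ∀ (j : ℕ) (y : Y), psi y ≤ j + 2 → Gd (w j) y := fun j y h => by
    have h1 : w j = fun y => (17 - 16 * δ j) * v j y + 8 * δ j * (2 * j + 3) := funext (hw j)
    rw [h1, hv]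
    exact (gd_reg hp hκ hs (rad_pos (hη j) _) (rad_lt _ h)).aff (by linarith [hδ1 j]) _
  have hA : ∀ (j : ℕ) (y : Y), psi y ≤ j + 1 / 4 → mx (δ j) (w (j + 1) y) (w j y) = w j y := by
    intro j y h
    refine mx_right (hδ0 j) ?_
    have h1 := hv1 j y (by linarith)
    have h2 := hv2 (j + 1) y (by push_cast; linarith)
    have h3 := mul_le_mul_of_nonneg_left h1 (by linarith [hδ1 j] : 0 ≤ 17 - 16 * δ j)
    have h4 := mul_le_mul_of_nonneg_left h2 (by linarith [hδ1 j] : 0 ≤ 17 - 8 * δ j)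
    rw [hw, hw, hδ2]
    rw [hδ2] at h4
    push_cast
    have h5 := hδ0 j
    nlinarith [mul_le_mul_of_nonneg_left h h5.le, mul_pos h5 h5]
  have hB : ∀ (j : ℕ) (y : Y), j + 3 / 4 ≤ psi y → psi y ≤ j + 2 →
      mx (δ j) (w (j + 1) y) (w j y) = w (j + 1) y := by
    intro j y h h'
    refine mx_left (hδ0 j) ?_
    have h1 := hv1 (j + 1) y (by push_cast; linarith)
    have h2 := hv2 j y h'
    have h3 := mul_le_mul_of_nonneg_left h1 (by linarith [hδ1 j] : 0 ≤ 17 - 8 * δ j)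
    have h4 := mul_le_mul_of_nonneg_left h2 (by linarith [hδ1 j] : 0 ≤ 17 - 16 * δ j)
    rw [hw, hw, hδ2]
    push_cast
    have h5 := hδ0 j
    nlinarith [mul_le_mul_of_nonneg_left h h5.le, mul_pos h5 h5]
  obtain ⟨Ψ, hΨ⟩ : ∃ Ψ : Y → ℝ,
      ∀ y, Ψ y = mx (δ ⌊psi y⌋₊) (w (⌊psi y⌋₊ + 1) y) (w ⌊psi y⌋₊ y) := ⟨_, fun _ => rfl⟩
  have hf1 : ∀ y : Y, (⌊psi y⌋₊ : ℝ) ≤ psi y := fun y => Nat.floor_le (psi_nonneg y)
  have hf2 : ∀ y : Y, psi y < (⌊psi y⌋₊ : ℝ) + 1 := fun y => Nat.lt_floor_add_one _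
  have hloc : ∀ (j : ℕ) (y : Y), (j : ℝ) - 1 / 4 < psi y → psi y < j + 1 →
      Ψ y = mx (δ j) (w (j + 1) y) (w j y) := by
    intro j y h1 h2
    by_cases h3 : (j : ℝ) ≤ psi y
    · rw [hΨ, (Nat.floor_eq_iff (psi_nonneg y)).2 ⟨h3, h2⟩]
    · have h4 : ⌊psi y⌋₊ + 1 = j := by
        have h5 : (⌊psi y⌋₊ : ℝ) < j := (hf1 y).trans_lt (not_le.1 h3)
        have h6 : (j : ℝ) < ⌊psi y⌋₊ + 2 := by linarith [hf2 y]
        have h7 : ⌊psi y⌋₊ < j := by exact_mod_cast h5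
        have h8 : j < ⌊psi y⌋₊ + 2 := by exact_mod_cast h6
        omega
      have h9 : (⌊psi y⌋₊ : ℝ) + 1 = j := by exact_mod_cast h4
      rw [hΨ, hB _ y (by linarith) (by linarith), h4, hA j y (by linarith [not_le.1 h3])]
  have hgd : ∀ y, Gd Ψ y := fun y => by
    refine ((hwg (⌊psi y⌋₊ + 1) y (by push_cast; linarith [hf2 y])).mx
      (hwg ⌊psi y⌋₊ y (by linarith [hf2 y])) (hδ0 ⌊psi y⌋₊)).congr ?_
    filter_upwards [continuous_psi.continuousAt.eventually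
      (Ioo_mem_nhds (by linarith [hf1 y] : (⌊psi y⌋₊ : ℝ) - 1 / 4 < psi y) (hf2 y))] with x hx
    exact hloc _ x hx.1 hx.2
  have hle : ∀ y, psi y ≤ Ψ y := fun y => by
    rw [hΨ]
    refine le_trans ?_ (le_mx (hδ0 _) _ _)
    have h1 := hv1 ⌊psi y⌋₊ y (by linarith [hf2 y])
    have h2 := psi_nonneg y
    have h3 := hδ0 ⌊psi y⌋₊
    have h4 := hδ1 ⌊psi y⌋₊
    rw [hw]
    have h5 : 0 ≤ 8 * δ ⌊psi y⌋₊ * (2 * ⌊psi y⌋₊ + 3) := by positivity
    nlinarith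
  have hwu : ∀ (j : ℕ) (y : Y), psi y ≤ j + 2 → (j : ℝ) ≤ psi y + 1 → w j y ≤ 33 * psi y + 57 := by
    intro j y h h'
    have h1 := hv1 j y h
    have h2 := hv2 j y h
    have h3 := hδ0 j
    have h4 := hδ1 j
    have h5 := psi_nonneg y
    have h6 : δ j * (2 * j + 3) ≤ 2 * j + 3 := mul_le_of_le_one_left (by positivity) h4
    rw [hw]
    nlinarith
  refine ⟨Ψ, ⟨sm_of_gd hgd, fun f hf y => ?_, fun y => (hgd y).levi,
    fun y => (psi_nonneg y).trans (hle y), 33, 58, fun y => ?_⟩, hle⟩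
  · have h1 : ∀ j : ℕ, psi y ≤ j + 2 → w j (f y) = w j y := fun j h => by
      rw [hw, hw, hv, reg_inv hκ (rad_pos (hη j) _) hf (rad_lt _ h).le]
    rw [hΨ, hΨ, hf.psi_eq, h1 _ (by push_cast; linarith [hf2 y]), h1 _ (by linarith [hf2 y])]
  · rw [hΨ]
    have h1 := mx_le (hδ0 ⌊psi y⌋₊)
      (hwu (⌊psi y⌋₊ + 1) y (by push_cast; linarith [hf2 y]) (by push_cast; linarith [hf1 y]))
      (hwu ⌊psi y⌋₊ y (by linarith [hf2 y]) (by linarith [hf1 y]))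
    linarith [hδ1 ⌊psi y⌋₊]

/-- gluing -/
theorem glue {Ψ v : Y → ℝ} (h0 : Wt Ψ) {c B : ℝ} (hs : ∀ y, Ψ y < c + 3 → Gd v y)
    (hi : ∀ f, Tr f → ∀ y, Ψ y < c + 3 → v (f y) = v y)
    (hb : ∀ y, Ψ y < c + 3 → 0 ≤ v y ∧ v y ≤ B) :
    ∃ Φ : Y → ℝ, Wt Φ ∧ ∀ y, Ψ y < c → Φ =ᶠ[𝓝 y] v := by
  classical
  obtain ⟨A, hA1, hA2⟩ : ∃ A : ℝ, 1 ≤ A ∧ B + 1 ≤ A := ⟨max 1 (B + 1), le_max_left _ _, le_max_right _ _⟩
  obtain ⟨a, ha⟩ : ∃ a : Y → ℝ, ∀ y, a y = A * Ψ y + -(A * (c + 1)) := ⟨_, fun _ => rfl⟩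
  have hag : ∀ y, Gd a y := fun y => by
    rw [show a = fun y => A * Ψ y + -(A * (c + 1)) from funext ha]
    exact (h0.gd y).aff (by linarith) _
  obtain ⟨Φ, hΦ⟩ : ∃ Φ : Y → ℝ, ∀ y, Φ y = if Ψ y < c + 3 then mx 1 (a y) (v y) else a y :=
    ⟨_, fun _ => rfl⟩
  have h1 : ∀ y, c + 2 < Ψ y → Φ y = a y := fun y h => by
    rw [hΦ]
    split_ifs with h2
    · refine mx_left one_pos ?_
      rw [ha]
      nlinarith [(hb y h2).2]
    · rfl
  have hc := h0.sm.continuous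
  have hgd : ∀ y, Gd Φ y := fun y => by
    by_cases h : Ψ y < c + 3
    · refine ((hag y).mx (hs y h) one_pos).congr ?_
      filter_upwards [hc.continuousAt.eventually (gt_mem_nhds h)] with x hx
      rw [hΦ, if_pos hx]
    · refine (hag y).congr ?_
      filter_upwards [hc.continuousAt.eventually (lt_mem_nhds (by linarith [not_lt.1 h] :
        c + 2 < Ψ y))] with x hx
      exact h1 x hx
  obtain ⟨K, C, hK⟩ := h0.le
  refine ⟨Φ, ⟨sm_of_gd hgd, fun f hf y => ?_, fun y => (hgd y).levi, fun y => ?_,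
    A * K, A * C + |A * (c + 1)| + A + 1, fun y => ?_⟩, fun y h => ?_⟩
  · rw [hΦ, hΦ, ha, ha, h0.inv f hf]
    split_ifs with h
    · rw [hi f hf y h]
    · rfl
  · rw [hΦ]
    split_ifs with h
    · exact (hb y h).1.trans (le_mx one_pos _ _)
    · rw [ha]
      nlinarith [not_lt.1 h]
  · have h2 := mul_le_mul_of_nonneg_left (hK y) (by linarith : 0 ≤ A)
    have h3 : 0 ≤ A * Ψ y := mul_nonneg (by linarith) (h0.nonneg y)
    have h4 := neg_abs_le (A * (c + 1))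
    have h5 := abs_nonneg (A * (c + 1))
    have h6 : a y ≤ A * Ψ y + |A * (c + 1)| + A := by rw [ha]; linarith
    rw [hΦ]
    split_ifs with h
    · have h7 := mx_le one_pos h6 (show v y ≤ _ by linarith [(hb y h).2])
      linarith
    · linarith
  · filter_upwards [hc.continuousAt.eventually (gt_mem_nhds h)] with x hx
    have h2 : Ψ x < c + 3 := by linarith
    rw [hΦ, if_pos h2]
    refine mx_right one_pos ?_
    rw [ha]
    nlinarith [(hb x h2).1]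

end Crest.Agent.X261.Fib
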